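import Vale.Agent.P366Q.T.Intp
import Vale.Agent.P366Y.T.UschA

/-!
# P366Q, row USCH: the estimate of Schauder on balls and on a manifold
-/

open Metric Filter Topology Set
open scoped ContDiff
open Vale.Agent.P366 Vale.Agent.P366.Stmt Vale.Agent.P366Z Vale.Agent.P366Y

noncomputable section

namespace Vale.Agent.P366M.Y

namespace UschX

variable {n : ℕ} {α A : ℝ} {c : E n}

/-- a Hölder function on a ball which vanishes near the boundary -/
theorem ho_of_supp {V : Type} [NormedAddCommGroup V] {Q : E n → V} (hα : 0 ≤ α)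
    (h : HoB α A Q (ball c 4)) (h0 : ∀ y, 3 < ‖y - c‖ → Q y = 0) : Ho α A Q := by
  have A0 := h.nn (mem_ball_self four_pos)
  have z : ∀ y, y ∉ ball c 4 → Q y = 0 := fun y hy =>
    h0 y (by linarith [not_lt.1 (mt mem_ball_iff_norm.2 hy)])
  have b : ∀ y, ‖Q y‖ ≤ A := fun y => by
    by_cases hy : y ∈ ball c 4
    · exact h.1 y hy
    · rwa [z y hy, norm_zero]
  have k : ∀ y w, y ∉ ball c 4 → ‖Q y - Q w‖ ≤ A * ‖y - w‖ ^ α := fun y w hy => by
    rw [z y hy, zero_sub, norm_neg]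
    rcases lt_or_ge 3 ‖w - c‖ with hw | hw
    · rw [h0 w hw, norm_zero]; positivity
    · refine (b w).trans (le_mul_of_one_le_right A0 (Real.one_le_rpow ?_ hα))
      linarith [not_lt.1 (mt mem_ball_iff_norm.2 hy), norm_sub_le_norm_sub_add_norm_sub y w c]
  refine ⟨b, fun y w => ?_⟩
  by_cases hy : y ∈ ball c 4
  · by_cases hw : w ∈ ball c 4
    · exact h.2 y hy w hw
    · rw [norm_sub_rev, norm_sub_rev y]; exact k w y hw
  · exact k y w hy

theorem d_of_ev {ζ : E n → ℝ} {y : E n} {t : ℝ} (e : ζ =ᶠ[𝓝 y] fun _ => t) :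
    ζ y = t ∧ P366Y.D1 ζ y = 0 ∧ P366Y.D2 ζ y = 0 :=
  ⟨e.self_of_nhds, funext fun i => (P366Z.pd_congr e i).trans (P366Z.pd_const t i y),
    funext₂ fun i j => by
      rw [P366Y.D2, P366Z.pd_congr (P366Z.pd_congr_ev e j) i,
        show (Stmt.pd j fun _ : E n => t) = fun _ => 0 from funext (P366Z.pd_const t j),
        P366Z.pd_const]
      rfl⟩

/-- the cut-off functions -/
theorem bump (h0 : 0 ≤ α) (h1 : α ≤ 1) {r s : ℝ} (hr : 0 < r) (hs : r < s) :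
    ∃ Z, 0 ≤ Z ∧ ∀ c : E n, ∃ ζ : E n → ℝ, ContDiff ℝ ∞ ζ ∧ (∀ y, 0 ≤ ζ y ∧ ζ y ≤ 1) ∧
      (∀ y, ‖y - c‖ < r → ζ =ᶠ[𝓝 y] fun _ => 1) ∧ (∀ y, s < ‖y - c‖ → ζ =ᶠ[𝓝 y] fun _ => 0) ∧
      HoB α Z ζ (ball c 4) ∧ HoB α Z (P366Y.D1 ζ) (ball c 4) ∧
      HoB α Z (P366Y.D2 ζ) (ball c 4) := by
  let η : ContDiffBump (0 : E n) := ⟨r, s, hr, hs⟩
  have sm : Stmt.Smooth η := η.contDiff
  have K := isCompact_closedBall (0 : E n) 4
  obtain ⟨Z₀, b₀⟩ := hoB_cpt K (f := η) fun y _ => sm.c1 y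
  obtain ⟨Z₁, b₁⟩ := hoB_cpt K (f := P366Y.D1 η) fun y _ => contDiffAt_pi.2 fun i => (sm.pd i).c1 y
  obtain ⟨Z₂, b₂⟩ := hoB_cpt K (f := P366Y.D2 η) fun y _ => contDiffAt_pi.2 fun i =>
    contDiffAt_pi.2 fun j => ((sm.pd j).pd i).c1 y
  have m0 : (0 : E n) ∈ closedBall (0 : E n) 4 := mem_closedBall_self (by norm_num)
  have p₀ := b₀.nn m0
  have p₁ := b₁.nn m0
  have p₂ := b₂.nn m0
  have tr : ∀ {V : Type} [NormedAddCommGroup V] {f : E n → V} {Z : ℝ} (c : E n),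
      HoB 1 Z f (closedBall 0 4) → Z ≤ Z₀ + Z₁ + Z₂ →
      HoB α (8 * (Z₀ + Z₁ + Z₂)) (fun y => f (y - c)) (ball c 4) := fun c h hZ =>
    have m : ∀ y ∈ ball c 4, y - c ∈ closedBall (0 : E n) 4 := fun y hy =>
      mem_closedBall_zero_iff.2 (mem_ball_iff_norm.1 hy).le
    HoB.of_one (c := c) (HoB.mono ⟨fun y hy => h.1 _ (m y hy), fun y hy z hz =>
      (h.2 _ (m y hy) _ (m z hz)).trans_eq (by rw [sub_sub_sub_cancel_right])⟩ hZ) subset_rfl h0 h1
  have cn : ∀ c : E n, Continuous fun y => ‖y - c‖ := fun c => by fun_prop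
  refine ⟨8 * (Z₀ + Z₁ + Z₂), by positivity, fun c => ⟨fun y => η (y - c),
    ContDiff.comp (g := η) sm (contDiff_id.sub contDiff_const), fun y => ⟨η.nonneg, η.le_one⟩,
    fun y hy => Eventually.mono ((isOpen_lt (cn c) continuous_const).mem_nhds hy) fun z hz =>
      η.one_of_mem_closedBall (mem_closedBall_zero_iff.2 (le_of_lt hz)),
    fun y hy => Eventually.mono ((isOpen_lt continuous_const (cn c)).mem_nhds hy) fun z hz =>
      η.zero_of_le_dist (by rw [dist_zero_right]; exact le_of_lt hz),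
    tr c b₀ (by linarith), (tr c b₁ (by linarith)).congr fun y _ => P366Y.UschX.d1_tr _ c y,
    (tr c b₂ (by linarith)).congr fun y _ => P366Y.UschX.d2_tr _ c y⟩⟩

theorem el_eu (y : E n) : El 1 (P366Z.eu n y) := by
  refine ⟨fun i j => by simp only [P366Z.eu, eq_comm], fun i j => ?_, fun ξ => ?_⟩
  · unfold P366Z.eu; split_ifs <;> simp
  · simp [P366Z.eu, e2, pow_two]

theorem el_mix {Λ t : ℝ} {a b : Mx n} (ha : El Λ a) (hb : El Λ b) (h0 : 0 ≤ t) (h1 : t ≤ 1) :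
    El Λ (t • (a - b) + b) := by
  have e : ∀ i j, (t • (a - b) + b) i j = t * a i j + (1 - t) * b i j := fun i j => by
    simp only [Pi.add_apply, Pi.smul_apply, Pi.sub_apply, smul_eq_mul]; ring
  have h2 := sub_nonneg.2 h1
  refine ⟨fun i j => by rw [e, e, ha.1, hb.1], fun i j => ?_, fun ξ => ?_⟩
  · rw [e]
    refine (abs_add_le _ _).trans ?_
    rw [abs_mul, abs_mul, abs_of_nonneg h0, abs_of_nonneg h2]
    nlinarith [mul_le_mul_of_nonneg_left (ha.2.1 i j) h0, mul_le_mul_of_nonneg_left (hb.2.1 i j) h2]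
  · simp only [e, add_mul, Finset.sum_add_distrib, mul_assoc t, mul_assoc (1 - t),
      ← Finset.mul_sum]
    nlinarith [mul_le_mul_of_nonneg_left (ha.2.2 ξ) h0, mul_le_mul_of_nonneg_left (hb.2.2 ξ) h2]

end UschX

open UschX in
/-- **the interior estimate of Schauder** on balls of Euclidean space -/
theorem usch_ball (n : ℕ) {α : ℝ} (Λ : ℝ) (hα : α ∈ Ioo (0 : ℝ) 1) : ∃ C > (0 : ℝ),
    ∀ (c : E n) (a : E n → Mx n) (u : E n → ℝ) (T : ℝ), (∀ y ∈ ball c 4, El Λ (a y)) →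
      HoB α Λ a (ball c 4) → ContDiff ℝ 2 u → (∃ K, HoB α K (P366Y.D2 u) (ball c 4)) →
      HoB α T (P366Y.D1 u) (ball c 4) →
      HoB α T (fun y => pr2 (a y) (P366Y.D2 u y)) (ball c 4) →
      HoB α (C * T) (P366Y.D2 u) (ball c 1) := by
  obtain ⟨Z, Z0, hZ⟩ := bump (n := n) hα.1.le hα.2.le one_pos (show (1 : ℝ) < 3 / 2 by norm_num)
  obtain ⟨W, W0, hW⟩ := bump (n := n) hα.1.le hα.2.le two_pos (show (2 : ℝ) < 3 by norm_num)
  obtain ⟨I, hI⟩ : ∃ I : Mx n, I = P366Z.eu n 0 := ⟨_, rfl⟩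
  obtain ⟨C, C0, hC⟩ := P366Y.usch n α (2 * W * (|Λ| + ‖I‖) + ‖I‖ + |Λ| + 1) hα
  refine ⟨C * (2 * Z + 64 * n * Z + (2 * Z + n * (n * (2 * |Λ| * (4 * Z + 64 * n * Z))))) + 1,
    by positivity, fun c a u T he ha hu ⟨K, hK⟩ h1 hf => ?_⟩
  obtain ⟨ζ, z2, -, z1, z0, b0, b1, b2⟩ := hZ c
  obtain ⟨χ, -, w01, w1, w0, g0, -, -⟩ := hW c
  have m0 : c ∈ ball c 4 := mem_ball_self four_pos
  have T0 := h1.nn m0
  have z2' : ContDiff ℝ 2 ζ := z2.of_le two_le_oo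
  have du : ∀ y, DifferentiableAt ℝ u y := fun y => P366Z.diff2 hu.contDiffAt
  have dz : ∀ y, DifferentiableAt ℝ ζ y := fun y => P366Z.diff2 z2'.contDiffAt
  have l0 : ∀ y ∈ ball c 4, ∀ z ∈ ball c 4, ‖u y - u z‖ ≤ n * T * ‖y - z‖ := fun y hy z hz =>
    lip_of_D1 (convex_ball _ _) (fun y _ => du y) h1.1 hy hz
  have k0 : HoB α (8 * (4 * n * T)) (fun y => u y - u c) (ball c 4) :=
    HoB.of_one (c := c) ⟨fun y hy => (l0 y hy c m0).trans (by
      nlinarith [mem_ball_iff_norm.1 hy, show 0 ≤ n * T by positivity]), fun y hy z hz => by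
      rw [sub_sub_sub_cancel_right, Real.rpow_one]
      exact (l0 y hy z hz).trans (by gcongr; nlinarith [show 0 ≤ n * T by positivity])⟩
      subset_rfl hα.1.le hα.2.le
  obtain ⟨R, hR⟩ : ∃ R : E n → Mx n, R = fun y => (fun i j => P366Y.D1 ζ y i * P366Y.D1 u y j) +
    (fun i j => P366Y.D1 u y i * P366Y.D1 ζ y j) + (u y - u c) • P366Y.D2 ζ y := ⟨_, rfl⟩
  have kR : HoB α ((4 * Z + 64 * n * Z) * T) R (ball c 4) := by
    rw [hR]
    exact (((b1.tens Z0 T0 h1).add (h1.tens T0 Z0 b1)).add (k0.smul b2)).mono (le_of_eq (by ring))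
  have e1 : ∀ y, P366Y.D1 (fun y => ζ y * (u y - u c)) y =
      ζ y • P366Y.D1 u y + (u y - u c) • P366Y.D1 ζ y := fun y => funext fun i => by
    simp only [P366Y.D1, Pi.add_apply, Pi.smul_apply, smul_eq_mul]
    rw [P366Z.pd_mul (dz y) ((du y).sub_const _), P366Z.pd_sub_const]
    ring
  have e2 : ∀ y, P366Y.D2 (fun y => ζ y * (u y - u c)) y = ζ y • P366Y.D2 u y + R y := fun y =>
    funext₂ fun i j => by
      rw [P366Y.UschX.d2_mul z2' hu, hR]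
      simp only [P366Y.D1, P366Y.D2, Pi.add_apply, Pi.smul_apply, smul_eq_mul]
      ring
  have R0 : ∀ y t, (ζ =ᶠ[𝓝 y] fun _ => t) → R y = 0 := fun y t h => by
    rw [hR]
    funext i j
    simp [(d_of_ev h).2.1, (d_of_ev h).2.2]
  have o1 : ∀ y, 3 / 2 < ‖y - c‖ → ζ y = 0 := fun y hy => (z0 y hy).self_of_nhds
  have ha' : HoB α |Λ| a (ball c 4) := ha.mono (le_abs_self Λ)
  have e3 : ∀ y, pr2 (χ y • (a y - I) + I) (ζ y • P366Y.D2 u y + R y) =
      ζ y * pr2 (a y) (P366Y.D2 u y) + pr2 (a y) (R y) := fun y => by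
    rcases lt_or_ge ‖y - c‖ 2 with hy | hy
    · rw [(w1 y hy).self_of_nhds, one_smul, sub_add_cancel]
      simp only [pr2, Pi.add_apply, Pi.smul_apply, smul_eq_mul, mul_add, Finset.sum_add_distrib,
        Finset.mul_sum, mul_left_comm (ζ y)]
    · rw [o1 y (by linarith), R0 y 0 (z0 y (by linarith))]
      simp [pr2]
  have key := hC (fun y => χ y • (a y - I) + I) (fun y => ζ y * (u y - u c))
    ((2 * Z + 64 * n * Z) * T) ((2 * Z + n * (n * (2 * |Λ| * (4 * Z + 64 * n * Z)))) * T)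
    (fun y => ?_) ?_ (z2'.mul (hu.sub contDiff_const)) ⟨_, ho_of_supp hα.1.le
      (((b0.smul hK).add kR).congr fun y _ => e2 y) fun y hy => by
        rw [e2, o1 y (by linarith), R0 y 0 (z0 y (by linarith)), zero_smul, add_zero]⟩
    (ho_of_supp hα.1.le ((((b0.smul h1).add (k0.smul b1)).congr fun y _ => e1 y).mono
      (le_of_eq (by ring))) fun y hy => by
        rw [e1, o1 y (by linarith), (d_of_ev (z0 y (by linarith))).2.1, zero_smul, smul_zero,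
          add_zero]).1
    (ho_of_supp hα.1.le ((((b0.mul hf).add (ha'.pr2 kR)).congr fun y _ => by
      simp only [e2, e3]).mono (le_of_eq (by ring))) fun y hy => by
        simp only [e2, e3]
        rw [o1 y (by linarith), R0 y 0 (z0 y (by linarith))]
        simp [pr2])
  · refine ((key.hoB _).congr fun y hy => ?_).mono (by nlinarith)
    have := z1 y (mem_ball_iff_norm.1 hy)
    rw [e2, this.self_of_nhds, R0 y 1 this, one_smul, add_zero]
  · have p : 0 ≤ 2 * W * (|Λ| + ‖I‖) + ‖I‖ := by positivity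
    have hI' : El (2 * W * (|Λ| + ‖I‖) + ‖I‖ + |Λ| + 1) I :=
      el_mono (hI ▸ el_eu 0) (by linarith [abs_nonneg Λ])
    by_cases hy : y ∈ ball c 4
    · exact el_mix (el_mono (he y hy) (by linarith [le_abs_self Λ])) hI' (w01 y).1 (w01 y).2
    · rw [(w0 y (by linarith [not_lt.1 (mt mem_ball_iff_norm.2 hy)])).self_of_nhds, zero_smul,
        zero_add]
      exact hI'
  · refine hoB_univ.1 ((((ho_of_supp hα.1.le (g0.smul (ha'.dif (hoB_const I))) fun y hy => ?_).hoB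
      univ).add (hoB_const I)).mono (by linarith [abs_nonneg Λ]))
    rw [(w0 y hy).self_of_nhds, zero_smul]

section

variable {n : ℕ} {M : Type} [Mfs n M] {α C G T : ℝ} {v : M → ℝ}

/-- the first derivatives in the charts are Hölder -/
theorem Big.d1_ho (B : Big M C) (hG : ∀ x : M, HoB 1 G (Gm bg (ch x)) (ball (pt x) 4))
    (h0 : 0 ≤ α) (h1 : α ≤ 1) (hv : CD 2 v) (d1 : ∀ x, ‖D1 v x‖ ≤ T) (d2 : ∀ x, ‖D2 v x‖ ≤ T)
    (x : M) : HoB α (8 * (C + n * (C + n * (G * C))) * T) (P366Y.D1 (loc (ch x) v))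
      (ball (pt x) 4) := by
  have T0 := (norm_nonneg _).trans (d1 x)
  have G0 := (hG x).nn (mem_ball_self four_pos)
  have C0 := B.pos
  rw [mul_assoc]
  refine HoB.of_one (c := pt x) ⟨fun y hy => (B.d1_le (fun _ => diff2 hv.contDiffAt) d1 hy).trans
    (by gcongr; exact le_add_of_nonneg_right (by positivity)), fun y hy z hz => ?_⟩ subset_rfl h0 h1
  rw [Real.rpow_one]
  refine (lip_of_D2 (A := (C + n * (G * C)) * T) (convex_ball _ _)
    (fun _ _ => (hv _ (ch_mem x)).contDiffAt) (fun w hw => ?_) hy hz).trans ?_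
  · have a1 := IntpX.d2_sub B hG hv d1 hw
    have a2 := (B.rep_le hw (D2 v)).trans (mul_le_mul_of_nonneg_left (d2 _) C0.le)
    linarith [norm_sub_norm_le (P366Y.D2 (loc (ch x) v) w) (rep (ch x) (D2 v) w)]
  · exact mul_le_mul_of_nonneg_right (by linarith [mul_nonneg C0.le T0]) (norm_nonneg _)

/-- the estimate of Schauder with the supremum of the second derivatives on the right -/
theorem usch_sup (M : Type) [Mfs n M] (Λ : ℝ) (hα : α ∈ Ioo (0 : ℝ) 1) : ∃ C > (0 : ℝ),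
    ∀ (a : Fld n M) (v : M → ℝ) (T : ℝ), (∀ x, El Λ (a x)) → HoU α Λ a → CD 2 v →
      (∃ K, HoT α K (D2 v)) → (∀ x, ‖D1 v x‖ ≤ T) → (∀ x, ‖D2 v x‖ ≤ T) →
      HoS α T (fun x => pr2 (a x) (D2 v x)) → HoT α (C * T) (D2 v) := by
  obtain ⟨C, B⟩ := exists_big M
  obtain ⟨G, G0, hG⟩ := gm_bd bg_met (flat_bg (M := M) le_rfl)
  have C0 := B.pos
  obtain ⟨L, hL⟩ : ∃ L, L = (n * C ^ 2 + C) * |Λ| := ⟨_, rfl⟩
  have L0 : 0 ≤ L := by rw [hL]; positivity
  obtain ⟨D, D0, hD⟩ := usch_ball n L hα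
  obtain ⟨P, hP⟩ : ∃ P, P = 8 * (C + n * (C + n * (G * C))) := ⟨_, rfl⟩
  have P0 : 0 < P := by rw [hP]; positivity
  obtain ⟨Q, hQ⟩ : ∃ Q, Q = n * (2 * (8 * G) * P) := ⟨_, rfl⟩
  have Q0 : 0 ≤ Q := by rw [hQ]; positivity
  refine ⟨D * (P + (2 * C ^ 2 + n * (n * (2 * L * Q)))) + Q, by positivity,
    fun a v T he ha hv ⟨K, hK⟩ d1 d2 hf x => ?_⟩
  have T0 := hf.nn
  have h0 := hα.1.le
  have h1 := hα.2.le
  have k1 := B.d1_ho hG h0 h1 hv d1 d2 x
  rw [← hP] at k1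
  have k2 : HoB α (Q * T) (fun y => gc (Gm bg (ch x) y) (P366Y.D1 (loc (ch x) v) y))
      (ball (pt x) 4) := (hoB_gc (by positivity) (by positivity)
        ((hG x).of_one subset_rfl h0 h1) k1).mono (le_of_eq (by rw [hQ]; ring))
  have k3 : HoB α L (repU (ch x) a) (ball (pt x) 4) := (B.hU α Λ a h0 h1 ha x).mono (by
    rw [hL, add_mul]
    linarith [mul_le_mul_of_nonneg_left (le_abs_self Λ) C0.le,
      show 0 ≤ n * C ^ 2 * |Λ| by positivity])
  have e : ∀ y, P366Y.D2 (loc (ch x) v) y = rep (ch x) (D2 v) y +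
      gc (Gm bg (ch x) y) (P366Y.D1 (loc (ch x) v) y) := fun y =>
    d2_loc bg_met (ch_mem x) hv.contDiffAt
  have p1 : 0 ≤ (2 * C ^ 2 + n * (n * (2 * L * Q))) * T := by positivity
  have key := hD (pt x) (repU (ch x) a) (loc (ch x) v) ((P + (2 * C ^ 2 + n * (n * (2 * L * Q)))) * T)
    (fun y hy => hL ▸ B.el hy (he _)) k3 (hv _ (ch_mem x))
    ⟨_, ((B.hT α K _ h0 h1 hK x).add k2).congr fun y _ => e y⟩ (k1.mono (by linarith))
    ((((B.hS h0 h1 hf x).add (k3.pr2 k2)).congr fun y _ => by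
      rw [e, loc_apply, pr2_rep (ch_mem x)]
      simp only [pr2, Pi.add_apply, mul_add, Finset.sum_add_distrib]).mono (by
        linarith [mul_nonneg P0.le T0]))
  exact ((key.dif (k2.sub (one4 x))).congr fun y _ => by rw [e, add_sub_cancel_right]).mono
    (le_of_eq (by ring))

/-- **USCH** on manifolds with any number of ends -/
theorem usch' (M : Type) [Mfs n M] (Λ : ℝ) (hα : α ∈ Ioo (0 : ℝ) 1) : ∃ C > (0 : ℝ),
    ∀ (a : Fld n M) (v : M → ℝ) (A B : ℝ), (∀ x, El Λ (a x)) → HoU α Λ a → CD 2 v →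
      (∃ K, HoT α K (D2 v)) → (∀ x, ‖D1 v x‖ ≤ A) → HoS α B (fun x => pr2 (a x) (D2 v x)) →
      HoT α (C * (A + B)) (D2 v) := by
  obtain ⟨C, C0, hC⟩ := usch_sup M Λ hα
  obtain ⟨D, D0, hI⟩ := intp' M hα.1.le
  obtain ⟨r, r0, hr⟩ := P366Y.UschX.small hα.1 (c := C * D) (by positivity)
  obtain ⟨ρ, ρ0, ρ1, hρ⟩ : ∃ ρ > (0 : ℝ), ρ ≤ 1 ∧ C * D * ρ ^ α ≤ 1 / 4 :=
    ⟨min r 1, lt_min r0 one_pos, min_le_right _ _, le_trans (mul_le_mul_of_nonneg_left
      (Real.rpow_le_rpow (lt_min r0 one_pos).le (min_le_left _ _) hα.1.le) (by positivity)) hr⟩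
  refine ⟨2 * (C * (1 + D / ρ)), by positivity, fun a v A B he ha hv ⟨K, hK⟩ hA hB => ?_⟩
  have A0 : 0 ≤ A := (norm_nonneg _).trans (hA (Classical.arbitrary M))
  have B0 := hB.nn
  have st : ∀ K', 0 ≤ K' → HsT α K' (D2 v) →
      HoT α (C * (1 + D / ρ) * (A + B) + K' / 2) (D2 v) := fun K' K0 h => by
    have h2 := (hI v A K' ρ ρ0 ρ1 A0 K0 hv ⟨A, hA⟩ h).2 hA
    have S0 : 0 ≤ D * (A / ρ + K' * ρ ^ α) := by positivity
    refine (hC a v (A + B + D * (A / ρ + K' * ρ ^ α)) he ha hv ⟨K, hK⟩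
      (fun x => by linarith [hA x]) (fun x => by linarith [h2 x]) (hB.mono (by linarith))).mono ?_
    have h4 := mul_le_mul_of_nonneg_right hρ K0
    have h5 : 0 ≤ C * (D / ρ) * B := by positivity
    have h6 : C * (A + B + D * (A / ρ + K' * ρ ^ α)) + C * (D / ρ) * B =
        C * (1 + D / ρ) * (A + B) + C * D * ρ ^ α * K' := by ring
    linarith
  have key := IntpX.absorb (ι := (x : M) × ball (pt x) 1 × ball (pt x) 1)
    (f := fun p => ‖rep (ch p.1) (D2 v) p.2.1 - rep (ch p.1) (D2 v) p.2.2‖)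
    (w := fun p => ‖p.2.1.1 - p.2.2.1‖ ^ α) (G := C * (1 + D / ρ) * (A + B))
    (fun _ => by positivity) (by positivity) hK.nn (fun p => (hK p.1).2 _ p.2.1.2 _ p.2.2.2)
    fun K' K0 h p => (st K' K0 (fun x y hy z hz => h ⟨x, ⟨y, hy⟩, ⟨z, hz⟩⟩) p.1).2 _ p.2.1.2 _ p.2.2.2
  exact (st _ (by positivity) fun x y hy z hz => key ⟨x, ⟨y, hy⟩, ⟨z, hz⟩⟩).mono
    (le_of_eq (by ring))

end

/-- **USCH** -/
theorem usch : USCH := fun _ M _ _ Λ hα => usch' M Λ hα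

end Vale.Agent.P366M.Y
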