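import Vale.Agent.P366Q.T.Big
import Vale.Agent.P366Y.T.Regq

/-!
# P366Q, row REGQ: smoothness of the solutions of quasilinear equations on a manifold
-/

set_option maxSynthPendingDepth 3

open Metric Filter Topology Set
open scoped ContDiff
open Vale.Agent.P366 Vale.Agent.P366.Stmt Vale.Agent.P366Z Vale.Agent.P366Y
open Vale.Agent.P366Z.LinbH
open Vale.Agent.P272.K.R (HC Bil hc_id hc_const linear_reg allCCE)

noncomputable section

namespace Vale.Agent.P366M.Y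

/-- the local statement on Euclidean space -/
theorem regq_loc {n : ℕ} {α A : ℝ} {s : Set (E n)} {V : Set (E n × ℝ × Vc n)} {v : E n → ℝ}
    {a : E n × ℝ × Vc n → Mx n} {b : E n × ℝ × Vc n → ℝ} (hα : α ∈ Ioo (0 : ℝ) 1) (hs : IsOpen s)
    (hV : IsOpen V) (hv : ∀ y ∈ s, ContDiffAt ℝ 2 v y) (hH : HoB α A (P366Y.D2 v) s)
    (ha : ∀ q ∈ V, ContDiffAt ℝ ∞ a q) (hb : ∀ q ∈ V, ContDiffAt ℝ ∞ b q)
    (hm : ∀ y ∈ s, (y, P366Y.J1 v y) ∈ V) (hE : ∀ y ∈ s, ∃ Λ, El Λ (a (y, P366Y.J1 v y)))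
    (heq : ∀ y ∈ s, pr2 (a (y, P366Y.J1 v y)) (P366Y.D2 v y) = b (y, P366Y.J1 v y)) :
    ∀ y ∈ s, ContDiffAt ℝ ∞ v y := by
  obtain ⟨hα, hα1⟩ := hα
  have h2 : HC α s 2 v := by
    refine ⟨fun x hx => (hv x hx).differentiableAt (by norm_num), fun x hx =>
      ((hv x hx).fderiv_right (m := 1) (by norm_num)).differentiableAt (by norm_num), ?_⟩
    refine HC.of_apply hα hα1.le hs (EuclideanSpace.basisFun (Fin n) ℝ).toBasis fun i =>
      HC.of_apply hα hα1.le hs (EuclideanSpace.basisFun (Fin n) ℝ).toBasis fun j x hx => ?_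
    obtain ⟨r, r0, hr⟩ := Metric.isOpen_iff.1 hs x hx
    refine ⟨r, r0, hr, A, hH.nn hx, fun y hy z hz => ?_⟩
    simp only [OrthonormalBasis.coe_toBasis, EuclideanSpace.basisFun_apply,
      ← P366Z.pd_pd_eq (hv y (hr hy)), ← P366Z.pd_pd_eq (hv z (hr hz))]
    exact ((hH.app i).app j).2 y (hr hy) z (hr hz)
  let φ : E n × ℝ × (E n →L[ℝ] ℝ) → E n × ℝ × Vc n := fun q => (q.1, q.2.1, fun i => q.2.2 (ee i))
  have hφ : ContDiff ℝ ∞ φ := contDiff_fst.prodMk ((contDiff_fst.comp contDiff_snd).prodMk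
    (contDiff_pi.2 fun i => (contDiff_snd.comp contDiff_snd).clm_apply contDiff_const))
  have e : ∀ x ∈ s, φ (x, v x, fderiv ℝ v x) = (x, P366Y.J1 v x) := fun x hx =>
    Prod.ext rfl (Prod.ext rfl (funext fun i => (P366Z.pd_eq (P366Z.diff2 (hv x hx)) i).symm))
  have hW : IsOpen (φ ⁻¹' V) := hV.preimage hφ.continuous
  have hA : ∀ q ∈ φ ⁻¹' V, ContDiffAt ℝ ∞ (fun q => ∑ i, ∑ j, a (φ q) i j • ent i j) q :=
    fun q hq => ContDiffAt.sum fun i _ => ContDiffAt.sum fun j _ =>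
      (contDiffAt_pi.1 (contDiffAt_pi.1 ((ha _ hq).comp q hφ.contDiffAt) i) j).smul
        contDiffAt_const
  have hm' : ∀ x ∈ s, (x, v x, fderiv ℝ v x) ∈ φ ⁻¹' V := fun x hx => by
    rw [mem_preimage, e x hx]; exact hm x hx
  have key : ∀ k, HC α s (k + 2) v := fun k => by
    induction k with
    | zero => exact h2
    | succ k ih =>
      have hj : HC α s (k + 1) fun x => (x, v x, fderiv ℝ v x) :=
        (hc_id hα1.le hs).prodMk hα hα1.le hs
          ((ih.of_succ hα hα1.le hs).prodMk hα hα1.le hs ih.2)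
      refine linear_reg hα hα1.le (allCCE (E n) hα hα1) hs (k + 1) (c := fun _ => 0)
        (HC.comp_smooth hα hα1.le hs hW
          (fun y hy => (hA y hy).of_le (by exact_mod_cast le_top)) hj hm')
        (hc_const _ hs) (HC.comp_smooth hα hα1.le hs hW (fun y hy =>
          ((hb _ hy).comp y hφ.contDiffAt).neg.of_le (by exact_mod_cast le_top)) hj hm')
        (fun x hx l hl => ?_) h2 fun x hx => ?_
      · obtain ⟨Λ, hΛ⟩ := hE x hx
        refine (RegqH.ell hΛ hl).trans_eq ?_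
        simp only [e x hx, sum_apply, smul_apply,
          ent_apply, ContinuousLinearMap.smulRight_apply, smul_eq_mul, mul_assoc]
      · simp only [e x hx, sum_apply, smul_apply,
          ent_apply, smul_eq_mul, Function.comp_apply, ← heq x hx, pr2, P366Y.D2,
          P366Z.pd_pd_eq (hv x hx)]
        ring
  intro y hy
  refine contDiffAt_infty.2 fun k =>
    ((HC.mono hα hα1.le hs (Nat.le_add_right k 2) (key k)).contDiffOn hα hs).contDiffAt
      (hs.mem_nhds hy)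

section

variable {n : ℕ} {M : Type}

theorem jU_J1 [Mf n M] {e : Ch n M} (he : e ∈ At M) {v : M → ℝ} {y : E n}
    (hv : DAt v (e.symm y)) (a : M → ℝ × Vc n → Mx n) :
    jU e a (y, P366Y.J1 (loc e v) y) = repU e (fun x => a x (J1 v x)) y := by
  unfold jU repU
  simp only [P366Y.J1, ← rC_D1 he hv, tC_rC he]
  rfl

theorem jS_J1 [Mf n M] {e : Ch n M} (he : e ∈ At M) {v : M → ℝ} {y : E n}
    (hv : DAt v (e.symm y)) (b : M → ℝ × Vc n → ℝ) :
    jS e b (y, P366Y.J1 (loc e v) y) = b (e.symm y) (J1 v (e.symm y)) := by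
  unfold jS
  simp only [P366Y.J1, ← rC_D1 he hv, tC_rC he]
  rfl

theorem pr2_add' (a S T : Mx n) : pr2 a (S + T) = pr2 a S + pr2 a T := by
  simp only [pr2, Pi.add_apply, mul_add, Finset.sum_add_distrib]

/-- the second derivatives in the charts of a function of class `C^(2, α)` are Hölder -/
theorem C2H.d2_ch [Mfs n M] {α A : ℝ} {v : M → ℝ} (hv : C2H α A v) (h0 : 0 ≤ α) (h1 : α ≤ 1) :
    ∃ K, ∀ x : M, HoB α K (P366Y.D2 (loc (ch x) v)) (ball (pt x) 1) := by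
  obtain ⟨G, G0, hG⟩ := gm_bd bg_met (flat_bg (M := M) le_rfl)
  refine ⟨_, fun x => ((hv.2.2.2 x).add (hoB_gc (by positivity) hv.2.1.nn
    (((hG x).sub (one4 x)).of_one (one4 x) h0 h1) (hv.2.2.1 x))).congr fun y _ => ?_⟩
  rw [d2_loc bg_met (ch_mem x) hv.1.contDiffAt, rC_D1 (ch_mem x) (diff2 hv.1.contDiffAt)]
  rfl

end

/-- **REGQ** -/
theorem regq : REGQ := by
  intro n M _ α A v a b hα hv ha hb hE heq
  obtain ⟨K, hK⟩ := hv.d2_ch hα.1.le hα.2.le
  obtain ⟨C, B⟩ := exists_big M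
  refine cd_of_cAt le_rfl fun x => ?_
  have he := ch_mem x
  have d : ∀ y, DAt v y := fun y => diff2 hv.1.contDiffAt
  have hg : ContDiff ℝ ∞ fun w : E n × ℝ × Vc n => gc (Gm bg (ch x) w.1) w.2.2 :=
    contDiff_pi.2 fun i => contDiff_pi.2 fun j => ContDiff.sum fun k _ =>
      (ContDiff.comp ((bg_met.loc' x).sm_chr k i j) contDiff_fst).mul
        (contDiff_pi.1 (contDiff_snd.comp contDiff_snd) k)
  have hp : ContDiff ℝ ∞ fun w => pr2 (jU (ch x) a w) (gc (Gm bg (ch x) w.1) w.2.2) :=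
    ContDiff.sum fun i _ => ContDiff.sum fun j _ =>
      (contDiff_pi.1 (contDiff_pi.1 (ha x) i) j).mul (contDiff_pi.1 (contDiff_pi.1 hg i) j)
  refine regq_loc (a := jU (ch x) a)
    (b := fun w => jS (ch x) b w + pr2 (jU (ch x) a w) (gc (Gm bg (ch x) w.1) w.2.2)) hα
    isOpen_ball isOpen_univ (fun y _ => (hv.1 _ he).contDiffAt) (hK x)
    (fun q _ => (ha x).contDiffAt) (fun q _ => ((hb x).add hp).contDiffAt)
    (fun _ _ => mem_univ _) (fun y hy => ?_) (fun y _ => ?_) _ (pt_mem x)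
  · obtain ⟨Λ, hΛ⟩ := hE ((ch x).symm y)
    rw [jU_J1 he (d _)]
    exact ⟨_, B.el (a := fun x => a x (J1 v x)) (one4 x hy) hΛ⟩
  · rw [d2_loc bg_met he hv.1.contDiffAt, pr2_add', jS_J1 he (d _), ← heq,
      pr2_rep he (fun x => a x (J1 v x)) (D2 v), jU_J1 he (d _)]
    rfl

end Vale.Agent.P366M.Y
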