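import Vale.Agent.P366Q.T.Res
import Vale.Agent.P366M.Reg
import Vale.Agent.P366M.Sub

/-!
# P366Q, block T: the linear equation between a subsolution and a supersolution
-/

set_option maxSynthPendingDepth 3

open Metric Filter Topology Set
open scoped ContDiff
open Vale.Agent.P366 Vale.Agent.P366.Stmt Vale.Agent.P366Z Vale.Agent.P366Y
open Vale.Agent.P272.K.R (HC)

noncomputable section

namespace Vale.Agent.P366M

theorem hc_of_hoB {n : ℕ} {α A : ℝ} {s : Set (E n)} {v : E n → ℝ} (hα : 0 < α) (hα1 : α ≤ 1)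
    (hs : IsOpen s) (hv : ∀ y ∈ s, ContDiffAt ℝ 2 v y) (hH : HoB α A (P366Y.D2 v) s) :
    HC α s 2 v := by
  refine ⟨fun x hx => (hv x hx).differentiableAt (by norm_num), fun x hx =>
    ((hv x hx).fderiv_right (m := 1) (by norm_num)).differentiableAt (by norm_num), ?_⟩
  refine HC.of_apply hα hα1 hs (EuclideanSpace.basisFun (Fin n) ℝ).toBasis fun i =>
    HC.of_apply hα hα1 hs (EuclideanSpace.basisFun (Fin n) ℝ).toBasis fun j x hx => ?_
  obtain ⟨r, r0, hr⟩ := Metric.isOpen_iff.1 hs x hx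
  refine ⟨r, r0, hr, A, hH.nn hx, fun y hy z hz => ?_⟩
  simp only [OrthonormalBasis.coe_toBasis, EuclideanSpace.basisFun_apply,
    ← P366Z.pd_pd_eq (hv y (hr hy)), ← P366Z.pd_pd_eq (hv z (hr hz))]
  exact ((hH.app i).app j).2 y (hr hy) z (hr hz)

open Y in
theorem ress : RESS := by
  intro n M _ g ρ U _ hg hf hU
  obtain ⟨c, c0, C, hC⟩ := hU.bd
  have U0 := hU.pos
  have sQ : Smooth fun x => lap g U x / U x := CD.div (hg.sm_lap hU.sm) hU.sm fun x => (U0 x).ne'
  obtain ⟨KQ, bQ⟩ := exists_bl sQ.diff (fun x => (hC x).2.2.2.1) fun x => (hC x).2.2.2.2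
  obtain ⟨KU, bU⟩ := exists_bl hU.sm.diff (A := C) (fun x => by
    rw [Real.norm_of_nonneg (U0 x).le]; exact (hC x).2.1) fun x => (hC x).2.2.1
  obtain ⟨L, B⟩ := exists_big M
  obtain ⟨G, G0, hG⟩ := gm_bd hg hf
  have ha : (0 : ℝ) < 1 / 2 := by norm_num
  have hb : (1 / 2 : ℝ) < 1 := by norm_num
  obtain ⟨A₁, a1⟩ := hoU_sm hg.sm_up (R := ρ) (c := eu n (Classical.arbitrary M)) fun x hx =>
    funext fun i => funext fun j => hf.up_eq hx i j
  have a2 := a1.of_one ha.le hb.le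
  have a3 := B.hoS ha.le hb.le (hm_of_lip ha.le hb.le bQ.nonneg bQ.1 bQ.2)
  obtain ⟨l₀, h0⟩ := eventually_atTop.1 (mres ha hb hg hf (a := fun x i j => up g i j x)
    (fun x ξ hξ => hg.up_pos x hξ) (a2.mono (le_max_left _ _))
    (fun x hx => funext fun i => funext fun j => hf.up_eq hx i j) (a3.mono (le_max_right _ _)))
  refine ⟨l₀, fun l hl A f bf => ?_⟩
  obtain ⟨D, -, h1⟩ := h0 l hl
  have b1 := bU.mul bf
  have b2 := hm_of_lip ha.le hb.le b1.nonneg b1.1 b1.2
  obtain ⟨v, v1, v2, v3, v4, v5⟩ := h1 _ _ _ b2.nonneg b2.hn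
  have w1 : CD 2 fun x => v x / U x := v1.div hU.sm.two fun x => (U0 x).ne'
  have e : ∀ x, U x * lap g v x = v x * lap g U x + wl g U (fun x => v x / U x) x := fun x => by
    have := hg.mul_lap_mul (hU.sm.c2 x) (w1.contDiffAt (x := x))
    simpa only [mul_div_cancel₀ _ (U0 _).ne'] using this
  refine ⟨fun x => v x / U x, w1, ⟨_, fun x => (abs_div _ _).trans_le (div_le_div₀ v2.nn (v2.bd x)
    c0 ((hC x).1.trans (le_abs_self _)))⟩, fun Φ hΦ eq => ?_, fun x => ?_⟩
  · refine CD.div (cd_of_cAt le_rfl fun x => ?_) hU.sm fun x => (U0 x).ne'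
    have he := ch_mem x
    have s1 : ContDiff ℝ ∞ fun p : E n × ℝ => loc (ch x) U p.1 := (hU.sm _ he).comp contDiff_fst
    refine reg_hc (hg.rep he) isOpen_ball (U := fun _ => 1) (Φ := fun p =>
      (p.2 * loc (ch x) (lap g U) p.1 + Φ ((ch x).symm p.1, p.2 / loc (ch x) U p.1)) /
        loc (ch x) U p.1) contDiff_const (fun _ => one_pos) (ContDiff.div
      ((contDiff_snd.mul ((hg.sm_lap hU.sm _ he).comp contDiff_fst)).add ((hΦ _ he).comp
        (contDiff_fst.prodMk (contDiff_snd.div s1 fun p => (U0 _).ne')))) s1 fun p => (U0 _).ne')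
      (fun y _ => (v1 _ he).contDiffAt) (hc_of_hoB ha hb.le isOpen_ball
        (fun y _ => (v1 _ he).contDiffAt) (((v4 x).add (hoB_gc (by positivity) v2.nn
          (((hG x).sub (one4 x)).of_one (one4 x) ha.le hb.le) (v3 x))).congr fun y _ => ?_))
      (fun y _ => ?_) _ (pt_mem x)
    · rw [d2_loc hg he v1.contDiffAt, rC_D1 he (diff2 v1.contDiffAt)]
    · rw [P366Z.wl_one, lap_rep hg he v1.contDiffAt]
      refine (eq_div_iff (U0 _).ne').2 ((mul_comm _ _).trans ((e _).trans ?_))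
      rw [eq]
      rfl
  · have h2 := v5 x
    rw [show pr2 (fun i j => up g i j x) (hess g v x) = lap g v x from
      (hg.lap_eq_tr v1.contDiffAt).symm] at h2
    have h3 := e x
    have := (U0 x).ne'
    field_simp at h2 ⊢
    linear_combination h2 + h3

/-- **SUBS** -/
theorem subs : SUBS := ress.subs

/-- **SUB** -/
theorem sub : SUB := subs.sub

end Vale.Agent.P366M
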