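import Vale.Agent.P366Q.Sk
import Vale.Agent.P366M.End2
import Vale.Agent.P366M.Calc2
import Vale.Agent.P366Y.T.QeB
import Vale.Agent.P366Y.T.Mpn
import Mathlib.Analysis.Calculus.ContDiff.FiniteDimension

/-!
# P366Q, block T: the calculus of the Hölder classes
-/

open MeasureTheory Metric Filter Topology Set
open scoped ContDiff ENNReal
open Vale.Agent.P366 Vale.Agent.P366.Stmt Vale.Agent.P366Z Vale.Agent.P366Y

noncomputable section

namespace Vale.Agent.P366M

section E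

variable {n : ℕ} {V W U : Type} [NormedAddCommGroup V] [NormedAddCommGroup W]
  [NormedAddCommGroup U] {α A B : ℝ} {f h : E n → V} {s : Set (E n)}

theorem rp0 (y z : E n) (α : ℝ) : 0 ≤ ‖y - z‖ ^ α := Real.rpow_nonneg (norm_nonneg _) _

theorem HoB.nn (hf : HoB α A f s) {y : E n} (hy : y ∈ s) : 0 ≤ A := (norm_nonneg _).trans (hf.1 y hy)

theorem HoB.add (hf : HoB α A f s) (hh : HoB α B h s) : HoB α (A + B) (fun y => f y + h y) s :=
  ⟨fun y hy => norm_add_le_of_le (hf.1 y hy) (hh.1 y hy), fun y hy z hz => by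
    rw [add_sub_add_comm, add_mul]
    exact norm_add_le_of_le (hf.2 y hy z hz) (hh.2 y hy z hz)⟩

theorem HoB.dif (hf : HoB α A f s) (hh : HoB α B h s) : HoB α (A + B) (fun y => f y - h y) s :=
  ⟨fun y hy => norm_sub_le_of_le (hf.1 y hy) (hh.1 y hy), fun y hy z hz => by
    rw [sub_sub_sub_comm, add_mul]
    exact norm_sub_le_of_le (hf.2 y hy z hz) (hh.2 y hy z hz)⟩

theorem HoB.neg (hf : HoB α A f s) : HoB α A (fun y => -f y) s :=
  ⟨fun y hy => by rw [norm_neg]; exact hf.1 y hy, fun y hy z hz => by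
    rw [neg_sub_neg, norm_sub_rev]; exact hf.2 y hy z hz⟩

theorem hoB_const (c : V) : HoB α ‖c‖ (fun _ => c) s := hoB_of_const fun _ _ => rfl

theorem HoB.sum {ι : Type} (t : Finset ι) {F : ι → E n → V} {A : ι → ℝ}
    (hF : ∀ i ∈ t, HoB α (A i) (F i) s) : HoB α (∑ i ∈ t, A i) (fun y => ∑ i ∈ t, F i y) s :=
  ⟨fun y hy => norm_sum_le_of_le _ fun i hi => (hF i hi).1 y hy, fun y hy z hz => by
    rw [← Finset.sum_sub_distrib, Finset.sum_mul]
    exact norm_sum_le_of_le _ fun i hi => (hF i hi).2 y hy z hz⟩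

theorem HoB.sumc {ι : Type} [Fintype ι] {F : ι → E n → V} (hF : ∀ i, HoB α A (F i) s) :
    HoB α (Fintype.card ι * A) (fun y => ∑ i, F i y) s := by
  simpa using HoB.sum Finset.univ fun i _ => hF i

theorem HoB.sumn {F : Fin n → E n → V} (hF : ∀ i, HoB α A (F i) s) :
    HoB α (n * A) (fun y => ∑ i, F i y) s := by simpa using HoB.sumc hF

theorem HoB.app {ι : Type} [Fintype ι] {F : E n → ι → V} (hF : HoB α A F s) (i : ι) :
    HoB α A (fun y => F y i) s :=
  ⟨fun y hy => (norm_le_pi_norm _ i).trans (hF.1 y hy),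
    fun y hy z hz => (norm_le_pi_norm (F y - F z) i).trans (hF.2 y hy z hz)⟩

theorem hoB_pi {ι : Type} [Fintype ι] {F : E n → ι → V} (hA : 0 ≤ A)
    (hF : ∀ i, HoB α A (fun y => F y i) s) : HoB α A F s :=
  ⟨fun y hy => (pi_norm_le_iff_of_nonneg hA).2 fun i => (hF i).1 y hy, fun y hy z hz =>
    (pi_norm_le_iff_of_nonneg (mul_nonneg hA (rp0 y z α))).2 fun i => (hF i).2 y hy z hz⟩

theorem HoB.prod {h : E n → W} (hf : HoB α A f s) (hh : HoB α A h s) :
    HoB α A (fun y => (f y, h y)) s :=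
  ⟨fun y hy => max_le (hf.1 y hy) (hh.1 y hy),
    fun y hy z hz => max_le (hf.2 y hy z hz) (hh.2 y hy z hz)⟩

theorem HoB.fst {F : E n → V × W} (hF : HoB α A F s) : HoB α A (fun y => (F y).1) s :=
  ⟨fun y hy => (norm_fst_le _).trans (hF.1 y hy),
    fun y hy z hz => (norm_fst_le (F y - F z)).trans (hF.2 y hy z hz)⟩

theorem HoB.snd {F : E n → V × W} (hF : HoB α A F s) : HoB α A (fun y => (F y).2) s :=
  ⟨fun y hy => (norm_snd_le _).trans (hF.1 y hy),
    fun y hy z hz => (norm_snd_le (F y - F z)).trans (hF.2 y hy z hz)⟩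

theorem le_rpow_eight {c y z : E n} (hy : y ∈ ball c 4) (hz : z ∈ ball c 4) (h0 : 0 ≤ α)
    (h1 : α ≤ 1) : ‖y - z‖ ≤ 8 * ‖y - z‖ ^ α := by
  have h8 : ‖y - z‖ / 8 ≤ 1 := by
    have := dist_triangle_right y z c
    rw [dist_eq_norm] at this
    rw [mem_ball] at hy hz
    linarith
  have a := self_le_rpow (by positivity) h8 h0 h1
  have b : (‖y - z‖ / 8) ^ α ≤ ‖y - z‖ ^ α :=
    Real.rpow_le_rpow (by positivity) (by linarith [norm_nonneg (y - z)]) h0
  linarith

theorem HoB.of_one {c : E n} (hf : HoB 1 A f s) (hs : s ⊆ ball c 4) (h0 : 0 ≤ α) (h1 : α ≤ 1) :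
    HoB α (8 * A) f s :=
  ⟨fun y hy => by linarith [hf.1 y hy, hf.nn hy], fun y hy z hz => by
    have a := hf.2 y hy z hz
    rw [Real.rpow_one] at a
    nlinarith [le_rpow_eight (hs hy) (hs hz) h0 h1, hf.nn hy]⟩

theorem HoB.closed (hf : ∀ e > (0 : ℝ), HoB α (A + e) f s) : HoB α A f s :=
  ⟨fun y hy => le_of_forall_pos_le_add fun e he => (hf e he).1 y hy, fun y hy z hz =>
    le_of_forall_pos_le_add fun e he => by
      have p := rp0 y z α
      have := (hf (e / (‖y - z‖ ^ α + 1)) (by positivity)).2 y hy z hz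
      have k : e / (‖y - z‖ ^ α + 1) * ‖y - z‖ ^ α ≤ e := by
        rw [div_mul_eq_mul_div, div_le_iff₀ (by positivity)]; nlinarith
      linarith⟩

theorem HoB.contOn (hα : 0 < α) (hf : HoB α A f s) : ContinuousOn f s := fun y hy => by
  refine tendsto_iff_norm_sub_tendsto_zero.2 (squeeze_zero' (.of_forall fun _ => norm_nonneg _)
    (eventually_mem_nhdsWithin.mono fun z hz => hf.2 z hz y hy) ?_)
  have : Continuous fun x : E n => A * ‖x - y‖ ^ α :=
    continuous_const.mul ((continuous_id.sub continuous_const).norm.rpow_const fun _ => .inr hα.le)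
  simpa [Real.zero_rpow hα.ne'] using (this.tendsto y).mono_left nhdsWithin_le_nhds

theorem hoB_univ : HoB α A f univ ↔ P366Y.Ho α A f := by simp [HoB, P366Y.Ho]

theorem _root_.Vale.Agent.P366Y.Ho.hoB (hf : P366Y.Ho α A f) (s : Set (E n)) : HoB α A f s :=
  ⟨fun y _ => hf.1 y, fun y _ z _ => hf.2 y z⟩

variable [NormedSpace ℝ V] [NormedSpace ℝ W] [NormedSpace ℝ U]

theorem HoB.clm (L : V →L[ℝ] W) (hf : HoB α A f s) : HoB α (‖L‖ * A) (fun y => L (f y)) s :=
  ⟨fun y hy => L.le_opNorm_of_le (hf.1 y hy), fun y hy z hz => by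
    rw [← map_sub, mul_assoc]; exact L.le_opNorm_of_le (hf.2 y hy z hz)⟩

theorem HoB.csmul (c : ℝ) (hf : HoB α A f s) : HoB α (|c| * A) (fun y => c • f y) s :=
  ⟨fun y hy => by rw [norm_smul]; exact mul_le_mul_of_nonneg_left (hf.1 y hy) (abs_nonneg _),
    fun y hy z hz => by
      rw [← smul_sub, norm_smul, mul_assoc]
      exact mul_le_mul_of_nonneg_left (hf.2 y hy z hz) (abs_nonneg _)⟩

theorem HoB.capp {c : E n → V →L[ℝ] W} (hc : HoB α A c s) (hf : HoB α B f s) :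
    HoB α (2 * A * B) (fun y => c y (f y)) s := by
  refine ⟨fun y hy => ?_, fun y hy z hz => ?_⟩
  · nlinarith [(c y).le_opNorm (f y), mul_le_mul (hc.1 y hy) (hf.1 y hy) (norm_nonneg _) (hc.nn hy),
      mul_nonneg (hc.nn hy) (hf.nn hy)]
  · have e : c y (f y) - c z (f z) = c y (f y - f z) + (c y - c z) (f z) := by simp
    rw [e]
    have h1 := ((c y).le_opNorm _).trans
      (mul_le_mul (hc.1 y hy) (hf.2 y hy z hz) (norm_nonneg _) (hc.nn hy))
    have h2 := ((c y - c z).le_opNorm _).trans (mul_le_mul (hc.2 y hy z hz) (hf.1 z hz)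
      (norm_nonneg _) (mul_nonneg (hc.nn hy) (rp0 y z α)))
    linarith [norm_add_le (c y (f y - f z)) ((c y - c z) (f z))]

theorem HoB.smul {φ : E n → ℝ} (hφ : HoB α A φ s) (hf : HoB α B f s) :
    HoB α (2 * A * B) (fun y => φ y • f y) s := by
  refine ⟨fun y hy => ?_, fun y hy z hz => ?_⟩
  · rw [norm_smul]
    nlinarith [mul_le_mul (hφ.1 y hy) (hf.1 y hy) (norm_nonneg _) (hφ.nn hy),
      mul_nonneg (hφ.nn hy) (hf.nn hy)]
  · have e : φ y • f y - φ z • f z = φ y • (f y - f z) + (φ y - φ z) • f z := by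
      rw [smul_sub, sub_smul]; abel
    rw [e]
    refine (norm_add_le _ _).trans ?_
    rw [norm_smul, norm_smul]
    have h1 := mul_le_mul (hφ.1 y hy) (hf.2 y hy z hz) (norm_nonneg _) (hφ.nn hy)
    have h2 := mul_le_mul (hφ.2 y hy z hz) (hf.1 z hz) (norm_nonneg _)
      (mul_nonneg (hφ.nn hy) (rp0 y z α))
    linarith

theorem HoB.mul {φ ψ : E n → ℝ} (hφ : HoB α A φ s) (hψ : HoB α B ψ s) :
    HoB α (2 * A * B) (fun y => φ y * ψ y) s := hφ.smul hψ

theorem HoB.pr2 {a T : E n → Mx n} (ha : HoB α A a s) (hT : HoB α B T s) :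
    HoB α (n * (n * (2 * A * B))) (fun y => pr2 (a y) (T y)) s :=
  HoB.sumn fun i => HoB.sumn fun j => ((ha.app i).app j).mul ((hT.app i).app j)

theorem HoB.tens {p q : E n → Vc n} (hA : 0 ≤ A) (hB : 0 ≤ B) (hp : HoB α A p s)
    (hq : HoB α B q s) : HoB α (2 * A * B) (fun y i j => p y i * q y j) s :=
  hoB_pi (by positivity) fun i => hoB_pi (by positivity) fun j => (hp.app i).mul (hq.app j)

theorem lip_of_D1 {u : E n → ℝ} (hs : Convex ℝ s) (hu : ∀ y ∈ s, DifferentiableAt ℝ u y)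
    (hA : ∀ y ∈ s, ‖P366Y.D1 u y‖ ≤ A) {y z : E n} (hy : y ∈ s) (hz : z ∈ s) :
    ‖u y - u z‖ ≤ n * A * ‖y - z‖ := by
  have A0 : 0 ≤ A := (norm_nonneg _).trans (hA y hy)
  refine hs.norm_image_sub_le_of_norm_fderiv_le hu (fun w hw => ?_) hz hy
  refine ContinuousLinearMap.opNorm_le_bound _ (by positivity) fun ξ => ?_
  rw [P366Z.fderiv_eq_sum (hu w hw)]
  refine (norm_sum_le _ _).trans ((Finset.sum_le_sum (g := fun _ => A * ‖ξ‖) fun i _ => ?_).trans_eq
    (by simp [mul_assoc]))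
  rw [norm_mul, mul_comm]
  exact mul_le_mul ((norm_le_pi_norm (P366Y.D1 u w) i).trans (hA w hw)) (PiLp.norm_apply_le ξ i)
    (norm_nonneg _) A0

theorem lip_of_D2 {u : E n → ℝ} (hs : Convex ℝ s) (hu : ∀ y ∈ s, ContDiffAt ℝ 2 u y)
    (hA : ∀ y ∈ s, ‖P366Y.D2 u y‖ ≤ A) {y z : E n} (hy : y ∈ s) (hz : z ∈ s) :
    ‖P366Y.D1 u y - P366Y.D1 u z‖ ≤ n * A * ‖y - z‖ := by
  have A0 : 0 ≤ A := (norm_nonneg _).trans (hA y hy)
  refine (pi_norm_le_iff_of_nonneg (by positivity)).2 fun i => ?_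
  exact lip_of_D1 hs (fun w hw => zdiff_pd (hu w hw) i) (fun w hw =>
    (pi_norm_le_iff_of_nonneg A0).2 fun k =>
      ((norm_le_pi_norm (P366Y.D2 u w k) i).trans (norm_le_pi_norm _ k)).trans (hA w hw)) hy hz

/-! ### the transformation of tensors -/

/-- the action of a matrix on covectors -/
def mC (A : Mx n) : Vc n →L[ℝ] Vc n :=
  ContinuousLinearMap.pi fun i => ∑ k, A k i • ContinuousLinearMap.proj k

theorem mC_apply (A : Mx n) (p : Vc n) : mC A p = fun i => ∑ k, A k i * p k := by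
  funext i; simp [mC]

/-- the action of a matrix on tensors -/
def mT (A : Mx n) : Mx n →L[ℝ] Mx n :=
  ContinuousLinearMap.pi fun i => ContinuousLinearMap.pi fun j => ∑ k, ∑ l, (A k i * A l j) •
    (ContinuousLinearMap.proj (R := ℝ) (φ := fun _ : Fin n => ℝ) l).comp
      (ContinuousLinearMap.proj (R := ℝ) (φ := fun _ : Fin n => Fin n → ℝ) k)

theorem mT_apply (A T : Mx n) : mT A T = fun i j => ∑ k, ∑ l, A k i * A l j * T k l := by
  funext i j; simp [mT]

theorem cd_mC : ContDiff ℝ 1 (mC : Mx n → _) := contDiff_clm_apply_iff.2 fun p => by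
  simp only [mC_apply]; fun_prop

theorem cd_mT : ContDiff ℝ 1 (mT : Mx n → _) := contDiff_clm_apply_iff.2 fun p => by
  simp only [mT_apply]; fun_prop

theorem nat1_jac {F : Mx n → V} (hF : ContDiff ℝ 1 F) : Nat1 fun τ y => F (jac τ y) :=
  ⟨fun _ _ h _ => hF.contDiffAt.comp _ (contDiffAt_pi.2 fun k => contDiffAt_pi.2 fun i =>
    (cd_jac h k i).of_le one_le_oo), F (1 : Matrix _ _ ℝ), fun _ _ h => by rw [jac_congr h, jac_id]⟩

theorem nat1_inv {F : Mx n → V} (hF : ContDiff ℝ 1 F) :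
    Nat1 fun τ y => F ((jac τ y)⁻¹ : Matrix _ _ ℝ) :=
  ⟨fun _ _ h h' => hF.contDiffAt.comp _ (contDiffAt_pi.2 fun k => contDiffAt_pi.2 fun i =>
    (P366Z.contDiffAt_inv_entry (fun a b => cd_jac h a b) h'.ne_zero k i).of_le one_le_oo),
    F (1 : Matrix _ _ ℝ), fun _ _ h => by rw [jac_congr h, jac_id, inv_one]⟩

theorem e2_le (p : Vc n) : e2 p ≤ n * ‖p‖ ^ 2 := by
  refine (Finset.sum_le_sum (g := fun _ => ‖p‖ ^ 2) fun i _ => ?_).trans_eq (by simp)
  rw [← sq_abs]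
  exact pow_le_pow_left₀ (abs_nonneg _) (norm_le_pi_norm p i) 2

theorem e2_nonneg (p : Vc n) : 0 ≤ e2 p := Finset.sum_nonneg fun _ _ => sq_nonneg _

theorem le_e2 (p : Vc n) : ‖p‖ ^ 2 ≤ e2 p := by
  have : ‖p‖ ≤ √(e2 p) := (pi_norm_le_iff_of_nonneg (Real.sqrt_nonneg _)).2 fun i =>
    Real.abs_le_sqrt (Finset.single_le_sum (f := fun i => p i ^ 2) (fun _ _ => sq_nonneg _)
      (Finset.mem_univ i))
  calc ‖p‖ ^ 2 ≤ √(e2 p) ^ 2 := by gcongr
    _ = e2 p := Real.sq_sqrt (e2_nonneg p)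

theorem abs_le_norm2 (a : Mx n) (i j : Fin n) : |a i j| ≤ ‖a‖ :=
  (norm_le_pi_norm (a i) j).trans (norm_le_pi_norm a i)

theorem norm2_le {a : Mx n} (hA : 0 ≤ A) (h : ∀ i j, |a i j| ≤ A) : ‖a‖ ≤ A :=
  (pi_norm_le_iff_of_nonneg hA).2 fun i => (pi_norm_le_iff_of_nonneg hA).2 fun j => h i j

theorem el_mono {Λ Λ' : ℝ} {a : Mx n} (h : El Λ a) (hΛ : Λ ≤ Λ') : El Λ' a := by
  refine ⟨h.1, fun i j => (h.2.1 i j).trans hΛ, fun ξ => (h.2.2 ξ).trans ?_⟩
  rcases isEmpty_or_nonempty (Fin n) with _ | ⟨⟨i⟩⟩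
  · simp
  have h0 : 0 ≤ Λ := (abs_nonneg _).trans (h.2.1 i i)
  rcases h0.eq_or_lt with rfl | h1
  · have := h.2.2 (Pi.single i 1)
    simp [e2, Pi.single_apply] at this
    linarith
  · exact mul_le_mul_of_nonneg_right hΛ
      (nonneg_of_mul_nonneg_right ((e2_nonneg ξ).trans (h.2.2 ξ)) h1 |> fun k => by
        by_contra k'
        nlinarith [h.2.2 ξ, e2_nonneg ξ])

end E

theorem Geo.mono {n : ℕ} {M : Type} [Mfs n M] {L L' : ℝ} (G : Geo M L) (h : L ≤ L') : Geo M L' :=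
  ⟨G.four.trans h, fun x y hy z hz => (G.hi x y hy z hz).trans (by gcongr),
    fun x y hy z hz => (G.lo x y hy z hz).trans (by gcongr), fun x y r hr p hp => G.nb x y r hr p (by
      have := G.pos
      by_cases h0 : 0 ≤ r
      · exact hp.trans_le (by gcongr)
      · have : r / L' ≤ 0 := div_nonpos_of_nonpos_of_nonneg (not_le.1 h0).le (by linarith)
        linarith [dist_nonneg (x := p) (y := (ch x).symm y)])⟩

namespace Y

variable {n : ℕ} {M : Type}

section L0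

variable [Mf n M] {e : Ch n M} {y : E n} {x : M}

theorem rC_eq (e : Ch n M) (w : M → Vc n) (y : E n) : rC e w y = mC (J e y) (w (e.symm y)) :=
  (mC_apply _ _).symm

theorem rep_eq (e : Ch n M) (T : Fld n M) (y : E n) : rep e T y = mT (J e y) (T (e.symm y)) :=
  (mT_apply _ _).symm

theorem repU_eq (e : Ch n M) (T : Fld n M) (y : E n) :
    repU e T y = mT (fun i k => (J e y)⁻¹ k i) (T (e.symm y)) := (mT_apply _ _).symm

theorem tC_eq (e : Ch n M) (y : E n) (p : Vc n) : tC e y p = mC ((J e y)⁻¹ : Matrix _ _ ℝ) p :=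
  (mC_apply _ _).symm

theorem tC_mv (e : Ch n M) (y : E n) (p : Vc n) :
    tC e y p = Matrix.mulVec ((J e y)⁻¹).transpose p := rfl

theorem rC_mv (e : Ch n M) (w : M → Vc n) (y : E n) :
    rC e w y = Matrix.mulVec (J e y).transpose (w (e.symm y)) := rfl

theorem tC_rC (he : e ∈ At M) (w : M → Vc n) (y : E n) : tC e y (rC e w y) = w (e.symm y) := by
  rw [tC_mv, rC_mv, Matrix.mulVec_mulVec, ← Matrix.transpose_mul, J_mul_inv he,
    Matrix.transpose_one, Matrix.one_mulVec]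

theorem mC_tC (he : e ∈ At M) (y : E n) (p : Vc n) : mC (J e y) (tC e y p) = p := by
  refine (mC_apply _ _).trans ?_
  change Matrix.mulVec (J e y).transpose (tC e y p) = p
  rw [tC_mv, Matrix.mulVec_mulVec, ← Matrix.transpose_mul, J_inv_mul he, Matrix.transpose_one,
    Matrix.one_mulVec]

@[simp] theorem rC_pt (w : M → Vc n) (x : M) : rC (ch x) w (pt x) = w x := by
  rw [rC_mv, J_pt, symm_pt, Matrix.transpose_one, Matrix.one_mulVec]

@[simp] theorem tC_pt (x : M) (p : Vc n) : tC (ch x) (pt x) p = p := by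
  rw [tC_mv, J_pt, inv_one, Matrix.transpose_one, Matrix.one_mulVec]

theorem rC_D1 {v : M → ℝ} (he : e ∈ At M) (hv : DAt v (e.symm y)) :
    rC e (D1 v) y = P366Y.D1 (loc e v) y := funext fun i => (pd_rep he hv i).symm

theorem pr2_rep (he : e ∈ At M) (a T : Fld n M) (y : E n) :
    pr2 (a (e.symm y)) (T (e.symm y)) = pr2 (repU e a y) (rep e T y) := (pair_rep he a T y).symm

theorem rC_add (e : Ch n M) (w z : M → Vc n) :
    rC e (fun x => w x + z x) = fun y => rC e w y + rC e z y := by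
  funext y; simp only [rC_eq, map_add]

theorem rC_sub (e : Ch n M) (w z : M → Vc n) :
    rC e (fun x => w x - z x) = fun y => rC e w y - rC e z y := by
  funext y; simp only [rC_eq, map_sub]

theorem rC_smul (e : Ch n M) (f : M → ℝ) (w : M → Vc n) :
    rC e (fun x => f x • w x) = fun y => loc e f y • rC e w y := by
  funext y; simp only [rC_eq, map_smul, loc]

theorem rC_sum {ι : Type} (t : Finset ι) (e : Ch n M) (w : ι → M → Vc n) :
    rC e (fun x => ∑ i ∈ t, w i x) = fun y => ∑ i ∈ t, rC e (w i) y := by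
  funext y; simp only [rC_eq, map_sum]

theorem rT_add (e : Ch n M) (w z : Fld n M) :
    rep e (fun x => w x + z x) = fun y => rep e w y + rep e z y := by
  funext y; simp only [rep_eq, map_add]

theorem rT_sub (e : Ch n M) (w z : Fld n M) :
    rep e (fun x => w x - z x) = fun y => rep e w y - rep e z y := by
  funext y; simp only [rep_eq, map_sub]

theorem rT_smul (e : Ch n M) (f : M → ℝ) (w : Fld n M) :
    rep e (fun x => f x • w x) = fun y => loc e f y • rep e w y := by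
  funext y; simp only [rep_eq, map_smul, loc]

theorem rT_sum {ι : Type} (t : Finset ι) (e : Ch n M) (w : ι → Fld n M) :
    rep e (fun x => ∑ i ∈ t, w i x) = fun y => ∑ i ∈ t, rep e (w i) y := by
  funext y; simp only [rep_eq, map_sum]

theorem rT_tens (e : Ch n M) (w z : M → Vc n) :
    rep e (fun x i j => w x i * z x j) = fun y i j => rC e w y i * rC e z y j :=
  rep_prod e (fun i x => w x i) fun i x => z x i

variable {V : Type} [NormedAddCommGroup V] {α A B : ℝ} {f h : M → V} {φ : M → ℝ} {w z : M → Vc n}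
  {a T S : Fld n M} {j j' : M → ℝ × Vc n} {v : M → ℝ}

theorem pt_mem (x : M) : pt x ∈ ball (pt x) 1 := mem_ball_self one_pos

theorem HoS.bd (hf : HoS α A f) (x : M) : ‖f x‖ ≤ A := by simpa using (hf x).1 _ (pt_mem x)

theorem HoC.bd (hf : HoC α A w) (x : M) : ‖w x‖ ≤ A := by simpa using (hf x).1 _ (pt_mem x)

theorem HoT.bd (hf : HoT α A T) (x : M) : ‖T x‖ ≤ A := by simpa using (hf x).1 _ (pt_mem x)

theorem HoU.bd (hf : HoU α A T) (x : M) : ‖T x‖ ≤ A := by simpa using (hf x).1 _ (pt_mem x)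

theorem HoJ.bd (hf : HoJ α A j) (x : M) : ‖j x‖ ≤ A := max_le (hf.1.bd x) (hf.2.bd x)

theorem HoS.nn (hf : HoS α A f) : 0 ≤ A := (hf (Classical.arbitrary M)).nn (pt_mem _)

theorem HoC.nn (hf : HoC α A w) : 0 ≤ A := (hf (Classical.arbitrary M)).nn (pt_mem _)

theorem HoT.nn (hf : HoT α A T) : 0 ≤ A := (hf (Classical.arbitrary M)).nn (pt_mem _)

theorem HoU.nn (hf : HoU α A T) : 0 ≤ A := (hf (Classical.arbitrary M)).nn (pt_mem _)

theorem HoJ.nn (hf : HoJ α A j) : 0 ≤ A := hf.1.nn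

theorem HoS.mono (hf : HoS α A f) (h : A ≤ B) : HoS α B f := fun x => (hf x).mono h

theorem HoC.mono (hf : HoC α A w) (h : A ≤ B) : HoC α B w := fun x => (hf x).mono h

theorem HoT.mono (hf : HoT α A T) (h : A ≤ B) : HoT α B T := fun x => (hf x).mono h

theorem HoU.mono (hf : HoU α A T) (h : A ≤ B) : HoU α B T := fun x => (hf x).mono h

theorem HoJ.mono (hf : HoJ α A j) (h : A ≤ B) : HoJ α B j := ⟨hf.1.mono h, hf.2.mono h⟩

theorem C2H.mono (hf : C2H α A v) (h : A ≤ B) : C2H α B v :=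
  ⟨hf.1, hf.2.1.mono h, hf.2.2.1.mono h, hf.2.2.2.mono h⟩

theorem C2H.jet (hf : C2H α A v) : HoJ α A (J1 v) := ⟨hf.2.1, hf.2.2.1⟩

theorem HoS.add (hf : HoS α A f) (hh : HoS α B h) : HoS α (A + B) fun x => f x + h x :=
  fun x => (hf x).add (hh x)

theorem HoS.dif (hf : HoS α A f) (hh : HoS α B h) : HoS α (A + B) fun x => f x - h x :=
  fun x => (hf x).dif (hh x)

theorem HoS.neg (hf : HoS α A f) : HoS α A fun x => -f x := fun x => (hf x).neg

theorem hoS_const (c : V) : HoS α ‖c‖ fun _ : M => c := fun _ => hoB_const c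

theorem HoS.sum {ι : Type} (t : Finset ι) {F : ι → M → V} {A : ι → ℝ}
    (hF : ∀ i ∈ t, HoS α (A i) (F i)) : HoS α (∑ i ∈ t, A i) fun x => ∑ i ∈ t, F i x :=
  fun x => HoB.sum t fun i hi => hF i hi x

theorem HoS.mul {ψ : M → ℝ} (hφ : HoS α A φ) (hψ : HoS α B ψ) :
    HoS α (2 * A * B) fun x => φ x * ψ x := fun x => (hφ x).mul (hψ x)

theorem HoS.smul [NormedSpace ℝ V] (hφ : HoS α A φ) (hf : HoS α B f) :
    HoS α (2 * A * B) fun x => φ x • f x := fun x => (hφ x).smul (hf x)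

theorem HoS.csmul [NormedSpace ℝ V] (c : ℝ) (hf : HoS α A f) :
    HoS α (|c| * A) fun x => c • f x := fun x => (hf x).csmul c

theorem HoS.cmul (c : ℝ) (hf : HoS α A φ) : HoS α (|c| * A) fun x => c * φ x := hf.csmul c

theorem HoS.cont (hα : 0 < α) (hf : HoS α A f) : Continuous f :=
  continuous_iff_continuousAt.2 fun x => contAt_of_loc
    (((hf x).contOn hα).continuousAt (ball_mem_nhds _ one_pos))

theorem HoC.add (hf : HoC α A w) (hh : HoC α B z) : HoC α (A + B) fun x => w x + z x :=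
  fun x => rC_add (ch x) w z ▸ (hf x).add (hh x)

theorem HoC.dif (hf : HoC α A w) (hh : HoC α B z) : HoC α (A + B) fun x => w x - z x :=
  fun x => rC_sub (ch x) w z ▸ (hf x).dif (hh x)

theorem HoC.smul (hφ : HoS α A φ) (hf : HoC α B w) : HoC α (2 * A * B) fun x => φ x • w x :=
  fun x => rC_smul (ch x) φ w ▸ (hφ x).smul (hf x)

theorem HoC.csmul (c : ℝ) (hf : HoC α A w) : HoC α (|c| * A) fun x => c • w x :=
  fun x => rC_smul (ch x) (fun _ => c) w ▸ (hf x).csmul c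

theorem HoC.sum {ι : Type} (t : Finset ι) {F : ι → M → Vc n} {A : ι → ℝ}
    (hF : ∀ i ∈ t, HoC α (A i) (F i)) : HoC α (∑ i ∈ t, A i) fun x => ∑ i ∈ t, F i x :=
  fun x => rC_sum t (ch x) F ▸ HoB.sum t fun i hi => hF i hi x

theorem HoT.add (hf : HoT α A T) (hh : HoT α B S) : HoT α (A + B) fun x => T x + S x :=
  fun x => rT_add (ch x) T S ▸ (hf x).add (hh x)

theorem HoT.dif (hf : HoT α A T) (hh : HoT α B S) : HoT α (A + B) fun x => T x - S x :=
  fun x => rT_sub (ch x) T S ▸ (hf x).dif (hh x)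

theorem HoT.smul (hφ : HoS α A φ) (hf : HoT α B T) : HoT α (2 * A * B) fun x => φ x • T x :=
  fun x => rT_smul (ch x) φ T ▸ (hφ x).smul (hf x)

theorem HoT.csmul (c : ℝ) (hf : HoT α A T) : HoT α (|c| * A) fun x => c • T x :=
  fun x => rT_smul (ch x) (fun _ => c) T ▸ (hf x).csmul c

theorem HoT.sum {ι : Type} (t : Finset ι) {F : ι → Fld n M} {A : ι → ℝ}
    (hF : ∀ i ∈ t, HoT α (A i) (F i)) : HoT α (∑ i ∈ t, A i) fun x => ∑ i ∈ t, F i x :=
  fun x => rT_sum t (ch x) F ▸ HoB.sum t fun i hi => hF i hi x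

theorem HoC.tens (hw : HoC α A w) (hz : HoC α B z) :
    HoT α (2 * A * B) fun x i j => w x i * z x j :=
  fun x => rT_tens (ch x) w z ▸ (hw x).tens hw.nn hz.nn (hz x)

theorem HoU.pr2 (ha : HoU α A a) (hT : HoT α B T) :
    HoS α (n * (n * (2 * A * B))) fun x => pr2 (a x) (T x) := fun x =>
  ((ha x).pr2 (hT x)).congr fun y _ => pr2_rep (ch_mem x) a T y

theorem HoJ.add (hf : HoJ α A j) (hh : HoJ α B j') : HoJ α (A + B) fun x => j x + j' x :=
  ⟨hf.1.add hh.1, hf.2.add hh.2⟩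

theorem HoJ.dif (hf : HoJ α A j) (hh : HoJ α B j') : HoJ α (A + B) fun x => j x - j' x :=
  ⟨hf.1.dif hh.1, hf.2.dif hh.2⟩

theorem HoJ.smul (hφ : HoS α A φ) (hf : HoJ α B j) : HoJ α (2 * A * B) fun x => φ x • j x :=
  ⟨hφ.mul hf.1, HoC.smul hφ hf.2⟩

theorem HoJ.csmul (c : ℝ) (hf : HoJ α A j) : HoJ α (|c| * A) fun x => c • j x :=
  ⟨hf.1.cmul c, hf.2.csmul c⟩

theorem one4 (x : M) : ball (pt x) 1 ⊆ ball (pt x) 4 := ball_subset_ball (by norm_num)

theorem HoS.of_one (hf : HoS 1 A f) (h0 : 0 ≤ α) (h1 : α ≤ 1) : HoS α (8 * A) f :=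
  fun x => (hf x).of_one (one4 x) h0 h1

theorem HoC.of_one (hf : HoC 1 A w) (h0 : 0 ≤ α) (h1 : α ≤ 1) : HoC α (8 * A) w :=
  fun x => (hf x).of_one (one4 x) h0 h1

theorem HoT.of_one (hf : HoT 1 A T) (h0 : 0 ≤ α) (h1 : α ≤ 1) : HoT α (8 * A) T :=
  fun x => (hf x).of_one (one4 x) h0 h1

theorem HoU.of_one (hf : HoU 1 A T) (h0 : 0 ≤ α) (h1 : α ≤ 1) : HoU α (8 * A) T :=
  fun x => (hf x).of_one (one4 x) h0 h1

theorem D1_smul (s : ℝ) (v : M → ℝ) : D1 (fun x => s * v x) = fun x => s • D1 v x :=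
  funext fun _ => funext fun i => pd_const_mul s i

theorem D2_smul (s : ℝ) (v : M → ℝ) : D2 (fun x => s * v x) = fun x => s • D2 v x :=
  funext fun _ => funext fun i => funext fun j => hess_const_mul s i j

theorem J1_smul (s : ℝ) (v : M → ℝ) (x : M) : J1 (fun x => s * v x) x = s • J1 v x := by
  rw [J1, D1_smul]; rfl

theorem D1_sub {u : M → ℝ} (hv : CD 2 v) (hu : CD 2 u) :
    D1 (fun x => v x - u x) = fun x => D1 v x - D1 u x :=
  funext fun _ => funext fun i => pd_sub (diff2 hv.contDiffAt) (diff2 hu.contDiffAt) i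

theorem D2_sub {u : M → ℝ} (hv : CD 2 v) (hu : CD 2 u) :
    D2 (fun x => v x - u x) = fun x => D2 v x - D2 u x :=
  funext fun _ => funext fun i => funext fun j => hess_sub hv.contDiffAt hu.contDiffAt i j

theorem J1_sub {u : M → ℝ} (hv : CD 2 v) (hu : CD 2 u) (x : M) :
    J1 (fun x => v x - u x) x = J1 v x - J1 u x := by
  rw [J1, D1_sub hv hu]; rfl

theorem C2H.cmul (s : ℝ) (hv : C2H α A v) : C2H α (|s| * A) fun x => s * v x :=
  ⟨cd_const.mul hv.1, hv.2.1.cmul s, D1_smul s v ▸ hv.2.2.1.csmul s,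
    D2_smul s v ▸ hv.2.2.2.csmul s⟩

end L0

end Y

end Vale.Agent.P366M
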