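import Vale.Agent.P366Q.T.Ho

/-!
# P366Q, block T: uniform constants for tensors in the charts
-/

open MeasureTheory Metric Filter Topology Set
open scoped ContDiff ENNReal
open Vale.Agent.P366 Vale.Agent.P366.Stmt Vale.Agent.P366Z Vale.Agent.P366Y

noncomputable section

namespace Vale.Agent.P366M.Y

variable {n : ℕ} {M : Type} [Mfs n M]

/-- uniform constants for the transformation of tensors -/
structure Big (M : Type) [Mfs n M] (C : ℝ) : Prop where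
  geo : Geo M C
  op : ∀ x : M, ∀ y ∈ ball (pt x) 4, ‖mC (J (ch x) y)‖ ≤ C ∧
    ‖mC ((J (ch x) y)⁻¹ : Matrix _ _ ℝ)‖ ≤ C ∧ ‖mT (J (ch x) y)‖ ≤ C ∧
      ‖mT fun i k => (J (ch x) y)⁻¹ k i‖ ≤ C
  hC : ∀ (α A : ℝ) (w : M → Vc n), 0 ≤ α → α ≤ 1 → HoC α A w →
    ∀ x, HoB α (C * A) (rC (ch x) w) (ball (pt x) 4)
  hT : ∀ (α A : ℝ) (T : Fld n M), 0 ≤ α → α ≤ 1 → HoT α A T →
    ∀ x, HoB α (C * A) (rep (ch x) T) (ball (pt x) 4)
  hU : ∀ (α A : ℝ) (T : Fld n M), 0 ≤ α → α ≤ 1 → HoU α A T →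
    ∀ x, HoB α (C * A) (repU (ch x) T) (ball (pt x) 4)

theorem exists_big (M : Type) [Mfs n M] : ∃ C, Big M C := by
  have t : ContDiff ℝ 1 fun (A : Mx n) => mT fun i k => A k i := cd_mT.comp (by fun_prop)
  obtain ⟨L, G⟩ := exists_geo M
  obtain ⟨a₁, p₁, h₁⟩ := unif_tm M (nat1_jac (cd_mC (n := n)))
  obtain ⟨a₂, p₂, h₂⟩ := unif_tm M (nat1_inv (cd_mC (n := n)))
  obtain ⟨a₃, p₃, h₃⟩ := unif_tm M (nat1_jac (cd_mT (n := n)))
  obtain ⟨a₄, p₄, h₄⟩ := unif_tm M (nat1_inv t)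
  obtain ⟨b₁, q₁, k₁⟩ := enlarge M (nat1_jac (cd_mC (n := n))) one_pos
  obtain ⟨b₂, q₂, k₂⟩ := enlarge M (nat1_jac (cd_mT (n := n))) one_pos
  obtain ⟨b₃, q₃, k₃⟩ := enlarge M (nat1_inv t) one_pos
  have := G.pos
  refine ⟨L + (a₁ + a₂ + a₃ + a₄) + (b₁ + b₂ + b₃), G.mono (by linarith), fun x y hy =>
    ⟨((h₁ x _).1 y (mem_ov hy)).trans (by linarith), ((h₂ x _).1 y (mem_ov hy)).trans (by linarith),
      ((h₃ x _).1 y (mem_ov hy)).trans (by linarith), ((h₄ x _).1 y (mem_ov hy)).trans (by linarith)⟩,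
    fun α A w h0 h1 h x => (k₁ α A (fun e => rC e w) (fun e => rC e w) h0 h1 (fun x p y hy => ?_)
      h x).mono (mul_le_mul_of_nonneg_right (by linarith) h.nn),
    fun α A w h0 h1 h x => (k₂ α A (fun e => rep e w) (fun e => rep e w) h0 h1 (fun x p y hy => ?_)
      h x).mono (mul_le_mul_of_nonneg_right (by linarith) h.nn),
    fun α A w h0 h1 h x => (k₃ α A (fun e => repU e w) (fun e => repU e w) h0 h1
      (fun x p y hy => ?_) h x).mono (mul_le_mul_of_nonneg_right (by linarith) h.nn)⟩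
  · exact (funext fun i => repC_tm _ (ch_mem x) (ch_mem p) (Ov.src hy) i).trans (mC_apply _ _).symm
  · exact (funext fun i => funext fun j => rep_tm _ (ch_mem x) (ch_mem p) (Ov.src hy) i j).trans
      (mT_apply _ _).symm
  · exact (funext fun i => funext fun j => repU_tm _ (ch_mem x) (ch_mem p) (Ov.src hy) i j).trans
      (mT_apply _ _).symm

namespace Big

variable {C α A Λ : ℝ} (B : Big M C) {x : M} {y z : E n} {w : M → Vc n} {T a : Fld n M} {φ : M → ℝ}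
  {V : Type} [NormedAddCommGroup V] {f : M → V}
include B

theorem four : 4 ≤ C := B.geo.four

theorem pos : 0 < C := B.geo.pos

theorem rC_le (hy : y ∈ ball (pt x) 4) (w : M → Vc n) :
    ‖rC (ch x) w y‖ ≤ C * ‖w ((ch x).symm y)‖ := by
  rw [rC_eq]; exact ContinuousLinearMap.le_of_opNorm_le _ (B.op x y hy).1 _

theorem rep_le (hy : y ∈ ball (pt x) 4) (T : Fld n M) :
    ‖rep (ch x) T y‖ ≤ C * ‖T ((ch x).symm y)‖ := by
  rw [rep_eq]; exact ContinuousLinearMap.le_of_opNorm_le _ (B.op x y hy).2.2.1 _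

theorem repU_le (hy : y ∈ ball (pt x) 4) (T : Fld n M) :
    ‖repU (ch x) T y‖ ≤ C * ‖T ((ch x).symm y)‖ := by
  rw [repU_eq]; exact ContinuousLinearMap.le_of_opNorm_le _ (B.op x y hy).2.2.2 _

theorem tC_le (hy : y ∈ ball (pt x) 4) (p : Vc n) : ‖tC (ch x) y p‖ ≤ C * ‖p‖ := by
  rw [tC_eq]; exact ContinuousLinearMap.le_of_opNorm_le _ (B.op x y hy).2.1 _

theorem le_tC (hy : y ∈ ball (pt x) 4) (p : Vc n) : ‖p‖ ≤ C * ‖tC (ch x) y p‖ := by
  conv_lhs => rw [← mC_tC (ch_mem x) y p]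
  exact ContinuousLinearMap.le_of_opNorm_le _ (B.op x y hy).1 _

theorem le_rC (hy : y ∈ ball (pt x) 4) (w : M → Vc n) :
    ‖w ((ch x).symm y)‖ ≤ C * ‖rC (ch x) w y‖ := by
  rw [← tC_rC (ch_mem x) w y]; exact B.tC_le hy _

theorem hm (h0 : 0 ≤ α) (h1 : α ≤ 1) (hf : HoS α A f) : HM α (2 * C * A) f := by
  simpa using hm_of_loc B.geo h1 h0 one_pos one_le_two hf

theorem hS' (h0 : 0 ≤ α) (h1 : α ≤ 1) (hf : HM α A f) (x : M) :
    HoB α (C * A) (loc (ch x) f) (ball (pt x) 4) := hf.loc B.geo h1 h0 x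

theorem hoS (h0 : 0 ≤ α) (h1 : α ≤ 1) (hf : HM α A f) : HoS α (C * A) f :=
  fun x => (B.hS' h0 h1 hf x).sub (one4 x)

theorem hS (h0 : 0 ≤ α) (h1 : α ≤ 1) (hf : HoS α A f) (x : M) :
    HoB α (C * (2 * C * A)) (loc (ch x) f) (ball (pt x) 4) := B.hS' h0 h1 (B.hm h0 h1 hf) x

theorem el (hy : y ∈ ball (pt x) 4) (ha : El Λ (a ((ch x).symm y))) :
    El ((n * C ^ 2 + C) * |Λ|) (repU (ch x) a y) := by
  have C0 := B.pos
  have hq : ∀ ξ : Vc n, ∑ i, ∑ j, repU (ch x) a y i j * ξ i * ξ j =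
      ∑ k, ∑ l, a ((ch x).symm y) k l * tC (ch x) y ξ k * tC (ch x) y ξ l := fun ξ => by
    have := quadU_rep (ch_mem x) a (fun k _ => tC (ch x) y ξ k) (fun k _ => tC (ch x) y ξ k) y
    have e : ∀ i, repC (ch x) (fun k _ => tC (ch x) y ξ k) i y = ξ i := fun i =>
      congrFun ((rC_eq (ch x) (fun _ => tC (ch x) y ξ) y).trans (mC_tC (ch_mem x) y ξ)) i
    simpa only [e] using this
  refine ⟨fun i j => ?_, fun i j => ?_, fun ξ => ?_⟩
  · unfold repU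
    rw [Finset.sum_comm]
    exact Finset.sum_congr rfl fun k _ => Finset.sum_congr rfl fun l _ => by rw [ha.1 l k]; ring
  · have := (abs_le_norm2 _ i j).trans ((B.repU_le hy a).trans (mul_le_mul_of_nonneg_left
      (norm2_le (abs_nonneg Λ) fun i j => (ha.2.1 i j).trans (le_abs_self _)) C0.le))
    nlinarith [show 0 ≤ n * C ^ 2 * |Λ| by positivity]
  · have k1 := (el_mono ha (le_abs_self Λ)).2.2 (tC (ch x) y ξ)
    have k2 := P366Y.Mp.el_nonneg ha (tC (ch x) y ξ)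
    have k3 : ‖ξ‖ ^ 2 ≤ C ^ 2 * e2 (tC (ch x) y ξ) :=
      (pow_le_pow_left₀ (norm_nonneg _) (B.le_tC hy ξ) 2).trans
        (by rw [mul_pow]; exact mul_le_mul_of_nonneg_left (le_e2 _) (sq_nonneg _))
    rw [hq]
    generalize ∑ k, ∑ l, a ((ch x).symm y) k l * tC (ch x) y ξ k * tC (ch x) y ξ l = Q at k1 k2
    calc e2 ξ ≤ n * (C ^ 2 * (|Λ| * Q)) := (e2_le ξ).trans (by gcongr; exact k3.trans (by gcongr))
      _ ≤ _ := by nlinarith [show 0 ≤ C * |Λ| * Q by positivity]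

theorem d1_le (hφ : ∀ x, DAt φ x) (h : ∀ x, ‖D1 φ x‖ ≤ A) (hy : y ∈ ball (pt x) 4) :
    ‖P366Y.D1 (loc (ch x) φ) y‖ ≤ C * A := by
  rw [← rC_D1 (ch_mem x) (hφ _)]
  exact (B.rC_le hy _).trans (mul_le_mul_of_nonneg_left (h _) B.pos.le)

theorem lip (hφ : ∀ x, DAt φ x) (h : ∀ x, ‖D1 φ x‖ ≤ A) (hy : y ∈ ball (pt x) 4)
    (hz : z ∈ ball (pt x) 4) : ‖loc (ch x) φ y - loc (ch x) φ z‖ ≤ n * (C * A) * ‖y - z‖ :=
  lip_of_D1 (convex_ball _ _) (fun _ _ => (hφ _).lc (ch_mem x)) (fun _ hw => B.d1_le hφ h hw) hy hz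

theorem hoS1 {S : ℝ} (hφ : ∀ x, DAt φ x) (h0 : ∀ x, |φ x| ≤ S) (h : ∀ x, ‖D1 φ x‖ ≤ A) :
    HoS 1 (S + n * (C * A)) φ := fun x => by
  have A0 : 0 ≤ A := (norm_nonneg _).trans (h x)
  have S0 : 0 ≤ S := (abs_nonneg _).trans (h0 x)
  have C0 := B.pos
  refine ⟨fun y _ => (h0 _).trans (le_add_of_nonneg_right (by positivity)), fun y hy z hz => ?_⟩
  rw [Real.rpow_one]
  exact (B.lip hφ h (one4 x hy) (one4 x hz)).trans (by gcongr; linarith)

end Big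

theorem d1_le_fd {φ : M → ℝ} {x : M} (hφ : DAt φ x) : ‖D1 φ x‖ ≤ ‖fd φ x‖ :=
  (pi_norm_le_iff_of_nonneg (norm_nonneg _)).2 fun i => abs_pd_le hφ i

theorem fd_le_d1 {φ : M → ℝ} {x : M} (hφ : DAt φ x) : ‖fd φ x‖ ≤ n * ‖D1 φ x‖ := by
  refine ContinuousLinearMap.opNorm_le_bound _ (by positivity) fun ξ => ?_
  rw [fderiv_eq_sum hφ]
  refine (norm_sum_le _ _).trans ((Finset.sum_le_sum (g := fun _ => ‖D1 φ x‖ * ‖ξ‖)
    fun i _ => ?_).trans_eq (by simp [mul_assoc]))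
  rw [norm_mul, mul_comm]
  exact mul_le_mul (norm_le_pi_norm (D1 φ x) i) (PiLp.norm_apply_le ξ i) (norm_nonneg _)
    (norm_nonneg _)

/-! ### smooth data which are constant far out -/

theorem far_ball {x : M} {y : E n} (hx : R0 M + 4 ≤ ‖px x‖) (hy : y ∈ ball (pt x) 4) :
    J (ch x) y = 1 ∧ ‖px x‖ - 4 < ‖px ((ch x).symm y)‖ := by
  obtain ⟨h1, j, h2, h3⟩ := far_ch (x := x) (by linarith)
  rw [h1] at hy
  have h4 := norm_ge_of_ball hy
  have h5 : y ∈ ball (px x) 5 := ball_subset_ball (by norm_num) hy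
  refine ⟨J_of_ev (j := j) (Eventually.mono (isOpen_ball.mem_nhds h5) h3) (by linarith), ?_⟩
  rwa [h3 y h5, px_ye (by linarith)]

theorem hoC_sm {w : M → Vc n} (hw : CC 1 fun i x => w x i) {R : ℝ} {c : Vc n}
    (h : ∀ x, R ≤ ‖px x‖ → w x = c) : ∃ A, HoC 1 A w := by
  obtain ⟨A, hA⟩ := unif_ch (fun e => rC e w) (fun x => contDiff_pi.2 (hw _ (ch_mem x)))
    (R := max R (R0 M) + 4) (A := ‖c‖) fun x hx => hoB_of_const fun y hy => by
      obtain ⟨h1, h2⟩ := far_ball (by linarith [le_max_right R (R0 M)]) hy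
      rw [rC_mv, h1, Matrix.transpose_one, Matrix.one_mulVec,
        h _ (by linarith [le_max_left R (R0 M)])]
  exact ⟨A, fun x => (hA x).sub (one4 x)⟩

theorem hoT_sm {T : Fld n M} (hT : SmT T) {R : ℝ} {c : Mx n} (h : ∀ x, R ≤ ‖px x‖ → T x = c) :
    ∃ A, HoT 1 A T := by
  obtain ⟨A, hA⟩ := unif_ch (fun e => (rep e T : E n → Mx n)) (fun x => contDiff_pi.2 fun i =>
    contDiff_pi.2 fun j => ContDiff.of_le (hT _ (ch_mem x) i j) one_le_oo)
    (R := max R (R0 M) + 4) (A := ‖c‖) fun x hx => hoB_of_const fun y hy => by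
      obtain ⟨h1, h2⟩ := far_ball (by linarith [le_max_right R (R0 M)]) hy
      have := mat_rep (ch x) T y
      rw [h1, Matrix.transpose_one, Matrix.one_mul, Matrix.mul_one] at this
      exact this.trans (h _ (by linarith [le_max_left R (R0 M)]))
  exact ⟨A, fun x => (hA x).sub (one4 x)⟩

theorem hoU_sm {T : Fld n M} (hT : SmU T) {R : ℝ} {c : Mx n} (h : ∀ x, R ≤ ‖px x‖ → T x = c) :
    ∃ A, HoU 1 A T := by
  obtain ⟨A, hA⟩ := unif_ch (fun e => (repU e T : E n → Mx n)) (fun x => contDiff_pi.2 fun i =>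
    contDiff_pi.2 fun j => ContDiff.of_le (hT _ (ch_mem x) i j) one_le_oo)
    (R := max R (R0 M) + 4) (A := ‖c‖) fun x hx => hoB_of_const fun y hy => by
      obtain ⟨h1, h2⟩ := far_ball (by linarith [le_max_right R (R0 M)]) hy
      have := mat_repU (ch x) T y
      rw [h1, inv_one, Matrix.transpose_one, Matrix.one_mul, Matrix.mul_one] at this
      exact this.trans (h _ (by linarith [le_max_left R (R0 M)]))
  exact ⟨A, fun x => (hA x).sub (one4 x)⟩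

/-- the Christoffel symbols in a chart -/
def Gm (g : Fld n M) (e : Ch n M) (y : E n) : Fin n → Mx n := fun k i j => Stmt.chr (rep e g) k i j y

theorem gm_bd {g : Fld n M} {ρ : ℝ} (hg : Met g) (hf : Flat g ρ) :
    ∃ A, 0 ≤ A ∧ ∀ x : M, HoB 1 A (Gm g (ch x)) (ball (pt x) 4) := by
  obtain ⟨A, hA⟩ := unif_ch (Gm g) (fun x => contDiff_pi.2 fun k => contDiff_pi.2 fun i =>
    contDiff_pi.2 fun j => ContDiff.of_le ((hg.loc' x).sm_chr k i j) one_le_oo)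
    (R := ρ + 4) (A := ‖(0 : Fin n → Mx n)‖) fun x hx => hoB_of_const fun y hy => by
      funext k i j
      have : rep (ch x) g =ᶠ[𝓝 y] P366Z.eu n := by
        filter_upwards [isOpen_ball.mem_nhds hy] with z hz
        obtain ⟨h1, h2⟩ := far_ball (by linarith [hf.lt]) hz
        have := mat_rep (ch x) g z
        rw [h1, Matrix.transpose_one, Matrix.one_mul, Matrix.mul_one] at this
        exact this.trans (hf.eq _ (by linarith))
      exact (P366Z.chr_of_ev this k i j).trans (congrFun (P366Z.chr_eu k i j) y)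
  exact ⟨A, (hA (Classical.arbitrary M)).nn (mem_ball_self (by norm_num)), hA⟩

/-- the contraction with the Christoffel symbols -/
def gc (Γ : Fin n → Mx n) (p : Vc n) : Mx n := fun i j => ∑ k, Γ k i j * p k

theorem gc_le (Γ : Fin n → Mx n) (p : Vc n) : ‖gc Γ p‖ ≤ n * (‖Γ‖ * ‖p‖) :=
  norm2_le (by positivity) fun i j => (Finset.abs_sum_le_sum_abs _ _).trans
    ((Finset.sum_le_sum (g := fun _ => ‖Γ‖ * ‖p‖) fun k _ => by
      rw [abs_mul]
      exact mul_le_mul ((abs_le_norm2 _ i j).trans (norm_le_pi_norm Γ k)) (norm_le_pi_norm p k)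
        (abs_nonneg _) (norm_nonneg _)).trans_eq (by simp))

theorem hoB_gc {α A B : ℝ} {Γ : E n → Fin n → Mx n} {p : E n → Vc n} {s : Set (E n)} (hA : 0 ≤ A)
    (hB : 0 ≤ B) (hΓ : HoB α A Γ s) (hp : HoB α B p s) :
    HoB α (n * (2 * A * B)) (fun y => gc (Γ y) (p y)) s :=
  hoB_pi (by positivity) fun i => hoB_pi (by positivity) fun j =>
    HoB.sumn fun k => (((hΓ.app k).app i).app j).mul (hp.app k)

theorem d2_loc {g : Fld n M} (hg : Met g) {e : Ch n M} (he : e ∈ At M) {v : M → ℝ} {y : E n}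
    (hv : CAt 2 v (e.symm y)) :
    P366Y.D2 (loc e v) y = rep e (hess g v) y + gc (Gm g e y) (P366Y.D1 (loc e v) y) := by
  rw [← hess_rep hg he hv]
  funext i j
  simp only [Stmt.hess, gc, Gm, Pi.add_apply, P366Y.D1, P366Y.D2, sub_add_cancel]

/-- smooth functions whose differential is constant far out -/
structure Tame (φ : M → ℝ) : Prop where
  sm : Smooth φ
  far : ∃ R c, ∀ x, R ≤ ‖px x‖ → D1 φ x = c

theorem Tame.hoC {φ : M → ℝ} (h : Tame φ) : ∃ A, HoC 1 A (D1 φ) :=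
  let ⟨_, _, hc⟩ := h.far
  hoC_sm (h.sm.cc_pd.of_le one_le_oo) hc

theorem Tame.hoT {φ : M → ℝ} (h : Tame φ) {g : Fld n M} {ρ : ℝ} (hg : Met g) (hf : Flat g ρ) :
    ∃ A, HoT 1 A (hess g φ) := by
  obtain ⟨R, c, hc⟩ := h.far
  refine hoT_sm (hg.sm_hess h.sm) (R := max R ρ + 1) (c := 0) fun x hx => ?_
  funext i j
  have h1 : ρ < ‖px x‖ := by linarith [le_max_right R ρ]
  rw [hf.hess_eq h1, ← pd_pd_far (hf.far h1.le)]
  exact pd_zero_of_ev ((ev_lt_px (show R < ‖px x‖ by linarith [le_max_left R ρ])).mono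
    fun z hz => congrFun (hc z hz.le) j) i

theorem Tame.hoS {φ : M → ℝ} (h : Tame φ) {S : ℝ} (h0 : ∀ x, |φ x| ≤ S) : ∃ A, HoS 1 A φ :=
  let ⟨_, B⟩ := exists_big M
  let ⟨_, hA⟩ := h.hoC
  ⟨_, B.hoS1 h.sm.diff h0 hA.bd⟩

theorem tame_of {φ : M → ℝ} (h : Smooth φ) {R : ℝ}
    (hR : ∀ x, R ≤ ‖px x‖ → ∃ c, φ =ᶠ[𝓝 x] fun _ => c) : Tame φ :=
  ⟨h, R, 0, fun x hx => funext fun i => let ⟨_, hc⟩ := hR x hx; pd_zero_of_ev hc i⟩

theorem tame_cpt {φ : M → ℝ} (h : Smooth φ) {K : Set M} (hK : IsCompact K)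
    (h0 : ∀ x, x ∉ K → φ x = 0) : Tame φ := by
  obtain ⟨R, hR⟩ := hK.exists_bound_of_continuousOn (cont_px (M := M)).continuousOn
  exact tame_of h (R := R + 1) fun x hx => ⟨0, (ev_lt_px (show R < ‖px x‖ by linarith)).mono
    fun z hz => h0 z fun k => (hR z k).not_gt hz⟩

theorem tame_px (k : Fin n) : Tame fun x : M => px x k :=
  ⟨sm_coord k, R0 M, fun i => if i = k then 1 else 0, fun _ hx => funext fun i => pd_coord hx i k⟩

end Vale.Agent.P366M.Y
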