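import Vale.Agent.P366Q.T.Big
import Vale.Agent.P366Y.T.Intp

/-!
# P366Q, row INTP: interpolation on a manifold
-/

open Metric Filter Topology Set
open scoped ContDiff
open Vale.Agent.P366 Vale.Agent.P366.Stmt Vale.Agent.P366Z Vale.Agent.P366Y
open Vale.Agent.P366Y.IntpH (ln ln_zero ln_sub der mv)

noncomputable section

namespace Vale.Agent.P366M.Y

namespace IntpX

/-- absorption -/
theorem absorb {ι : Type} {f w : ι → ℝ} {G K : ℝ} (hw : ∀ i, 0 ≤ w i) (hG : 0 ≤ G) (hK : 0 ≤ K)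
    (h : ∀ i, f i ≤ K * w i)
    (st : ∀ K, 0 ≤ K → (∀ i, f i ≤ K * w i) → ∀ i, f i ≤ (G + K / 2) * w i) (i : ι) :
    f i ≤ 2 * G * w i := by
  set S := {K : ℝ | 0 ≤ K ∧ ∀ i, f i ≤ K * w i}
  have h1 : S.Nonempty := ⟨K, hK, h⟩
  have h2 : 0 ≤ sInf S := le_csInf h1 fun _ k => k.1
  have h3 : ∀ i, f i ≤ sInf S * w i := fun i => by
    rcases (hw i).eq_or_lt with e | e
    · have := h i
      rwa [← e, mul_zero] at this ⊢
    · exact (div_le_iff₀ e).1 (le_csInf h1 fun _ k => (div_le_iff₀ e).2 (k.2 i))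
  have h4 : sInf S ≤ G + sInf S / 2 :=
    csInf_le ⟨0, fun _ k => k.1⟩ ⟨by positivity, st _ h2 h3⟩
  exact (h3 i).trans (mul_le_mul_of_nonneg_right (by linarith) (hw i))

section E

variable {n : ℕ} {u : E n → ℝ} {c : E n} {A B s : ℝ}

theorem ln_mem (c : E n) (i : Fin n) {t : ℝ} (ht : |t| ≤ s) : ln c i t ∈ closedBall c s := by
  have := ln_sub c i t 0
  rw [ln_zero, sub_zero] at this
  exact mem_closedBall_iff_norm.2 (this.trans_le ht)

theorem two {H : Mx n} (hs : 0 < s) (hu : ContDiff ℝ 2 u)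
    (h : ∀ y ∈ closedBall c s, ‖P366Y.D2 u y - H‖ ≤ B)
    (h1 : ∀ y ∈ closedBall c s, ‖P366Y.D1 u y‖ ≤ A) : ‖H‖ ≤ 2 * (A / s) + B := by
  have hA := (norm_nonneg _).trans (h1 c (mem_closedBall_self hs.le))
  have hB := (norm_nonneg _).trans (h c (mem_closedBall_self hs.le))
  refine norm2_le (by positivity) fun i j => ?_
  have h2 := abs_le.1 (mv (K := B) (fun t => (der (fun y => diffAt_pd hu.contDiffAt j) c i t).fun_sub
    ((hasDerivAt_id' t).const_mul (H i j))) (fun t ht => by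
      rw [mul_one]
      exact (abs_le_norm2 (P366Y.D2 u (ln c i t) - H) i j).trans
        (h _ (ln_mem c i (by rw [abs_of_nonneg ht.1]; exact ht.2)))) (right_mem_Icc.2 hs.le))
  have h3 : ∀ y ∈ closedBall c s, |Stmt.pd j u y| ≤ A := fun y hy =>
    (norm_le_pi_norm (P366Y.D1 u y) j).trans (h1 y hy)
  have h4 := abs_le.1 (h3 c (mem_closedBall_self hs.le))
  have h5 := abs_le.1 (h3 _ (ln_mem c i (abs_of_pos hs).le))
  obtain ⟨a, rfl⟩ : ∃ a, A = a * s := ⟨A / s, (div_mul_cancel₀ A hs.ne').symm⟩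
  rw [ln_zero] at h2
  rw [mul_div_cancel_right₀ a hs.ne']
  refine abs_le.2 ⟨le_of_mul_le_mul_right ?_ hs, le_of_mul_le_mul_right ?_ hs⟩ <;> linarith

theorem one (hs : 0 < s) (hu : ContDiff ℝ 2 u)
    (h : ∀ y ∈ closedBall c (s / 2), ∀ z ∈ closedBall c (s / 2),
      ‖P366Y.D2 u y - P366Y.D2 u z‖ ≤ B)
    (h1 : ∀ y ∈ closedBall c (s / 2), ∀ z ∈ closedBall c (s / 2), |u y - u z| ≤ A) :
    ‖P366Y.D1 u c‖ ≤ A / s + B * s := by
  have m0 : c ∈ closedBall c (s / 2) := mem_closedBall_self (half_pos hs).le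
  have hA := (abs_nonneg _).trans (h1 c m0 c m0)
  have h0 := (norm_nonneg _).trans (h c m0 c m0)
  refine (pi_norm_le_iff_of_nonneg (by positivity)).2 fun i => ?_
  have d1 := der (fun y => P366Z.diff2 hu.contDiffAt) c i
  have d2 := der (fun y => diffAt_pd hu.contDiffAt i) c i
  have h2 : ∀ t ∈ Icc 0 (s / 2), |Stmt.pd i u (ln c i t) + Stmt.pd i u (ln c i (-t)) -
      (Stmt.pd i u (ln c i 0) + Stmt.pd i u (ln c i (-0)))| ≤ B * t := fun t ht =>
    mv (fun t => (d2 t).fun_add ((d2 (-t)).comp t (hasDerivAt_neg t))) (fun t ht => by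
      rw [mul_neg_one, ← sub_eq_add_neg]
      exact (abs_le_norm2 (P366Y.D2 u (ln c i t) - P366Y.D2 u (ln c i (-t))) i i).trans
        (h _ (ln_mem c i (by rw [abs_of_nonneg ht.1]; exact ht.2)) _
          (ln_mem c i (by rw [abs_neg, abs_of_nonneg ht.1]; exact ht.2)))) ht
  have h3 := abs_le.1 (mv (K := B * s) (fun t => ((d1 t).fun_sub ((d1 (-t)).comp t
    (hasDerivAt_neg t))).fun_sub ((hasDerivAt_id' t).const_mul
      (Stmt.pd i u (ln c i 0) + Stmt.pd i u (ln c i (-0))))) (fun t ht => by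
      rw [mul_one, mul_neg_one, sub_neg_eq_add]
      exact (h2 t ht).trans (mul_le_mul_of_nonneg_left (by linarith [ht.2]) h0))
    (right_mem_Icc.2 (half_pos hs).le))
  have h4 := abs_le.1 (h1 _ (ln_mem c i (abs_of_pos (half_pos hs)).le) _
    (ln_mem c i ((abs_neg _).trans (abs_of_pos (half_pos hs))).le))
  have h5 : 0 ≤ B * s * s := by positivity
  obtain ⟨a, rfl⟩ : ∃ a, A = a * s := ⟨A / s, (div_mul_cancel₀ A hs.ne').symm⟩
  simp only [Function.comp, neg_zero, ln_zero] at h3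
  rw [mul_div_cancel_right₀ a hs.ne']
  show |Stmt.pd i u c| ≤ _
  refine abs_le.2 ⟨le_of_mul_le_mul_right ?_ hs, le_of_mul_le_mul_right ?_ hs⟩ <;> linarith

end E

variable {n : ℕ} {M : Type} [Mfs n M] {C G A : ℝ} {v : M → ℝ} {x : M} {y : E n}

/-- the second derivatives in a chart differ from the Hessian by a term of order one -/
theorem d2_sub (B : Big M C) (hG : ∀ x : M, HoB 1 G (Gm bg (ch x)) (ball (pt x) 4)) (hv : CD 2 v)
    (h : ∀ x, ‖D1 v x‖ ≤ A) (hy : y ∈ ball (pt x) 4) :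
    ‖P366Y.D2 (loc (ch x) v) y - rep (ch x) (D2 v) y‖ ≤ n * (G * (C * A)) := by
  rw [d2_loc bg_met (ch_mem x) hv.contDiffAt, D2, add_sub_cancel_left]
  refine (gc_le _ _).trans (mul_le_mul_of_nonneg_left (mul_le_mul ((hG x).1 y hy)
    (B.d1_le (fun _ => diff2 hv.contDiffAt) h hy) (norm_nonneg _) ((hG x).nn hy)) n.cast_nonneg)

end IntpX

open IntpX in
/-- **INTP** on manifolds with any number of ends -/
theorem intp' {n : ℕ} (M : Type) [Mfs n M] {α : ℝ} (hα : 0 ≤ α) : ∃ C > (0 : ℝ),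
    ∀ (v : M → ℝ) (A B r : ℝ), 0 < r → r ≤ 1 → 0 ≤ A → 0 ≤ B → CD 2 v →
    (∃ K, ∀ x, ‖D1 v x‖ ≤ K) → HsT α B (D2 v) → ((∀ x y, dist x y ≤ r → |v x - v y| ≤ A) →
      ∀ x, ‖D1 v x‖ ≤ C * (A / r + B * r ^ (1 + α)) ∧ ‖D2 v x‖ ≤ C * (A / r ^ 2 + B * r ^ α)) ∧
    ((∀ x, ‖D1 v x‖ ≤ A) → ∀ x, ‖D2 v x‖ ≤ C * (A / r + B * r ^ α)) := by
  obtain ⟨C, hC⟩ := exists_big M
  obtain ⟨G, G0, hG⟩ := gm_bd bg_met (flat_bg (M := M) le_rfl)
  have C4 := hC.four
  obtain ⟨P, hP⟩ : ∃ P, P = n * (G * C) := ⟨_, rfl⟩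
  have P0 : 0 ≤ P := by rw [hP]; positivity
  obtain ⟨L, hL⟩ : ∃ L, L = 4 * C + 4 * P := ⟨_, rfl⟩
  have L1 : 1 ≤ L := by linarith
  refine ⟨L * (2 * L + 1), by positivity, fun v A B r r0 r1 A0 B0 hv ⟨K, hK⟩ hB => ?_⟩
  have sub : ∀ {x : M} {s : ℝ}, s ≤ r / 2 → closedBall (pt x) s ⊆ ball (pt x) 1 := fun hs =>
    closedBall_subset_ball (by linarith)
  have ho : ∀ x : M, ∀ y ∈ closedBall (pt x) (r / 2), ∀ z ∈ closedBall (pt x) (r / 2),
      ‖rep (ch x) (D2 v) y - rep (ch x) (D2 v) z‖ ≤ B * r ^ α := fun x y hy z hz =>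
    (hB x y (sub le_rfl hy) z (sub le_rfl hz)).trans (mul_le_mul_of_nonneg_left
      (Real.rpow_le_rpow (norm_nonneg _) (by
        linarith [norm_sub_le_norm_sub_add_norm_sub y (pt x) z, mem_closedBall_iff_norm.1 hy,
          mem_closedBall_iff_norm'.1 hz]) hα) B0)
  have b0 : 0 ≤ B * r ^ α := by positivity
  have p2 : ∀ A, 0 ≤ A → (∀ x, ‖D1 v x‖ ≤ A) → ∀ x, ‖D2 v x‖ ≤ L * (A / r + B * r ^ α) :=
    fun A A0 h x => by
      have h1 := two (H := D2 v x) (B := P * A + B * r ^ α) (A := C * A) (half_pos r0)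
        (hv _ (ch_mem x)) (fun y hy => (norm_sub_le_norm_sub_add_norm_sub _ _ _).trans (add_le_add
          ((d2_sub hC hG hv h (one4 x (sub le_rfl hy))).trans_eq (by rw [hP]; ring))
          (by simpa using ho x y hy _ (mem_closedBall_self (half_pos r0).le))))
        fun y hy => hC.d1_le (fun _ => diff2 hv.contDiffAt) h (one4 x (sub le_rfl hy))
      have h2 : A ≤ A / r := le_div_self A0 r0 r1
      have h3 : 2 * (C * A / (r / 2)) = 4 * C * (A / r) := by field_simp; ring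
      have h4 := mul_le_mul_of_nonneg_left h2 P0
      have h5 := mul_le_mul_of_nonneg_right L1 b0
      have h6 := mul_nonneg P0 (A0.trans h2)
      rw [h3] at h1
      rw [mul_add]
      nth_rewrite 1 [hL]
      linarith
  refine ⟨fun h1 x => ?_, fun h1 x => (p2 A A0 h1 x).trans (mul_le_mul_of_nonneg_right
    (le_mul_of_one_le_right (by linarith) (by linarith)) (by positivity))⟩
  have s0 : 0 < r / L := by positivity
  have s1 : r / L ≤ r := div_le_self r0.le L1
  have a0 : 0 ≤ A / r := by positivity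
  have k := absorb (f := fun x => ‖D1 v x‖) (w := fun _ => 1) (G := L * (A / r) + B * r ^ α * r)
    (fun _ => zero_le_one) (by positivity) ((norm_nonneg _).trans (hK x))
    (fun x => by simpa using hK x) fun K K0 hK x => by
      simp only [mul_one] at hK ⊢
      have sb : closedBall (pt x) (r / L / 2) ⊆ closedBall (pt x) (r / 2) :=
        closedBall_subset_closedBall (by linarith)
      have h2 := one (c := pt x) (A := A) (B := B * r ^ α + 2 * (P * K)) s0 (hv _ (ch_mem x))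
        (fun y hy z hz => by
          have e1 := d2_sub hC hG hv hK (one4 x (sub le_rfl (sb hy)))
          have e2 := d2_sub hC hG hv hK (one4 x (sub le_rfl (sb hz)))
          rw [show n * (G * (C * K)) = P * K by rw [hP]; ring] at e1 e2
          rw [norm_sub_rev] at e2
          linarith [ho x y (sb hy) z (sb hz), norm_sub_le_norm_sub_add_norm_sub
            (P366Y.D2 (loc (ch x) v) y) (rep (ch x) (D2 v) y) (P366Y.D2 (loc (ch x) v) z),
            norm_sub_le_norm_sub_add_norm_sub (rep (ch x) (D2 v) y) (rep (ch x) (D2 v) z)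
              (P366Y.D2 (loc (ch x) v) z)])
        fun y hy z hz => h1 _ _ ((hC.geo.hi x y (one4 x (sub le_rfl (sb hy))) z
          (one4 x (sub le_rfl (sb hz)))).trans (by
            have e1 : ‖y - z‖ ≤ r / L := by
              linarith [norm_sub_le_norm_sub_add_norm_sub y (pt x) z,
                mem_closedBall_iff_norm.1 hy, mem_closedBall_iff_norm'.1 hz]
            rw [le_div_iff₀ (by linarith)] at e1
            nlinarith [norm_nonneg (y - z)]))
      have h3 : A / (r / L) = L * (A / r) := by field_simp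
      have h4 : 2 * (P * K) * (r / L) ≤ K / 2 := by
        rw [← mul_div_assoc, div_le_iff₀ (by linarith)]
        nlinarith [mul_nonneg P0 K0, mul_le_mul_of_nonneg_left r1 (mul_nonneg P0 K0)]
      have h5 := mul_le_mul_of_nonneg_left s1 b0
      rw [h3, add_mul] at h2
      exact le_trans h2 (by linarith)
  simp only [mul_one] at k
  have h2 := p2 _ (by positivity) k x
  have e1 : 2 * (L * (A / r) + B * r ^ α * r) / r = 2 * L * (A / r ^ 2) + 2 * (B * r ^ α) := by
    field_simp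
  have a1 : 0 ≤ A / r ^ 2 := by positivity
  have a2 : 0 ≤ B * r ^ α * r := by positivity
  rw [e1] at h2
  rw [Real.rpow_add r0, Real.rpow_one, mul_comm r, ← mul_assoc B]
  refine ⟨(k x).trans ?_, h2.trans ?_⟩
  · nlinarith [mul_le_mul_of_nonneg_right L1 a0, mul_le_mul_of_nonneg_right L1 a2,
      mul_nonneg (mul_nonneg (zero_le_one.trans L1) (sub_nonneg.2 L1)) (add_nonneg a0 a2)]
  · rw [mul_assoc L]
    refine mul_le_mul_of_nonneg_left ?_ (by linarith)
    nlinarith [mul_le_mul_of_nonneg_right L1 b0]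

/-- **INTP** -/
theorem intp : INTP := fun _ M _ _ hα => intp' M hα.1.le

end Vale.Agent.P366M.Y
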