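import Vale.Agent.P366Q.Sk
import Vale.Agent.P366M.End4
import Vale.Agent.P366Y.T.Mol

/-!
# P366Q, row MOL: a smoothing operator which dominates, on a manifold
-/

open Metric Filter Topology Set
open scoped ContDiff
open Vale.Agent.P366 Vale.Agent.P366.Stmt Vale.Agent.P366Z Vale.Agent.P366Y

noncomputable section

namespace Vale.Agent.P366M.Y

namespace MolH

variable {n : ℕ} {M : Type} [Mfe n M] {C δ : ℝ}

/-- a smoothing operator on the set `O` -/
structure On (C δ : ℝ) (O : Set M) (S : (M → ℝ) → M → ℝ) : Prop where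
  sm : ∀ h, Continuous h → ∀ x ∈ O, CAt ∞ (S h) x
  ge : ∀ h, ∀ x ∈ O, Continuous h → h x ≤ S h x
  cst : ∀ (c : ℝ), ∀ x ∈ O, S (fun _ => c) x = c
  loc : ∀ h h', ∀ x ∈ O, ∀ e : ℝ, Continuous h → Continuous h' →
    (∀ y ∈ ball x (2 * δ), h y ≤ h' y + e) → S h x ≤ S h' x + e
  lip : ∀ h, ∀ x ∈ O, ∀ a b : ℝ, Continuous h → (∀ y, a ≤ h y ∧ h y ≤ b) →
    ‖fd (S h) x‖ ≤ C * (b - a) / δ

theorem glue {ι : Type} (t : Finset ι) {χ : ι → M → ℝ} {O : ι → Set M}
    {S : ι → (M → ℝ) → M → ℝ} {K : ℝ} (hδ : δ ∈ Ioc (0 : ℝ) 1) (hC : 0 ≤ C) (hK : 0 ≤ K)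
    (hs : ∀ i, Smooth (χ i)) (h0 : ∀ i x, 0 ≤ χ i x) (h1 : ∀ x, ∑ i ∈ t, χ i x = 1)
    (hO : ∀ i, tsupport (χ i) ⊆ O i) (hd : ∀ i ∈ t, ∀ x, ‖fd (χ i) x‖ ≤ K)
    (hS : ∀ i, On C δ (O i) (S i)) :
    Mol (t.card * (C + K)) δ fun h x => ∑ i ∈ t, χ i x * S i h x := by
  have z : ∀ i x, x ∉ O i → χ i =ᶠ[𝓝 x] 0 := fun i x hx =>
    notMem_tsupport_iff_eventuallyEq.1 fun k => hx (hO i k)
  have z' : ∀ i x (u : M → ℝ), x ∉ O i → (fun y => χ i y * u y) =ᶠ[𝓝 x] fun _ => 0 :=
    fun i x u hx => (z i x hx).mono fun y hy => by simp only [hy, Pi.zero_apply, zero_mul]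
  have mono : ∀ x (u v : ι → ℝ), (∀ i, x ∈ O i → u i ≤ v i) →
      ∑ i ∈ t, χ i x * u i ≤ ∑ i ∈ t, χ i x * v i := fun x u v h =>
    Finset.sum_le_sum fun i _ => by
      by_cases hx : x ∈ O i
      · exact mul_le_mul_of_nonneg_left (h i hx) (h0 i x)
      · rw [(z i x hx).self_of_nhds, Pi.zero_apply, zero_mul, zero_mul]
  have cs : ∀ x (c : ℝ), ∑ i ∈ t, χ i x * c = c := fun x c => by
    rw [← Finset.sum_mul, h1, one_mul]
  have sm : ∀ h, Continuous h → ∀ (a : ℝ) i x, CAt ∞ (fun y => χ i y * (S i h y - a)) x :=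
    fun h hh a i x => by
      by_cases hx : x ∈ O i
      · exact (CD.contDiffAt (hs i)).mul (((hS i).sm h hh x hx).sub cAt_const)
      · exact cAt_const.congr_of_eventuallyEq (z' i x _ hx)
  refine ⟨fun h hh => cd_of_cAt le_rfl fun x => CAt.sum fun i _ => by simpa using sm h hh 0 i x,
    fun h x hh => (cs x (h x)).ge.trans (mono x _ _ fun i hx => (hS i).ge h x hx hh),
    fun c x => le_antisymm ((mono x _ _ fun i hx => ((hS i).cst c x hx).le).trans (cs x c).le)
      ((cs x c).ge.trans (mono x _ _ fun i hx => ((hS i).cst c x hx).ge)),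
    fun h h' x e hh hh' k => ?_, fun h x a b hh k => ?_⟩
  · refine (mono x _ _ fun i hx => (hS i).loc h h' x hx e hh hh' k).trans_eq ?_
    simp only [mul_add, Finset.sum_add_distrib, cs]
  · have hab : 0 ≤ b - a := sub_nonneg.2 ((k x).1.trans (k x).2)
    have e : (fun x => ∑ i ∈ t, χ i x * S i h x) =
        fun x => ∑ i ∈ t, χ i x * (S i h x - a) + a := funext fun y => by
      simp only [mul_sub, Finset.sum_sub_distrib, cs, sub_add_cancel]
    have d : ∀ i, DAt (fun y => χ i y * (S i h y - a)) x := fun i =>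
      (sm h hh a i x).differentiableAt (by simp)
    have e2 : fd (fun x => ∑ i ∈ t, χ i x * (S i h x - a)) x =
        ∑ i ∈ t, fd (fun y => χ i y * (S i h y - a)) x := fderiv_fun_sum fun i _ => d i
    rw [e, fd_add (DAt.fun_sum fun i _ => d i) (dAt_const a), fd_const, add_zero, e2, mul_assoc,
      mul_div_assoc]
    refine (norm_sum_le _ _).trans ((Finset.sum_le_card_nsmul _ _ _ fun i hi => ?_).trans_eq
      (nsmul_eq_mul _ _))
    by_cases hx : x ∈ O i
    · have d1 : DAt (S i h) x := ((hS i).sm h hh x hx).differentiableAt (by simp)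
      have a1 := (k x).1.trans ((hS i).ge h x hx hh)
      have a2 := (hS i).loc h (fun _ => b) x hx 0 hh continuous_const fun y _ => by
        simpa using (k y).2
      rw [(hS i).cst b x hx, add_zero] at a2
      have a3 : χ i x ≤ 1 := (Finset.single_le_sum (fun j _ => h0 j x) hi).trans (h1 x).le
      have a4 := (hS i).lip h x hx a b hh k
      have a5 : K * (b - a) ≤ K * (b - a) / δ := le_div_self (by positivity) hδ.1 hδ.2
      rw [fd_mul ((hs i).diff x) (d1.sub_const a), fd_sub d1 (dAt_const a), fd_const, sub_zero,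
        add_mul, add_div]
      refine (norm_add_le _ _).trans (add_le_add ?_ (le_trans ?_ a5))
      · rw [norm_smul, Real.norm_of_nonneg (h0 i x)]
        exact (mul_le_of_le_one_left (norm_nonneg _) a3).trans a4
      · rw [norm_smul, Real.norm_of_nonneg (sub_nonneg.2 a1), mul_comm]
        exact mul_le_mul (hd i hi x) (by linarith) (sub_nonneg.2 a1) hK
    · rw [fd_congr (z' i x _ hx), fd_const, norm_zero]
      have := hδ.1
      positivity

/-- the operator of a chart -/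
theorem chart {L D δ' : ℝ} (G : Geo M L) (hδ : δ ∈ Ioc (0 : ℝ) 1) (hδ' : δ' = δ / L)
    (hD : ∀ (F : M → ℝ) (x : M), ∀ y ∈ ball (pt x) 4, DAt F ((ch x).symm y) →
      ‖fd F ((ch x).symm y)‖ ≤ D * ‖fderiv ℝ (loc (ch x) F) y‖) (hD0 : 0 ≤ D)
    {S : (E n → ℝ) → E n → ℝ} (hS : P366Y.Mol C δ' S) (p : M) :
    On (D * C * L) δ ((ch p).symm '' ball (pt p) 1) fun h x => S (loc (ch p) h) (ch p x) := by
  have he := ch_mem p
  have e : ∀ h : M → ℝ, loc (ch p) (fun x => S (loc (ch p) h) (ch p x)) = S (loc (ch p) h) :=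
    fun h => funext fun y => by rw [loc_apply, right_inv he]
  have sm : ∀ h, Continuous h → ∀ y,
      CAt ∞ (fun x => S (loc (ch p) h) (ch p x)) ((ch p).symm y) := fun h hh y =>
    cAt_of_loc le_rfl he (by rw [e]; exact (hS.sm _ (cont_loc he hh)).contDiffAt)
  have hL := G.four
  refine ⟨?_, ?_, fun c x _ => hS.cst c _, ?_, ?_⟩
  · rintro h hh _ ⟨y, -, rfl⟩
    exact sm h hh y
  · rintro h _ ⟨y, -, rfl⟩ hh
    simp only [right_inv he]
    exact hS.ge _ y (cont_loc he hh)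
  · rintro h h' _ ⟨y, hy, rfl⟩ c hh hh' k
    simp only [right_inv he]
    refine hS.loc _ _ y c (cont_loc he hh) (cont_loc he hh') fun z hz => k _ ?_
    rw [mem_ball_iff_norm, hδ', ← mul_div_assoc, lt_div_iff₀ G.pos] at hz
    have h1 : ‖z - y‖ ≤ 1 := by nlinarith [hδ.2, norm_nonneg (z - y)]
    have h2 := mem_ball_iff_norm.1 hy
    have h3 : z ∈ ball (pt p) 4 := mem_ball_iff_norm.2 (by
      linarith [norm_sub_le_norm_sub_add_norm_sub z y (pt p)])
    exact mem_ball.2 ((G.hi p z h3 y (ball_subset_ball (by norm_num) hy)).trans_lt (by linarith))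
  · rintro h _ ⟨y, hy, rfl⟩ a b hh k
    refine (hD _ p y (ball_subset_ball (by norm_num) hy)
      ((sm h hh y).differentiableAt (by simp))).trans ?_
    rw [e]
    refine (mul_le_mul_of_nonneg_left (hS.lip _ y a b (cont_loc he hh) fun z => k _)
      hD0).trans_eq ?_
    have := hδ.1
    rw [hδ']
    field_simp

/-- the operator of the end -/
theorem far (hδ : δ ∈ Ioc (0 : ℝ) 1) {S : (E n → ℝ) → E n → ℝ} (hS : P366Y.Mol C δ S) :
    On C δ {x : M | R0 M + 3 < ‖px x‖} fun h x => S (xfj Mfe.o 0 h) (px x) := by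
  have ct : ∀ {h : M → ℝ}, Continuous h → ∀ c, Continuous (xfj Mfe.o c h) := fun hh c =>
    (CD.xfj (m := 0) (fun e he => contDiff_zero.2 (cont_loc he hh)) (by simp) _ c).continuous
  have nr : ∀ y : E n, R0 M + 3 < ‖y‖ → ∀ z ∈ ball y (2 * δ), R0 M + 1 / 2 ≤ ‖z‖ :=
    fun y hy z hz => by linarith [norm_ge_of_ball hz, hδ.2]
  have cg : ∀ {u u' : E n → ℝ}, Continuous u → Continuous u' → ∀ y : E n, R0 M + 3 < ‖y‖ →
      (∀ z, R0 M + 1 / 2 ≤ ‖z‖ → u z = u' z) → S u y = S u' y := fun hu hu' y hy k =>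
    le_antisymm (by simpa using hS.loc _ _ y 0 hu hu' fun z hz => by simp [k z (nr y hy z hz)])
      (by simpa using hS.loc _ _ y 0 hu' hu fun z hz => by simp [k z (nr y hy z hz)])
  refine ⟨fun h hh x _ => cAt_px (hS.sm _ (ct hh 0)).contDiffAt le_rfl, fun h x hx hh => ?_,
    fun c x hx => ?_, fun h h' x hx c hh hh' k => ?_, fun h x hx a b hh k => ?_⟩
  · have hx' : R0 M + 3 < ‖px x‖ := hx
    have := hS.ge _ (px x) (ct hh 0)
    rwa [xfj_eq (by linarith), show ye Mfe.o (px x) = x from yp_px (by linarith)] at this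
  · rw [cg (ct continuous_const 0) continuous_const _ hx fun z hz => xfj_eq hz, hS.cst]
  · have hx' : R0 M + 3 < ‖px x‖ := hx
    refine hS.loc _ _ _ c (ct hh 0) (ct hh' 0) fun z hz => ?_
    have h1 := nr _ hx z hz
    rw [xfj_eq h1, xfj_eq h1]
    refine k _ (mem_ball.2 ?_)
    rw [← show ye Mfe.o (px x) = x from yp_px (by linarith), dist_ye (by linarith) (by linarith)]
    exact mem_ball_iff_norm.1 hz
  · have hx' : R0 M + 3 < ‖px x‖ := hx
    have e : S (xfj Mfe.o 0 h) =ᶠ[𝓝 (px x)] S (xfj Mfe.o a h) :=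
      (ev_lt_norm hx').mono fun y hy => cg (ct hh 0) (ct hh a) y hy fun z hz => by
        rw [xfj_eq hz, xfj_eq hz]
    rw [fd_px (by linarith), e.fderiv_eq]
    exact hS.lip _ _ a b (ct hh a) fun y => xfj_mem ⟨le_rfl, (k x).1.trans (k x).2⟩ k y

theorem On.mono {O : Set M} {S : (M → ℝ) → M → ℝ} {C' : ℝ} (h : On C δ O S) (hδ : 0 < δ)
    (hC : C ≤ C') : On C' δ O S :=
  ⟨h.sm, h.ge, h.cst, h.loc, fun u x hx a b hu k => (h.lip u x hx a b hu k).trans (by
    have : 0 ≤ b - a := sub_nonneg.2 ((k x).1.trans (k x).2)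
    gcongr)⟩

end MolH

open MolH in
/-- **MOL** -/
theorem mol : MOL := by
  intro n M _
  obtain ⟨C, C0, hC⟩ := P366Y.mol n
  obtain ⟨L, G⟩ := exists_geo M
  obtain ⟨D, D1, hD⟩ := fd_ball M
  have hL := G.four
  obtain ⟨t, χ, c1, c2, c3, c4, c5⟩ := exists_pou (isCompact_px M (R0 M + 3))
    (fun p => (ch p).symm '' ball (pt p) 1) fun p => image_nhds p (ball_mem_nhds _ one_pos)
  have out : ∀ p, ∃ R, ∀ y, R < ‖px y‖ → χ p y = 0 := fun p =>
    ⟨4 * L + ‖px p‖, fun y hy => by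
      by_contra k
      obtain ⟨z, hz, rfl⟩ := c2 p (subset_tsupport _ k)
      linarith [G.px_le (ball_subset_ball (by norm_num) hz),
        norm_sub_norm_le (px ((ch p).symm z)) (px p)]⟩
  choose R hR using out
  obtain ⟨R', hR'⟩ := (t.finite_toSet.image R).bddAbove
  let χ' : Option M → M → ℝ := fun i => i.elim (fun x => 1 - ∑ p ∈ t, χ p x) χ
  have s1 : ∀ i, Smooth (χ' i) := fun i => by
    cases i with
    | none => exact cd_const.sub (CD.sum fun p _ => c1 p)
    | some p => exact c1 p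
  have s2 : ∀ i, ∃ K, ∀ x, ‖fd (χ' i) x‖ ≤ K := fun i => by
    cases i with
    | none =>
      obtain ⟨K, -, hK⟩ := bdd_of_const (s1 none) (R := R') (c := 1) fun y hy => by
        simp only [χ', Option.elim]
        rw [Finset.sum_eq_zero fun p hp => hR p y ((hR' ⟨p, hp, rfl⟩).trans_lt hy), sub_zero]
      exact ⟨K, fun x => (hK x).2⟩
    | some p =>
      obtain ⟨K, -, hK⟩ := bdd_of_const (c1 p) (hR p)
      exact ⟨K, fun x => (hK x).2⟩
  choose K hK using s2
  obtain ⟨K', hK'⟩ := ((Finset.insertNone t).finite_toSet.image K).bddAbove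
  have K0 : 0 ≤ K' := ((norm_nonneg _).trans (hK none (Classical.arbitrary M))).trans
    (hK' ⟨none, by simp, rfl⟩)
  have D0 : 0 ≤ D := by linarith
  refine ⟨(Finset.insertNone t).card * (D * C * L + K'), mul_pos (Nat.cast_pos.2
    (Finset.card_pos.2 ⟨none, by simp⟩)) (by positivity), fun δ hδ => ?_⟩
  obtain ⟨S, hS⟩ := hC δ hδ.1
  obtain ⟨S', hS'⟩ := hC (δ / L) (div_pos hδ.1 G.pos)
  refine ⟨_, glue (Finset.insertNone t) (χ := χ')
    (O := fun i => i.elim {x : M | R0 M + 3 < ‖px x‖} fun p => (ch p).symm '' ball (pt p) 1)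
    (S := fun i => i.elim (fun h x => S (xfj Mfe.o 0 h) (px x))
      fun p h x => S' (loc (ch p) h) (ch p x)) hδ (by positivity) K0 s1 (fun i x => ?_)
    (fun x => ?_) (fun i => ?_) (fun i hi x => (hK i x).trans (hK' ⟨i, hi, rfl⟩)) fun i => ?_⟩
  · cases i with
    | none => exact sub_nonneg.2 (c4 x)
    | some p => exact c3 p x
  · simp [χ', Finset.sum_insertNone]
  · cases i with
    | none =>
      intro x hx
      by_contra k
      exact notMem_tsupport_iff_eventuallyEq.2 ((c5 x (show ‖px x‖ ≤ _ from not_lt.1 k)).mono fun z hz => by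
        simp [χ', hz]) hx
    | some p => exact c2 p
  · cases i with
    | none => exact (far hδ hS).mono hδ.1 (by nlinarith [mul_le_mul D1 hL zero_le_four D0])
    | some p => exact chart G hδ rfl (fun F x y hy h => (hD ℝ F x y hy h).2) D0 hS' p

end Vale.Agent.P366M.Y
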