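import Vale.Agent.P366Q.T.Usch
import Vale.Agent.P366Y.T.Nats

/-!
# P366Q, row NATS: the estimate of Schauder under natural growth on a manifold
-/

open Metric Filter Topology Set
open scoped ContDiff
open Vale.Agent.P366 Vale.Agent.P366.Stmt Vale.Agent.P366Z Vale.Agent.P366Y

noncomputable section

namespace Vale.Agent.P366M.Y

namespace NatsX

variable {n : ℕ} {α K s t Λ : ℝ}

theorem ho1 {u : E n → ℝ} {O : Set (E n)} (hα : α ∈ Ioo (0 : ℝ) 1) (t0 : 0 < t) (K0 : 0 ≤ K)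
    (hs : s = t⁻¹ ^ α) (hO : Convex ℝ O) (hu : ∀ y ∈ O, ContDiffAt ℝ 2 u y)
    (hG : ∀ y ∈ O, ‖P366Y.D1 u y‖ ≤ K * (s * t)) (hH : ∀ y ∈ O, ‖P366Y.D2 u y‖ ≤ K * (s * t ^ 2))
    {y z : E n} (hy : y ∈ O) (hz : z ∈ O) :
    ‖P366Y.D1 u y - P366Y.D1 u z‖ ≤ (n + 2) * K * t * ‖y - z‖ ^ α := by
  have r0 : 0 < t⁻¹ := inv_pos.2 t0
  have n0 : (0 : ℝ) ≤ n := Nat.cast_nonneg n
  have d0 : 0 ≤ ‖y - z‖ ^ α := Real.rpow_nonneg (norm_nonneg _) α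
  have d1 : 0 ≤ K * t * ‖y - z‖ ^ α := by positivity
  rcases le_total ‖y - z‖ t⁻¹ with c | c
  · have c1 := NatsH.small hα r0 (norm_nonneg _) c
    rw [← hs] at c1
    have c2 : n * (K * (s * t ^ 2)) * ‖y - z‖ ≤ n * (K * t * ‖y - z‖ ^ α) := by
      calc _ = n * K * t ^ 2 * (s * ‖y - z‖) := by ring
        _ ≤ n * K * t ^ 2 * (t⁻¹ * ‖y - z‖ ^ α) := by gcongr
        _ = _ := by field_simp
    linarith [lip_of_D2 hO hu hH hy hz]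
  · have c1 : s ≤ ‖y - z‖ ^ α := hs ▸ Real.rpow_le_rpow r0.le c hα.1.le
    have c2 : K * (s * t) ≤ K * t * ‖y - z‖ ^ α := by
      calc _ = K * t * s := by ring
        _ ≤ _ := by gcongr
    linarith [norm_sub_le (P366Y.D1 u y) (P366Y.D1 u z), mul_nonneg n0 d1, hG y hy, hG z hz]

theorem e2b {q : Vc n} (Λ0 : 0 ≤ Λ) (s1 : s ≤ 1) (u1 : 1 ≤ s * t ^ 2)
    (hq : ‖q‖ ≤ K * (s * t)) : Λ * (1 + e2 q) ≤ Λ * (1 + n * K ^ 2) * (s * t ^ 2) := by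
  have c1 := NatsH.e2_le hq
  have c2 : n * (K * (s * t)) ^ 2 ≤ n * K ^ 2 * (s * t ^ 2) := by
    calc _ = n * K ^ 2 * (s * t ^ 2) * s := by ring
      _ ≤ n * K ^ 2 * (s * t ^ 2) * 1 := by gcongr
      _ = _ := mul_one _
  rw [mul_assoc]
  exact mul_le_mul_of_nonneg_left (by linarith) Λ0

theorem scale (hα : α ∈ Ioo (0 : ℝ) 1) (ht : 1 ≤ t) (hs : s = t⁻¹ ^ α) :
    0 < s ∧ s ≤ 1 ∧ 1 ≤ s * t ∧ t ≤ s * t ^ 2 ∧ s * t ≤ t := by
  have t0 : 0 < t := one_pos.trans_le ht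
  have r0 : 0 < t⁻¹ := inv_pos.2 t0
  have r1 : t⁻¹ ≤ 1 := inv_le_one_of_one_le₀ ht
  have s0 : 0 < s := hs ▸ Real.rpow_pos_of_pos r0 α
  have s1 : s ≤ 1 := hs ▸ Real.rpow_le_one r0.le r1 hα.1.le
  have s2 : 1 ≤ s * t := by
    have : t⁻¹ ≤ s := by simpa [hs] using Real.rpow_le_rpow_of_exponent_ge r0 r1 hα.2.le
    rwa [inv_le_iff_one_le_mul₀ t0] at this
  exact ⟨s0, s1, s2, by nlinarith, by nlinarith⟩

theorem fin {P i : ℝ} (hα : α ∈ Ioo (0 : ℝ) 1) (t1 : 1 ≤ t) (P1 : 1 ≤ P) (h : t ^ 2 < 2 * i)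
    (i2 : i ≤ P * (t⁻¹ ^ α * t ^ 2)) :
    t ≤ (2 * P) ^ α⁻¹ ∧ P * (t⁻¹ ^ α * t ^ 2) ≤ P * ((2 * P) ^ α⁻¹) ^ 2 := by
  have t0 : 0 < t := one_pos.trans_le t1
  have a0 : 0 < t ^ α := Real.rpow_pos_of_pos t0 α
  have a1 : 1 ≤ t ^ α := Real.one_le_rpow t1 hα.1.le
  rw [Real.inv_rpow t0.le] at i2 ⊢
  have a2 : t ^ α ≤ 2 * P := by
    have : t ^ 2 * 1 ≤ t ^ 2 * (2 * P * (t ^ α)⁻¹) := by linarith
    have := le_of_mul_le_mul_left this (by positivity)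
    rwa [← div_eq_mul_inv, one_le_div a0] at this
  have a3 : t ≤ (2 * P) ^ α⁻¹ := by
    rw [Real.le_rpow_inv_iff_of_pos t0.le (by linarith) hα.1]
    exact a2
  refine ⟨a3, ?_⟩
  have := inv_le_one_of_one_le₀ a1
  calc _ ≤ P * (1 * ((2 * P) ^ α⁻¹) ^ 2) := by gcongr
    _ = _ := by rw [one_mul]

end NatsX

/-- **NATS** on manifolds with any number of ends -/
theorem nats' {n : ℕ} (M : Type) [Mfs n M] {α : ℝ} (Λ : ℝ) (hα : α ∈ Ioo (0 : ℝ) 1) : ∃ C : ℝ,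
    ∀ (a : Fld n M) (b : M → Vc n → ℝ) (v : M → ℝ), (∀ x, El Λ (a x)) → HoU α Λ a →
    (∃ A, C2H α A v) → HoS α Λ v → (∀ x q, |b x q| ≤ Λ * (1 + e2 q)) →
    (∀ x, ∀ y ∈ ball (pt x) 1, ∀ z ∈ ball (pt x) 1, ∀ q,
      |b ((ch x).symm y) (tC (ch x) y q) - b ((ch x).symm z) (tC (ch x) z q)| ≤
        Λ * (1 + e2 q) * ‖y - z‖ ^ α) →
    (∀ x q q', |b x q - b x q'| ≤ Λ * (1 + ‖q‖ + ‖q'‖) * ‖q - q'‖) →
    (∀ x, pr2 (a x) (D2 v x) = b x (D1 v x)) → C2H α C v := by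
  obtain ⟨C₁, h1, hI⟩ := intp' M hα.1.le
  obtain ⟨C₂, h2, hU⟩ := usch' M Λ hα
  obtain ⟨C, B⟩ := exists_big M
  obtain ⟨G, G0, hG⟩ := gm_bd bg_met (flat_bg (M := M) le_rfl)
  have C4 := B.four
  obtain ⟨K₀, hK₀⟩ : ∃ K₀, K₀ = C₁ * (2 * C * Λ + 1) := ⟨_, rfl⟩
  obtain ⟨K, hK⟩ : ∃ K, K = (C + n * (G * C)) * K₀ := ⟨_, rfl⟩
  obtain ⟨K', hK'⟩ : ∃ K', K' = (n + 2) * K := ⟨_, rfl⟩
  obtain ⟨Q, hQ⟩ : ∃ Q, Q = Λ * (1 + n * K ^ 2) + Λ * (1 + 2 * (C * K)) * (C * K') := ⟨_, rfl⟩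
  obtain ⟨P, hP⟩ : ∃ P, P = C₂ * (K + Q) + 1 := ⟨_, rfl⟩
  obtain ⟨T, hT⟩ : ∃ T, T = (2 * P) ^ α⁻¹ := ⟨_, rfl⟩
  refine ⟨Λ + K' * T + P * T ^ 2, fun a b v ha ha' ⟨A, hA⟩ hv b1 b2 b3 he => ?_⟩
  have Λ0 : 0 ≤ Λ := hv.nn
  have n0 : (0 : ℝ) ≤ n := Nat.cast_nonneg n
  have C0 : 0 ≤ C := by linarith
  have k0 : 0 ≤ K₀ := by rw [hK₀]; positivity
  have k1 : C * K₀ ≤ K := by rw [hK, add_mul]; exact le_add_of_nonneg_right (by positivity)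
  have k2 : K₀ ≤ K := (le_mul_of_one_le_left k0 (by linarith)).trans k1
  have K0 : 0 ≤ K := k0.trans k2
  have K0' : K ≤ K' := by rw [hK']; exact le_mul_of_one_le_left K0 (by linarith)
  have K1 : 0 ≤ K' := K0.trans K0'
  have Q0 : 0 ≤ Q := by rw [hQ]; positivity
  have P1 : 1 ≤ P := by rw [hP]; linarith [mul_nonneg h2.le (add_nonneg K0 Q0)]
  have dv : ∀ x, DAt v x := fun x => diff2 hA.1.contDiffAt
  have hm := B.hm hα.1.le hα.2.le hv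
  have step : ∀ t, 1 ≤ t → HsT α (t ^ 2) (D2 v) →
      HoC α (K' * t) (D1 v) ∧ 1 ≤ P * (t⁻¹ ^ α * t ^ 2) ∧
        HoT α (P * (t⁻¹ ^ α * t ^ 2)) (D2 v) := by
    intro t ht hB
    have t0 : 0 < t := one_pos.trans_le ht
    have r0 : 0 < t⁻¹ := inv_pos.2 t0
    have r1 : t⁻¹ ≤ 1 := inv_le_one_of_one_le₀ ht
    obtain ⟨s, hs⟩ : ∃ s, s = t⁻¹ ^ α := ⟨_, rfl⟩
    obtain ⟨s0, s1, s2, s3, s4⟩ := NatsX.scale hα ht hs
    have k := (hI v (2 * C * Λ * s) (t ^ 2) t⁻¹ r0 r1 (by positivity) (by positivity) hA.1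
      ⟨A, hA.2.2.1.bd⟩ hB).1 fun x y hxy => (hm.2 x y).trans (mul_le_mul_of_nonneg_left
        (hs ▸ Real.rpow_le_rpow dist_nonneg hxy hα.1.le) (by positivity))
    have g0 : ∀ x, ‖D1 v x‖ ≤ K₀ * (s * t) := fun x => (k x).1.trans_eq (by
      rw [Real.rpow_add r0, Real.rpow_one, ← hs, hK₀]
      field_simp)
    have g2 : ∀ x, ‖D2 v x‖ ≤ K₀ * (s * t ^ 2) := fun x => (k x).2.trans_eq (by
      rw [← hs, hK₀]
      field_simp)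
    have hG' : ∀ x : M, ∀ y ∈ ball (pt x) 1, ‖P366Y.D1 (loc (ch x) v) y‖ ≤ K * (s * t) :=
      fun x y hy => (B.d1_le dv g0 (one4 x hy)).trans (by
        rw [← mul_assoc]; exact mul_le_mul_of_nonneg_right k1 (by positivity))
    have hH : ∀ x : M, ∀ y ∈ ball (pt x) 1, ‖P366Y.D2 (loc (ch x) v) y‖ ≤ K * (s * t ^ 2) :=
      fun x y hy => by
        have a1 := IntpX.d2_sub B hG hA.1 (A := K₀ * (s * t ^ 2))
          (fun x => (g0 x).trans (mul_le_mul_of_nonneg_left (s4.trans s3) k0)) (one4 x hy)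
        have a2 := (B.rep_le (one4 x hy) (D2 v)).trans (mul_le_mul_of_nonneg_left (g2 _) C0)
        rw [hK]
        linarith [norm_sub_norm_le (P366Y.D2 (loc (ch x) v) y) (rep (ch x) (D2 v) y)]
    have hD : ∀ x : M, ∀ y ∈ ball (pt x) 1, ∀ z ∈ ball (pt x) 1,
        ‖P366Y.D1 (loc (ch x) v) y - P366Y.D1 (loc (ch x) v) z‖ ≤ K' * t * ‖y - z‖ ^ α :=
      fun x y hy z hz => hK' ▸ NatsX.ho1 hα t0 K0 hs (convex_ball _ _)
        (fun _ _ => (hA.1 _ (ch_mem x)).contDiffAt) (hG' x) (hH x) hy hz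
    have u1 : 1 ≤ s * t ^ 2 := ht.trans s3
    have hE : ∀ q : Vc n, ‖q‖ ≤ K * (s * t) →
        Λ * (1 + e2 q) ≤ Λ * (1 + n * K ^ 2) * (s * t ^ 2) := fun q hq =>
      NatsX.e2b Λ0 s1 u1 hq
    have q1 : Λ * (1 + n * K ^ 2) * (s * t ^ 2) ≤ Q * (s * t ^ 2) := by
      have : 0 ≤ Λ * (1 + 2 * (C * K)) * (C * K') := by positivity
      exact mul_le_mul_of_nonneg_right (by linarith) (by positivity)
    have g3 : ∀ x, ‖D1 v x‖ ≤ K * (s * t) := fun x =>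
      (g0 x).trans (mul_le_mul_of_nonneg_right k2 (by positivity))
    have hh : HoS α (Q * (s * t ^ 2)) fun x => pr2 (a x) (D2 v x) := by
      simp only [he]
      refine fun x => ⟨fun y _ => ((b1 _ _).trans (hE _ (g3 _))).trans q1, fun y hy z hz => ?_⟩
      have e : ∀ y, D1 v ((ch x).symm y) = tC (ch x) y (P366Y.D1 (loc (ch x) v) y) := fun y => by
        rw [← rC_D1 (ch_mem x) (dv _), tC_rC (ch_mem x)]
      simp only [loc_apply, e]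
      have a1 := hG' x y hy
      have a2 := hG' x z hz
      have a3 := hD x y hy z hz
      generalize P366Y.D1 (loc (ch x) v) y = p at a1 a3
      generalize P366Y.D1 (loc (ch x) v) z = q at a2 a3
      have d0 : 0 ≤ ‖y - z‖ ^ α := Real.rpow_nonneg (norm_nonneg _) α
      have c1 := (b2 x y hy z hz p).trans (mul_le_mul_of_nonneg_right (hE p a1) d0)
      have c2 : 1 + ‖tC (ch x) z p‖ + ‖tC (ch x) z q‖ ≤ (1 + 2 * (C * K)) * (s * t) := by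
        linarith [B.tC_le (one4 x hz) p, B.tC_le (one4 x hz) q, mul_le_mul_of_nonneg_left a1 C0,
          mul_le_mul_of_nonneg_left a2 C0]
      have c4 : ‖tC (ch x) z p - tC (ch x) z q‖ ≤ C * (K' * t * ‖y - z‖ ^ α) := by
        rw [tC_eq, tC_eq, ← map_sub, ← tC_eq]
        exact (B.tC_le (one4 x hz) _).trans (mul_le_mul_of_nonneg_left a3 C0)
      have c3 := (b3 ((ch x).symm z) _ _).trans (mul_le_mul (mul_le_mul_of_nonneg_left c2 Λ0) c4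
        (norm_nonneg _) (by positivity))
      refine (abs_sub_le _ (b ((ch x).symm z) (tC (ch x) z p)) _).trans
        ((add_le_add c1 c3).trans_eq ?_)
      rw [hQ]
      ring
    have g1 : ∀ x, ‖D1 v x‖ ≤ K * (s * t ^ 2) := fun x =>
      (g3 x).trans (mul_le_mul_of_nonneg_left (s4.trans s3) K0)
    rw [← hs]
    refine ⟨fun x => HoB.congr ⟨fun y hy => (hG' x y hy).trans
      (mul_le_mul K0' s4 (by positivity) K1), hD x⟩ fun y _ => rC_D1 (ch_mem x) (dv _),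
      one_le_mul_of_one_le_of_one_le P1 u1,
      (hU a v _ _ ha ha' hA.1 ⟨A, hA.2.2.2⟩ g1 hh).mono ?_⟩
    rw [hP]
    linarith [zero_le_one.trans u1]
  let S : Set ℝ := {B | 1 ≤ B ∧ HsT α B (D2 v)}
  have hne : S.Nonempty :=
    ⟨max 1 A, le_max_left _ _, fun x => ((hA.2.2.2.mono (le_max_right _ _)) x).2⟩
  have hb : BddBelow S := ⟨1, fun _ h => h.1⟩
  have i1 : 1 ≤ sInf S := le_csInf hne fun _ h => h.1
  obtain ⟨B, hB, hB'⟩ := exists_lt_of_csInf_lt hne (show sInf S < 2 * sInf S by linarith)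
  have t1 : 1 ≤ √B := Real.one_le_sqrt.2 hB.1
  have t2 : √B ^ 2 = B := Real.sq_sqrt (zero_le_one.trans hB.1)
  obtain ⟨k1, k2, k3⟩ := step (√B) t1 (by rw [t2]; exact hB.2)
  generalize √B = t at t1 t2 k1 k2 k3
  obtain ⟨a3, a5⟩ := NatsX.fin hα t1 P1 (t2.trans_lt hB') (csInf_le hb ⟨k2, fun x => (k3 x).2⟩)
  rw [← hT] at a3 a5
  have a4 : K' * t ≤ K' * T := mul_le_mul_of_nonneg_left a3 K1
  have a6 : 0 ≤ K' * T := mul_nonneg K1 (zero_le_one.trans (t1.trans a3))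
  have a7 : 0 ≤ P * T ^ 2 := by positivity
  exact ⟨hA.1, hv.mono (by linarith), k1.mono (by linarith), k3.mono (by linarith)⟩

/-- **NATS** -/
theorem nats : NATS := fun _ M _ _ Λ hα => nats' M Λ hα

end Vale.Agent.P366M.Y
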