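import Vale.Agent.P366Q.Sk
import Vale.Agent.P366M.End2
import Vale.Agent.P366M.Calc2
import Vale.Agent.P366M.Int
import Vale.Agent.P366Y.T.Mpn

/-!
# P366Q, row MPN: maximum principles for operators in non divergence form on a manifold
-/

open Metric Filter Topology Set
open scoped ContDiff
open Vale.Agent.P366 Vale.Agent.P366.Stmt Vale.Agent.P366Z Vale.Agent.P366Y

noncomputable section

namespace Vale.Agent.P366M.Y

namespace Mp

section L0

variable {n : ℕ} {M : Type} [Mf n M] {Λ : ℝ} {a : Mx n} {v w : M → ℝ} {x : M}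

/-- at a critical point the Hessian is the matrix of the second derivatives in the chart -/
theorem d2_crit (h : ∀ i, pd i w x = 0) : D2 w x = P366Y.D2 (loc (ch x) w) (pt x) := by
  funext i j
  simp only [D2, hess, h, mul_zero, Finset.sum_const_zero, sub_zero]
  rfl

theorem at_max (h : El Λ a) (hw : CAt 2 w x) (hx : IsLocalMax w x) : pr2 a (D2 w x) ≤ 0 := by
  rw [d2_crit (pd_of_isLocalMax hx)]
  exact P366Y.Mp.at_max h hw (isLocalMax_loc hx)

theorem d2_lin (hv : CAt 2 v x) (hw : CAt 2 w x) (t : ℝ) (a : Mx n) :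
    pr2 a (D2 (fun y => v y - t * w y) x) = pr2 a (D2 v x) - t * pr2 a (D2 w x) := by
  simp only [pr2, D2, hess_sub hv (cAt_const.mul hw), hess_const_mul, mul_sub,
    Finset.sum_sub_distrib, Finset.mul_sum, mul_left_comm t]

theorem at_min (h : El Λ a) (hw : CAt 2 w x) (hx : IsLocalMin w x) : 0 ≤ pr2 a (D2 w x) := by
  have := at_max h (w := fun y => 0 - 1 * w y) (cAt_const.sub (cAt_const.mul hw))
    (by simpa using hx.neg)
  rw [d2_lin cAt_const hw] at this
  simpa [pr2, D2, hess_const] using this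

end L0

variable {n : ℕ} {M : Type} [Mfe n M]

theorem bu_sm : Smooth (bu : M → ℝ) := smooth_px P366Y.Mp.bu_sm

theorem bu_pos (x : M) : 0 < bu x := P366Y.Mp.bu_pos _

theorem bu_le (hn : 3 ≤ n) (x : M) : bu x ≤ 1 := P366Y.Mp.bu_le hn _

theorem bu_lim (hn : 3 ≤ n) : Tendsto (bu : M → ℝ) (cocompact M) (𝓝 0) :=
  (P366Y.Mp.bu_lim hn).comp tendsto_px

/-- the Hessian of a smooth function is bounded on bounded sets -/
theorem d2_bdd {M : Type} [Mfs n M] {v : M → ℝ} (hv : Smooth v) (R : ℝ) :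
    ∃ K, 0 < K ∧ ∀ x : M, ‖px x‖ ≤ R → ‖D2 v x‖ ≤ K := by
  obtain ⟨K, K0, hK⟩ := bdd_ch (F := fun e : Ch n M => rep e (D2 v)) (fun e he =>
    continuous_pi fun i => continuous_pi fun j => (bg_met.sm_hess hv e he i j).continuous) R 0
  exact ⟨K, K0, fun x hx => by simpa using hK x hx (pt x) (mem_closedBall_self le_rfl)⟩

/-- the bubble is a strict supersolution -/
theorem bar (M : Type) [Mfe n M] (Λ₀ ρ : ℝ) (hn : 3 ≤ n) (hρ : R0 M + 1 ≤ ρ) :
    ∃ l₀ : ℝ, ∃ C > (0 : ℝ), ∀ l ≥ l₀, ∀ (a : Fld n M) (c : M → ℝ), Lin Λ₀ ρ l a c → ∀ x,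
      pr2 (a x) (D2 bu x) - c x * bu x < 0 ∧
      (‖px x‖ ≤ ρ + 1 → C * (pr2 (a x) (D2 bu x) - c x * bu x) ≤ -1) := by
  have n3 : (3 : ℝ) ≤ n := by exact_mod_cast hn
  have hb := St0.bub0 n hn
  obtain ⟨K, K0, hK⟩ := d2_bdd (bu_sm (M := M)) ρ
  have cm : Continuous fun y => (min (P366Y.bu n y) (St0.src n y))⁻¹ :=
    (P366Y.Mp.bu_sm.continuous.min hb.2.1.cont).inv₀ fun x =>
      (lt_min (P366Y.Mp.bu_pos x) (hb.2.2.2.1 x).2.2.1).ne'
  obtain ⟨C, hC⟩ := (isCompact_closedBall (0 : E n) (ρ + 1)).exists_bound_of_continuousOn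
    cm.continuousOn
  have C1 : ∀ x : M, ‖px x‖ ≤ ρ + 1 → 1 ≤ |C| * min (bu x) (St0.src n (px x)) := fun x hx => by
    have m0 : 0 < min (bu x) (St0.src n (px x)) := lt_min (bu_pos x) (hb.2.2.2.1 _).2.2.1
    have h1 := mul_le_mul_of_nonneg_right ((le_abs_self _).trans
      ((hC (px x) (mem_closedBall_zero_iff.2 hx)).trans (le_abs_self C))) m0.le
    rwa [show (min (P366Y.bu n (px x)) (St0.src n (px x)))⁻¹ =
      (min (bu x) (St0.src n (px x)))⁻¹ from rfl, inv_mul_cancel₀ m0.ne'] at h1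
  refine ⟨n ^ 2 * |Λ₀| * K * |C| + 1, |C| + 1, by positivity, fun l hl a c h x => ?_⟩
  have m0 : 0 < min (bu x) (St0.src n (px x)) := lt_min (bu_pos x) (hb.2.2.2.1 _).2.2.1
  have key : pr2 (a x) (D2 bu x) - c x * bu x ≤ -min (bu x) (St0.src n (px x)) := by
    rcases le_or_gt ‖px x‖ ρ with hx | hx
    · have h1 : pr2 (a x) (D2 bu x) ≤ n ^ 2 * |Λ₀| * K := by
        refine (Finset.sum_le_card_nsmul _ _ (n * (|Λ₀| * K)) fun i _ =>
          (Finset.sum_le_card_nsmul _ _ (|Λ₀| * K) fun j _ => (le_abs_self _).trans ?_).trans_eq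
            (by simp)).trans_eq (by simp; ring)
        rw [abs_mul]
        exact mul_le_mul ((h.bd x i j).trans (le_abs_self _))
          (((norm_le_pi_norm (D2 bu x i) j).trans (norm_le_pi_norm _ i)).trans (hK x hx))
          (abs_nonneg _) (abs_nonneg _)
      have h2 := (C1 x (by linarith)).trans
        (mul_le_mul_of_nonneg_left (min_le_left _ _) (abs_nonneg C))
      have h3 := mul_le_mul_of_nonneg_left h2 (by positivity : 0 ≤ n ^ 2 * |Λ₀| * K)
      have h4 := mul_le_mul_of_nonneg_right hl (bu_pos x).le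
      rw [h.cl x hx]
      linarith [min_le_left (bu x) (St0.src n (px x))]
    · have h1 : pr2 (a x) (D2 bu x) = -(n * (n - 2) * St0.src n (px x)) := by
        rw [← (hb.2.2.2.1 _).2.2.2.2.1, h.id x hx.le, P366Z.lap_eu]
        simp only [pr2, D2, eu, (flat_bg hρ).hess_eq hx, ite_mul, one_mul, zero_mul,
          Finset.sum_ite_eq, Finset.mem_univ, if_true]
        exact Finset.sum_congr rfl fun i _ => pd2_px (by linarith) i i (P366Y.bu n)
      have h2 := mul_nonneg (h.cb x).1 (bu_pos x).le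
      have h3 := mul_le_mul_of_nonneg_right (show (1 : ℝ) ≤ n * (n - 2) by nlinarith)
        (hb.2.2.2.1 (px x)).2.2.1.le
      linarith [min_le_right (bu x) (St0.src n (px x))]
  refine ⟨by linarith, fun hx => ?_⟩
  have h2 := mul_le_mul_of_nonneg_left key (by positivity : 0 ≤ |C| + 1)
  linarith [C1 x hx]

end Mp

open Mp

/-- **MPN** -/
theorem mpn : MPN := by
  intro n M _ Λ₀ ρ hn hρ
  obtain ⟨l₀, C, C0, h⟩ := bar M Λ₀ ρ hn hρ
  refine ⟨l₀, C, C0, fun l hl a c v H hL hv h0 H0 h1 h2 x => ?_⟩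
  obtain ⟨Λ, hΛ⟩ := hL.el
  refine le_of_forall_pos_le_add fun e he => ?_
  by_contra k
  have c2 : CD 2 fun y => v y - (C * H + e) * bu y := hv.sub (cd_const.mul bu_sm.two)
  have p0 : 0 < v x - (C * H + e) * bu x := by
    linarith [mul_le_mul_of_nonneg_left (bu_le hn x) he.le]
  obtain ⟨y, hy⟩ := c2.continuous.exists_forall_ge' x (by
    have := h0.sub ((bu_lim (M := M) hn).const_mul (C * H + e))
    rw [mul_zero, sub_zero] at this
    exact this.eventually (Iic_mem_nhds p0))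
  have k1 := at_max (hΛ y) c2.contDiffAt (.of_forall hy)
  rw [d2_lin hv.contDiffAt (bu_sm.c2 y)] at k1
  have k2 := mul_nonneg (hL.cb y).1 (p0.le.trans (hy x))
  obtain ⟨k3, k4⟩ := h l hl a c hL y
  have k5 := mul_neg_of_pos_of_neg he k3
  rcases le_total ‖px y‖ (ρ + 1) with k6 | k6
  · linarith [h1 y, mul_le_mul_of_nonneg_left (k4 k6) H0]
  · linarith [h2 y k6, mul_nonpos_of_nonneg_of_nonpos (mul_nonneg C0.le H0) k3.le]

end Vale.Agent.P366M.Y
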