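import Vale.Agent.P366Q.T.Res
import Vale.Agent.P366Q.T.Mpn

/-!
# P366Q, row LINH: linear equations with Hölder coefficients
-/

open Metric Filter Topology Set
open scoped ContDiff
open Vale.Agent.P366 Vale.Agent.P366.Stmt Vale.Agent.P366Z Vale.Agent.P366Y

noncomputable section

namespace Vale.Agent.P366M.Y

namespace Lh

variable {n : ℕ} {M : Type} [Mfs n M] {α Λ A ρ : ℝ} {a : Fld n M} {w : M → ℝ}

theorem d2_sq (M : Type) [Mfs n M] : ∃ T, ∀ x : M, ‖D2 (fun y : M => ‖px y‖ ^ 2) x‖ ≤ T := by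
  obtain ⟨T, hT⟩ := hoT_sm (bg_met.sm_hess (contDiff_normSq (M := M))) (R := R0 M + 2)
    (c := fun i j => 2 * if i = j then 1 else 0) fun x hx => by
      funext i j
      rw [(flat_bg le_rfl).hess_eq (by linarith), pd2_px (by linarith) i j fun y => ‖y‖ ^ 2,
        funext (P366Z.pd_normSq j), P366Z.pd_const_mul, P366Z.pd_coord]
  exact ⟨T, hT.bd⟩

/-- the resolvent preserves the order on bounded functions -/
theorem bdd (ha : ∀ x, El Λ (a x)) {l N : ℝ} (hl : 0 < l) (hw : CD 2 w) (hN : ∀ x, |w x| ≤ N)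
    (h : ∀ x, l * w x ≤ pr2 (a x) (D2 w x)) (x : M) : w x ≤ 0 := by
  obtain ⟨T, hT⟩ := d2_sq M
  obtain ⟨S, hS⟩ : ∃ S, S = n * (n * (|Λ| * |T|)) := ⟨_, rfl⟩
  have S0 : 0 ≤ S := by rw [hS]; positivity
  obtain ⟨K, hK⟩ : ∃ K, K = ‖px x‖ ^ 2 + S / l + 1 := ⟨_, rfl⟩
  have K0 : 0 < K := by rw [hK]; positivity
  refine le_of_forall_pos_le_add fun e he => ?_
  have δ0 : 0 < e / K := div_pos he K0
  generalize hδ : e / K = δ at δ0
  have c2 : CD 2 fun y => w y - δ * ‖px y‖ ^ 2 := hw.sub (cd_const.mul contDiff_normSq.two)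
  obtain ⟨y, hy⟩ := c2.continuous.exists_forall_ge' x (by
    filter_upwards [tendsto_npx.eventually_ge_atTop (‖px x‖ ^ 2 + 2 * N / δ + 1)] with y hy
    have h1 : 0 ≤ 2 * N / δ := div_nonneg (by linarith [abs_nonneg (w x), hN x]) δ0.le
    have h2 : ‖px x‖ ^ 2 + 2 * N / δ ≤ ‖px y‖ ^ 2 := by nlinarith [sq_nonneg ‖px x‖]
    have h3 := mul_le_mul_of_nonneg_left h2 δ0.le
    rw [mul_add, mul_div_cancel₀ _ δ0.ne'] at h3
    linarith [(abs_le.1 (hN x)).1, (abs_le.1 (hN y)).2])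
  have h1 := Mp.at_max (ha y) c2.contDiffAt (.of_forall hy)
  rw [Mp.d2_lin hw.contDiffAt (contDiff_normSq.c2 y)] at h1
  have h2 : pr2 (a y) (D2 (fun y : M => ‖px y‖ ^ 2) y) ≤ S := by
    refine (le_abs_self _).trans ((Qe.pr2_le _ _).trans ?_)
    rw [hS]
    gcongr
    exacts [norm2_le (abs_nonneg _) fun i j => ((ha y).2.1 i j).trans (le_abs_self _),
      (hT y).trans (le_abs_self _)]
  have h3 : w y ≤ δ * (S / l) := by
    rw [← mul_div_assoc, le_div_iff₀' hl]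
    nlinarith [h y]
  have h4 : δ * K = e := by rw [← hδ, div_mul_cancel₀ _ K0.ne']
  have h5 := hy x
  have h6 : 0 ≤ δ * ‖px y‖ ^ 2 := by positivity
  rw [hK] at h4
  linarith

/-- the resolvent -/
theorem res (h0 : 0 < α) (h1 : α < 1) (hρ : R0 M + 1 ≤ ρ) (he : ∀ x, El Λ (a x)) (ha : HoU α A a)
    (hi : ∀ x, ρ ≤ ‖px x‖ → a x = eu n x) (l : ℝ) :
    ∃ l' K : ℝ, l ≤ l' ∧ 0 < l' ∧ 0 ≤ K ∧ ∀ (f : M → ℝ) (P Q : ℝ), 0 ≤ Q → HN α f P Q →
      ∃ v, C2H α (K * (P + Q)) v ∧ (∀ x y, |v x - v y| ≤ K * (P + Q) * dist x y) ∧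
        ∀ x, l' * v x - pr2 (a x) (D2 v x) = f x := by
  obtain ⟨L, B⟩ := exists_big M
  have L4 := B.four
  obtain ⟨l', ⟨D, D0, hD⟩, k1, k2⟩ := ((mres h0 h1 bg_met (flat_bg hρ) (fun x => pos_of_el (he x))
    ha hi ((hoS_const (0 : ℝ)).mono (by simpa using ha.nn))).and
    ((eventually_ge_atTop l).and (eventually_gt_atTop 0))).exists
  refine ⟨l', 2 * L * (D + n * (L * D)), k1, k2, by positivity, fun f P Q Q0 hf => ?_⟩
  obtain ⟨v, v1, v2, v3, v4, v5⟩ := hD f P Q Q0 hf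
  have k := B.hm zero_le_one le_rfl (B.hoS1 (fun x => diff2 v1.contDiffAt) v2.bd v3.bd)
  refine ⟨v, C2H.mono ⟨v1, v2, v3, v4⟩ (mul_le_mul_of_nonneg_right ?_ (by linarith [hf.nn])),
    fun x y => (k.2 x y).trans_eq (by rw [Real.rpow_one]; ring), fun x => by simpa [D2] using v5 x⟩
  nlinarith [show 0 ≤ L * (n * (L * D)) by positivity]

end Lh

open Lh Mp P366Y.Lh in
theorem linh : LINH := by
  intro n M _ Λ₀ ρ hn hρ
  obtain ⟨l₀, C, C0, hbar⟩ := bar M Λ₀ ρ hn hρ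
  refine ⟨l₀, fun l hl α hα a c h hL ⟨A', ha, hc, hh⟩ hz => ?_⟩
  obtain ⟨Λ, hΛ⟩ := hL.el
  obtain ⟨L, B⟩ := exists_big M
  replace hc := B.hm hα.1.le hα.2.le hc
  replace hh := B.hm hα.1.le hα.2.le hh
  generalize 2 * L * A' = A at hc hh
  have A0 := hc.nonneg
  obtain ⟨l', K, l1, l0, K0, hres⟩ := Y.Lh.res hα.1 hα.2 hρ hΛ ha hL.id l
  obtain ⟨D, D0, hD⟩ := interp hα.1 hα.2 (ε := (2 * (K * l' + 1))⁻¹) (by positivity)
  obtain ⟨N, hN⟩ : ∃ N, N = C * A := ⟨_, rfl⟩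
  have N0 : 0 ≤ N := by rw [hN]; positivity
  obtain ⟨K₁, hK₁⟩ : ∃ K₁, K₁ = K * (l' * N + A + (l' * (D * (2 * N)) + A * N + A)) := ⟨_, rfl⟩
  have K1 : 0 ≤ K₁ := by rw [hK₁]; positivity
  have W0 : ∀ x, 0 ≤ l' - c x ∧ l' - c x ≤ l' := fun x =>
    ⟨by linarith [(hL.cb x).2], by linarith [(hL.cb x).1]⟩
  have bW : ∀ x : M, N * bu x ≤ N := fun x => mul_le_of_le_one_right N0 (bu_le hn x)
  have pW : ∀ x : M, 0 ≤ N * bu x := fun x => mul_nonneg N0 (bu_pos x).le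
  have sW : ∀ x, N * (pr2 (a x) (D2 bu x) - c x * bu x) ≤ -|h x| := fun x => by
    obtain ⟨k1, k2⟩ := hbar l hl a c hL x
    rcases le_total ‖px x‖ (ρ + 1) with k | k
    · have k3 : |h x| ≤ A := hh.1 x
      rw [hN]
      linarith [mul_le_mul_of_nonneg_left (k2 k) A0]
    · rw [hz x k, abs_zero, neg_zero]
      exact mul_nonpos_of_nonneg_of_nonpos N0 k1.le
  let S : Set (M → ℝ) := {v | (∀ x, |v x| ≤ N * bu x) ∧ ∀ x y, v x - v y ≤ 2 * K₁ * dist x y}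
  have cmp : ∀ {v w : M → ℝ} {B B' t : ℝ}, CD 2 v → CD 2 w → (∀ x, |v x| ≤ B) →
      (∀ x, |w x| ≤ B') → (∀ x, l' * v x - pr2 (a x) (D2 v x) ≤
        t * (l' * w x - pr2 (a x) (D2 w x))) → ∀ x, v x ≤ t * w x := by
    intro v w B B' t hv hw b1 b2 k x
    refine sub_nonpos.1 (bdd hΛ l0 (N := B + |t| * B') (hv.sub (cd_const.mul hw))
      (fun y => (abs_sub _ _).trans (add_le_add (b1 y) ?_)) (fun y => ?_) x)
    · rw [abs_mul]
      exact mul_le_mul_of_nonneg_left (b2 y) (abs_nonneg t)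
    · rw [d2_lin hv.contDiffAt hw.contDiffAt]
      linarith [k y]
  have b1 : ∀ x : M, |bu x| ≤ 1 := fun x => (abs_of_pos (bu_pos x)).trans_le (bu_le hn x)
  have step : ∀ v : S, ∃ w : S, (∃ P, C2H α P w.1) ∧
      ∀ x, l' * w.1 x - pr2 (a x) (D2 w.1 x) = (l' - c x) * v.1 x - h x := by
    rintro ⟨v, v1, v2⟩
    have v3 : ∀ x, |v x| ≤ N := fun x => (v1 x).trans (bW x)
    have v4 : ∀ x y, |v x - v y| ≤ ((2 * (K * l' + 1))⁻¹ * (2 * K₁) + D * (2 * N)) *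
        dist x y ^ α := fun x y => hD _ _ _ _ (by positivity) (by positivity) dist_nonneg
      (abs_sub_le_iff.2 ⟨v2 x y, dist_comm y x ▸ v2 y x⟩)
      ((abs_sub _ _).trans (by linarith [v3 x, v3 y]))
    obtain ⟨w, w1, w2, w3⟩ := hres (fun x => (l' - c x) * v x - h x) (l' * N + A)
      (l' * ((2 * (K * l' + 1))⁻¹ * (2 * K₁) + D * (2 * N)) + A * N + A) (by positivity)
      ⟨fun x => (abs_sub _ _).trans (add_le_add (by
        rw [abs_mul, abs_of_nonneg (W0 x).1]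
        exact mul_le_mul (W0 x).2 (v3 x) (abs_nonneg _) l0.le) (hh.1 x)), fun x y => by
        have k1 := ((abs_mul (l' - c x) (v x - v y)).trans
          (congrArg (· * _) (abs_of_nonneg (W0 x).1))).trans_le
            (mul_le_mul (W0 x).2 (v4 x y) (abs_nonneg _) l0.le)
        have k2 : |(c x - c y) * v y| ≤ A * dist x y ^ α * N := by
          rw [abs_mul]
          exact mul_le_mul (hc.2 x y) (v3 y) (abs_nonneg _) (by positivity)
        have k3 : |h x - h y| ≤ A * dist x y ^ α := hh.2 x y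
        rw [abs_le] at k1 k2 k3
        rw [Real.norm_eq_abs, abs_le]
        constructor <;> linarith [k1.1, k1.2, k2.1, k2.2, k3.1, k3.2]⟩
    refine ⟨⟨w, fun x => abs_le.2 ⟨?_, ?_⟩, fun x y => (le_abs_self _).trans ((w2 x y).trans
      (mul_le_mul_of_nonneg_right ?_ dist_nonneg))⟩, ⟨_, w1⟩, w3⟩
    · have := cmp (v := fun y => 0 - N * bu y) (t := 1) (B := N)
        (cd_const.sub (cd_const.mul bu_sm.two)) w1.1
        (fun y => by rw [zero_sub, abs_neg, abs_of_nonneg (pW y)]; exact bW y) w1.2.1.bd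
        (fun y => by
          rw [d2_lin cAt_const (bu_sm.c2 y), w3, show pr2 (a y) (D2 (fun _ => 0) y) = 0 by
            simp [pr2, D2, hess_const]]
          linarith [sW y, le_abs_self (h y),
            mul_le_mul_of_nonneg_left (abs_le.1 (v1 y)).1 (W0 y).1]) x
      linarith
    · refine cmp w1.1 bu_sm.two w1.2.1.bd b1 (fun y => ?_) x
      rw [w3]
      linarith [sW y, neg_abs_le (h y), mul_le_mul_of_nonneg_left (abs_le.1 (v1 y)).2 (W0 y).1]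
    · have k1 : K * l' * (2 * (K * l' + 1))⁻¹ ≤ 1 / 2 := by
        rw [← div_eq_mul_inv, div_le_iff₀ (by positivity)]
        linarith
      have k2 := mul_le_mul_of_nonneg_right k1 K1
      linarith
  choose T T1 T2 using step
  have up : ∀ P : Set S, ∀ x, BddAbove (range fun v : P => v.1.1 x) := fun P x =>
    ⟨N * bu x, by rintro _ ⟨v, rfl⟩; exact (abs_le.1 (v.1.2.1 x)).2⟩
  have lo : ∀ x, BddBelow (range fun v : S => v.1 x) := fun x =>
    ⟨-(N * bu x), by rintro _ ⟨v, rfl⟩; exact (abs_le.1 (v.2.1 x)).1⟩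
  let o : S := ⟨fun _ => 0, fun x => by simpa using pW x, fun x y => by
    rw [sub_zero]; positivity⟩
  have : Nonempty S := ⟨o⟩
  obtain ⟨u, hu⟩ := tarski (T := T) (fun v w k x => by
      obtain ⟨_, p⟩ := T1 v
      obtain ⟨_, q⟩ := T1 w
      refine (cmp (t := 1) p.1 q.1 p.2.1.bd q.2.1.bd (fun y => ?_) x).trans_eq (one_mul _)
      rw [T2, T2]
      linarith [mul_le_mul_of_nonneg_left (k y) (W0 y).1])
    ⟨⟨fun x => ⨅ v : S, v.1 x, fun x => abs_le.2 ⟨le_ciInf fun v => (abs_le.1 (v.2.1 x)).1,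
      (ciInf_le (lo x) o).trans (pW x)⟩, fun x y => sub_le_comm.1 (le_ciInf fun v => by
        linarith [ciInf_le (lo x) v, v.2.2 x y])⟩, fun v x => ciInf_le (lo x) v⟩
    fun P ⟨p, hp⟩ =>
      have : Nonempty P := ⟨⟨p, hp⟩⟩
      ⟨⟨fun x => ⨆ v : P, v.1.1 x, fun x => abs_le.2 ⟨(abs_le.1 (p.2.1 x)).1.trans
        (le_ciSup (up P x) ⟨p, hp⟩), ciSup_le fun v => (abs_le.1 (v.1.2.1 x)).2⟩,
        fun x y => sub_le_iff_le_add.2 (ciSup_le fun v => by
          linarith [le_ciSup (up P y) v, v.1.2.2 x y])⟩,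
        fun v hv x => le_ciSup (up P x) ⟨v, hv⟩, fun w k x => ciSup_le fun v => k v v.2 x⟩
  refine ⟨(T u).1, T1 u, ?_, fun x => ?_⟩
  · have k := (bu_lim (M := M) hn).const_mul N
    rw [mul_zero] at k
    exact squeeze_zero_norm (T u).2.1 k
  · have := T2 u x
    rw [← hu] at this
    linarith

end Vale.Agent.P366M.Y
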