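import Vale.Agent.P366Q.T.Usch
import Vale.Agent.P366Q.T.Mpn

/-!
# P366Q: uniform estimates for linear equations on a manifold
-/

open Metric Filter Topology Set
open scoped ContDiff
open Vale.Agent.P366 Vale.Agent.P366.Stmt Vale.Agent.P366Z Vale.Agent.P366Y

noncomputable section

namespace Vale.Agent.P366M.Y

namespace Qe

variable {n : ℕ} {α : ℝ}

theorem interp (hα : α ∈ Ioo (0 : ℝ) 1) (L : ℝ) {e : ℝ} (he : 0 < e) : ∃ d > (0 : ℝ),
    ∀ (V : Type) [NormedAddCommGroup V] (f : E n → V) (s : Set (E n)), (∀ y ∈ s, ‖f y‖ ≤ d) →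
      HoB 1 L f s → HoB α e f s := by
  obtain ⟨t, t0, ht⟩ := P366Y.Qe.small (p := 1 - α) (by linarith [hα.2]) he |L|
  have p := Real.rpow_pos_of_pos t0 α
  refine ⟨min e (e * t ^ α / 2), by positivity, fun V _ f s h1 h2 =>
    ⟨fun x hx => (h1 x hx).trans (min_le_left _ _), fun x hx y hy => ?_⟩⟩
  rcases le_total ‖x - y‖ t with h | h
  · have h3 := (mul_le_mul_of_nonneg_left (Real.rpow_le_rpow (norm_nonneg _) h
      (sub_nonneg.2 hα.2.le)) (abs_nonneg L)).trans ht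
    calc _ ≤ |L| * (‖x - y‖ ^ (1 - α) * ‖x - y‖ ^ α) := by
          rw [← Real.rpow_add' (norm_nonneg _) (by simp), sub_add_cancel]
          exact (h2.2 x hx y hy).trans (mul_le_mul_of_nonneg_right (le_abs_self _) (rp0 x y 1))
      _ ≤ _ := by rw [← mul_assoc]; exact mul_le_mul_of_nonneg_right h3 (rp0 x y α)
  · have h3 := norm_sub_le_of_le ((h1 x hx).trans (min_le_right _ _))
      ((h1 y hy).trans (min_le_right _ _))
    have h4 := mul_le_mul_of_nonneg_left (Real.rpow_le_rpow t0.le h hα.1.le) he.le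
    linarith

theorem small {p e : ℝ} (hp : 0 < p) (he : 0 < e) (C : ℝ) :
    ∃ r > (0 : ℝ), r ≤ 1 ∧ C * r ^ p ≤ e := by
  obtain ⟨r, r0, hr⟩ := P366Y.Qe.small hp he |C|
  have h := lt_min r0 one_pos
  exact ⟨min r 1, h, min_le_right _ _, (mul_le_mul (le_abs_self C) (Real.rpow_le_rpow h.le
    (min_le_left _ _) hp.le) (by positivity) (abs_nonneg _)).trans hr⟩

theorem osc {M : Type} {v : M → ℝ} {S : ℝ} (h : ∀ x, |v x| ≤ S) (x y : M) : |v x - v y| ≤ 2 * S :=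
  (abs_sub _ _).trans (by linarith [h x, h y])

section

variable (M : Type) [Mfs n M]

/-- the cut off function -/
theorem cut (h0 : 0 ≤ α) (h1 : α ≤ 1) (r : ℝ) : ∃ (ζ : M → ℝ) (Z R : ℝ), HoS α Z ζ ∧
    (∀ x, ‖px x‖ ≤ r → ζ x = 1) ∧ ∀ x, R < ‖px x‖ → ζ x = 0 := by
  have z : ∀ x : M, r ^ 2 + 1 < ‖px x‖ → Real.smoothTransition (r ^ 2 + 1 - ‖px x‖ ^ 2) = 0 :=
    fun x hx => Real.smoothTransition.zero_of_nonpos (by nlinarith [sq_nonneg r])
  obtain ⟨Z, hZ⟩ := (tame_of (φ := fun x : M => Real.smoothTransition (r ^ 2 + 1 - ‖px x‖ ^ 2))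
    (smooth_px (F := fun y => Real.smoothTransition (r ^ 2 + 1 - ‖y‖ ^ 2))
      (Real.smoothTransition.contDiff.comp (contDiff_const.sub P366Z.contDiff_normSq)))
    (R := r ^ 2 + 2) fun x hx => ⟨0, (ev_lt_px (by linarith)).mono z⟩).hoS (S := 1) fun x => by
      rw [abs_of_nonneg (Real.smoothTransition.nonneg _)]
      exact Real.smoothTransition.le_one _
  exact ⟨_, _, _, hZ.of_one h0 h1, fun x hx => Real.smoothTransition.one_of_one_le
    (by nlinarith [norm_nonneg (px x)]), z⟩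

/-- small functions with bounded derivatives have small jets -/
theorem key (hα : α ∈ Ioo (0 : ℝ) 1) (B : ℝ) {e : ℝ} (he : 0 < e) :
    ∃ d > (0 : ℝ), ∀ w : M → ℝ, CD 2 w → HoT α B (D2 w) → (∀ x, ‖D1 w x‖ ≤ B) →
      (∀ x, |w x| ≤ d) → HoJ α e (J1 w) := by
  obtain ⟨C, C0, hC⟩ := intp' M hα.1.le
  obtain ⟨L, hL⟩ := exists_big M
  obtain ⟨G, -, hG⟩ := gm_bd bg_met (flat_bg (M := M) le_rfl)
  have L0 := hL.pos
  obtain ⟨d₁, p₁, h₁⟩ := interp (n := n) hα (1 + n * (L * B)) he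
  obtain ⟨d, d0, hd⟩ := interp (n := n) hα (8 * (L + n * (L + n * (G * L))) * B) he
  obtain ⟨r, r0, r1, hr⟩ := small (p := 1 + α) (e := d / L / 2) (by linarith [hα.1])
    (by positivity) (C * B)
  refine ⟨min (min 1 d₁) (d / L * r / (4 * C)), by positivity, fun w h1 h2 h3 h4 => ?_⟩
  have dw : ∀ x, DAt w x := fun _ => diff2 h1.contDiffAt
  have h5 : ∀ x, ‖D1 w x‖ ≤ d / L := fun x => by
    have h5 := (((hC w (2 * (d / L * r / (4 * C))) B r r0 r1 (by positivity) h2.nn h1 ⟨B, h3⟩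
      fun x => (h2 x).2).1 fun x y _ => osc (fun z => (h4 z).trans (min_le_right _ _)) x y) x).1
    have e1 : C * (2 * (d / L * r / (4 * C)) / r) = d / L / 2 := by field_simp; norm_num
    rw [mul_add, e1, ← mul_assoc] at h5
    linarith
  refine ⟨fun x => h₁ _ _ _ (fun y _ => (h4 _).trans ((min_le_left _ _).trans (min_le_right _ _)))
    (hL.hoS1 dw (fun z => (h4 z).trans ((min_le_left _ _).trans (min_le_left _ _))) h3 x),
    fun x => (hd _ _ _ (fun y hy => (hL.d1_le dw h5 (one4 x hy)).trans_eq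
      (mul_div_cancel₀ _ L0.ne')) ((hL.d1_ho hG zero_le_one le_rfl h1 h3 h2.bd x).sub
        (one4 x))).congr fun y _ => rC_D1 (ch_mem x) (dw _)⟩

/-- the global estimate -/
theorem est (hα : α ∈ Ioo (0 : ℝ) 1) (Λ S : ℝ) : ∃ B, ∀ (a : Fld n M) (c v : M → ℝ),
    (∀ x, El Λ (a x)) → HoU α Λ a → HoS α S c → (∃ A, C2H α A v) → (∀ x, |v x| ≤ S) →
      HoS α S (fun x => pr2 (a x) (D2 v x) - c x * v x) →
      (∀ x, ‖D1 v x‖ ≤ B) ∧ HoT α B (D2 v) := by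
  obtain ⟨C, C0, hC⟩ := intp' M hα.1.le
  obtain ⟨U, U0, hU⟩ := usch' M Λ hα
  obtain ⟨L, hL⟩ := exists_big M
  obtain ⟨r, r0, r1, hr⟩ := small (p := 1 + α) (by linarith [hα.1]) one_half_pos
    (C * (U * (1 + 16 * S * (n * L))))
  set A₀ := 2 * (C * (2 * S / r + U * (S + 16 * S * S) * r ^ (1 + α))) with hA₀
  refine ⟨max A₀ (U * (A₀ + (S + 2 * S * (8 * (S + n * (L * A₀)))))),
    fun a c v h1 h2 h3 ⟨A', h4⟩ h5 h6 => ?_⟩
  have S0 := h3.nn
  have bd : BddAbove (range fun x => ‖D1 v x‖) := ⟨A', by rintro _ ⟨x, rfl⟩; exact h4.2.2.1.bd x⟩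
  have st : ∀ A, (∀ x, ‖D1 v x‖ ≤ A) →
      HoT α (U * (A + (S + 2 * S * (8 * (S + n * (L * A)))))) (D2 v) := fun A hA => by
    have k := h6.add (h3.mul ((hL.hoS1 (fun _ => diff2 h4.1.contDiffAt) h5 hA).of_one
      hα.1.le hα.2.le))
    simp only [sub_add_cancel] at k
    exact hU a v A _ h1 h2 h4.1 ⟨A', h4.2.2.2⟩ hA k
  have hA : ∀ x, ‖D1 v x‖ ≤ ⨆ x, ‖D1 v x‖ := le_ciSup bd
  have k := st _ hA
  have l : ⨆ x, ‖D1 v x‖ ≤ _ := ciSup_le fun x => (((hC v (2 * S) _ r r0 r1 (by positivity) k.nn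
    h4.1 ⟨_, hA⟩ fun x => (k x).2).1 fun x y _ => osc h5 x y) x).1
  have hB : ∀ x, ‖D1 v x‖ ≤ A₀ := fun x => (hA x).trans (by
    have := mul_le_mul_of_nonneg_right hr ((norm_nonneg _).trans (hA x))
    rw [hA₀]
    nlinarith)
  exact ⟨fun x => (hB x).trans (le_max_left _ _), (st _ hB).mono (le_max_right _ _)⟩

end

/-- the maximum principle on both sides -/
theorem mp2 (M : Type) [Mfe n M] (hn : 3 ≤ n) (Λ₀ : ℝ) {ρ : ℝ} (hρ : R0 M + 1 ≤ ρ) :
    ∃ l₀ : ℝ, ∃ C > (0 : ℝ), ∀ l ≥ l₀, ∀ (a : Fld n M) (c v : M → ℝ) (H : ℝ), Lin Λ₀ ρ l a c →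
      CD 2 v → Tendsto v (cocompact M) (𝓝 0) → (∀ x, |pr2 (a x) (D2 v x) - c x * v x| ≤ H) →
      (∀ x, ρ + 1 ≤ ‖px x‖ → pr2 (a x) (D2 v x) - c x * v x = 0) → ∀ x, |v x| ≤ C * H := by
  obtain ⟨l₀, C, C0, hC⟩ := mpn n M Λ₀ ρ hn hρ
  refine ⟨l₀, C, C0, fun l hl a c v H h1 h2 h3 h4 h5 x => ?_⟩
  have H0 : 0 ≤ H := (abs_nonneg _).trans (h4 x)
  have b := mul_le_of_le_one_right (mul_nonneg C0.le H0) (Mp.bu_le hn x)
  have e : ∀ y, pr2 (a y) (D2 (fun x => -1 * v x) y) - c y * (-1 * v y) =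
      -(pr2 (a y) (D2 v y) - c y * v y) := fun y => by rw [D2_smul, P366Y.Qe.pr2_smul]; ring
  have k1 := hC l hl a c v H h1 h2 h3 H0 (fun y => (abs_le.1 (h4 y)).1) (fun y h => (h5 y h).ge) x
  have k2 := hC l hl a c (fun x => -1 * v x) H h1 (cd_const.mul h2)
    (by simpa using h3.const_mul (-1)) H0 (fun y => by rw [e]; linarith [(abs_le.1 (h4 y)).2])
    (fun y h => by rw [e, h5 y h, neg_zero]) x
  exact abs_le.2 ⟨by linarith, by linarith⟩

end Qe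

end Vale.Agent.P366M.Y
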