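import Vale.Agent.P366Q.Sk
import Vale.Agent.P366M.Solv
import Vale.Agent.P366Y.C.Dg1

/-!
# P366Q: the energy controls the square on balls (row L2B)

The proof tests a positive superharmonic function `ψ` with `w ^ 2 / ψ`.
-/

open MeasureTheory Metric Filter Topology Set
open scoped ContDiff ENNReal
open Vale.Agent.P366 Vale.Agent.P366.Stmt Vale.Agent.P366Z Vale.Agent.P366Y

noncomputable section

namespace Vale.Agent.P366M.Y

theorem L2bH.alg {a b q t : ℝ} (hb : 0 ≤ b) (hq : 0 ≤ q) (h : a ^ 2 ≤ q * b) :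
    2 * t * a - t ^ 2 * b ≤ q := by
  rcases hb.eq_or_lt with rfl | hb
  · have : a = 0 := by nlinarith
    rw [this]
    linarith
  · refine le_of_mul_le_mul_right ?_ hb
    nlinarith [sq_nonneg (t * b - a)]

theorem l2b_of (hS : SUBS) : L2B := by
  intro n M _ r hn
  have hg : Met (bg : Fld n M) := bg_met
  obtain ⟨φ, sφ, ⟨A, hA⟩, h0, h1, -⟩ := (wa_one bg).sup hS hn hg (flat_bg le_rfl) r
  simp only [wl_one] at h0 h1
  have A0 := hA.nonneg
  refine ⟨A + 1, by linarith, fun u e hu hl he => ?_⟩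
  obtain ⟨R, hR⟩ := ev_cocompact.1 (hl.eventually (gt_mem_nhds one_lt_two))
  have p0 : ∀ x, 0 < φ x + 1 := fun x => by linarith [(h0 x).1]
  have sψ : Smooth fun x => φ x + 1 := CD.add sφ cd_const
  have si : Smooth fun x => (φ x + 1)⁻¹ := CD.inv sψ fun x => (p0 x).ne'
  have lw : LLip fun x => max (u x - 2) 0 ^ 2 :=
    ((hu.llip.sub (llip_const 2)).max (llip_const 0)).pow 2
  have lη := lw.mul si.llip
  have z : ∀ x, R ≤ ‖px x‖ → max (u x - 2) 0 = 0 := fun x hx =>
    max_eq_right (by linarith [hR x hx])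
  have cη : HasCompactSupport fun x => max (u x - 2) 0 ^ 2 * (φ x + 1)⁻¹ :=
    supp_of_out (R := R) fun x hx => by rw [z x hx]; simp
  have key := hg.ibp_lap lη cη sφ.two
  simp only [dens_bg, mul_one] at key
  have i0 : ∀ {f : M → ℝ} (t : ℝ), Continuous f → Integrable ((bl M t).indicator f) :=
    fun t hf => ((hf.continuousOn.integrableOn_compact (isCompact_px M t)).mono_set
      (show bl M t ⊆ _ from fun x (hx : ‖px x‖ < t) => hx.le)).integrable_indicator
        (meas_bl t)
  have e1 : ∀ x, ip bg (fun x => max (u x - 2) 0 ^ 2 * (φ x + 1)⁻¹) φ x =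
      2 * (max (u x - 2) 0 * (φ x + 1)⁻¹) * ip bg u φ x -
        (max (u x - 2) 0 * (φ x + 1)⁻¹) ^ 2 * ip bg φ φ x := fun x => by
    have d1 : HasDerivAt (fun s : ℝ => max (s - 2) 0 ^ 2) (2 * max (u x - 2) 0) (u x) :=
      (P366Y.C.DgH.hd_sq (u x - 2)).comp_sub_const
    have d2 : HasDerivAt (fun s : ℝ => (s + 1)⁻¹) (-1 / (φ x + 1) ^ 2) (φ x) :=
      ((hasDerivAt_id (φ x)).add_const 1).inv (p0 x).ne'
    rw [ip_mul_left (d1.differentiableAt.compM (hu.diff x)) (si.diff x),
      ip_comp_left d1 (hu.diff x), ip_comp_left d2 (sφ.diff x)]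
    have := (p0 x).ne'
    field_simp
    ring
  have cw : Continuous fun x => max (u x - 2) 0 := (hu.cont.sub continuous_const).max
    continuous_const
  have k1 : ∫ x, ip bg (fun x => max (u x - 2) 0 ^ 2 * (φ x + 1)⁻¹) φ x ≤ En u R := by
    rw [En, ← integral_indicator (meas_bl R)]
    simp only [e1]
    refine integral_mono (integrable_of_out (R := R) ?_ fun x hx => by rw [z x hx]; simp)
      (i0 R (hg.cont_ip hu.one hu.one)) fun x => ?_
    · exact ((continuous_const.mul (cw.mul si.cont)).mul (hg.cont_ip hu.one sφ.one)).sub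
        (((cw.mul si.cont).pow 2).mul (hg.cont_ip sφ.one sφ.one))
    · rcases le_or_gt R ‖px x‖ with k | k
      · rw [indicator_of_notMem (show x ∉ bl M R from not_lt.2 k)]
        simp [z x k]
      · rw [indicator_of_mem (show x ∈ bl M R from k)]
        exact L2bH.alg (hg.ip_nonneg φ x) (hg.ip_nonneg u x) (hg.ip_cs u φ x)
  refine le_trans ?_ (mul_le_mul_of_nonneg_left (k1.trans (he R)) (by linarith))
  rw [← neg_neg (∫ x, ip bg _ φ x), ← key, ← integral_neg, ← integral_const_mul,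
    ← integral_indicator (meas_bl r)]
  refine integral_mono (i0 r (cw.pow 2)) (((lη.cont.mul
    (hg.sm_lap sφ).cont).integrable_of_hasCompactSupport cη.mul_right).neg.const_mul _) fun x => ?_
  have q0 : 0 ≤ max (u x - 2) 0 ^ 2 * (φ x + 1)⁻¹ := mul_nonneg (sq_nonneg _) (inv_pos.2 (p0 x)).le
  by_cases k : x ∈ bl M r
  · rw [indicator_of_mem k]
    have k2 := mul_le_mul_of_nonneg_left (h1 x (le_of_lt k)) q0
    have k3 : φ x + 1 ≤ A + 1 := by linarith [hA.1 x, le_abs_self (φ x), Real.norm_eq_abs (φ x)]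
    have k4 := mul_le_mul_of_nonneg_right k3 q0
    rw [mul_left_comm, mul_inv_cancel₀ (p0 x).ne', mul_one] at k4
    nlinarith
  · rw [indicator_of_notMem k]
    exact mul_nonneg (by linarith) (neg_nonneg.2 (mul_nonpos_of_nonneg_of_nonpos q0 (h0 x).2))

end Vale.Agent.P366M.Y
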