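import Vale.Agent.P366Q.T.Big
import Vale.Agent.P272.K.LIN.Patch0

/-!
# P366Q, block T: a finite system of coordinate patches with uniform constants
-/

open MeasureTheory Metric Filter Topology Set
open scoped ContDiff ENNReal
open Vale.Agent.P366 Vale.Agent.P366.Stmt Vale.Agent.P366Z Vale.Agent.P366Y
open Vale.Agent.P272.K.LIN (HB)

noncomputable section

namespace Vale.Agent.P366M.Y

variable {n : ℕ} {M : Type} [Mfs n M]

/-- a patch: coordinates `τ` with the inverse `σ` on `O`, and two cut-off functions -/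
structure Pc (M : Type) [Mfs n M] where
  τ : M → E n
  σ : E n → M
  O : Set (E n)
  β : M → ℝ
  γ : M → ℝ

/-- the properties of a patch -/
structure Pc.Ok (P : Pc M) (K : ℝ) : Prop where
  K1 : 1 ≤ K
  smτ : CD ∞ P.τ
  tτ : ∀ k, Tame fun x => P.τ x k
  lτ : ∀ x y, ‖P.τ x - P.τ y‖ ≤ K * dist x y
  op : IsOpen P.O
  lσ : ∀ y ∈ P.O, ∀ z ∈ P.O, dist (P.σ y) (P.σ z) ≤ K * ‖y - z‖
  τσ : ∀ y ∈ P.O, P.τ (P.σ y) = y
  tβ : Tame P.β
  β01 : ∀ x, 0 ≤ P.β x ∧ P.β x ≤ 1
  γ01 : ∀ x, 0 ≤ P.γ x ∧ P.γ x ≤ 1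
  lγ : ∀ x y, |P.γ x - P.γ y| ≤ K * dist x y
  sγ : ∀ x, P.γ x ≠ 0 → P.σ (P.τ x) = x ∧ ball (P.τ x) (1 / 2) ⊆ P.O ∧
    ∀ ξ : Vc n, (∀ i, ∑ k, ξ k * pd i (fun z => P.τ z k) x = 0) → ξ = 0
  sβ : ∀ x, P.β x ≠ 0 → P.γ x = 1 ∧ ∀ y ∈ ball (P.τ x) (1 / 2), P.γ (P.σ y) = 1
  far : ∀ ρ, ∃ R, ∀ y ∈ P.O, R ≤ ‖y‖ → ρ ≤ ‖px (P.σ y)‖ ∧
    ∀ k i, pd i (fun z => P.τ z k) (P.σ y) = if i = k then 1 else 0

theorem Pc.Ok.mono {P : Pc M} {K K' : ℝ} (h : P.Ok K) (hK : K ≤ K') : P.Ok K' :=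
  { h with
    K1 := h.K1.trans hK
    lτ := fun x y => (h.lτ x y).trans (by gcongr)
    lσ := fun y hy z hz => (h.lσ y hy z hz).trans (by gcongr)
    lγ := fun x y => (h.lγ x y).trans (by gcongr) }

theorem hm_cpt {V : Type} [NormedAddCommGroup V] [NormedSpace ℝ V] {f : M → V} (hf : CD 1 f)
    {K : Set M} (hK : IsCompact K) (h0 : ∀ x, x ∉ K → f x = 0) : ∃ A, HM 1 A f := by
  obtain ⟨L, G⟩ := exists_geo M
  obtain ⟨R, hR⟩ := hK.exists_bound_of_continuousOn (cont_px (M := M)).continuousOn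
  obtain ⟨A, hA⟩ := unif_ch (fun e => loc e f) (fun x => hf _ (ch_mem x))
    (R := max R (R0 M) + 4) (A := ‖(0 : V)‖) fun x hx => hoB_of_const fun y hy => h0 _ fun k => by
      linarith [(far_ball (by linarith [le_max_right R (R0 M)]) hy).2, hR _ k, le_max_left R (R0 M)]
  exact ⟨_, hm_of_loc G le_rfl zero_le_one one_pos one_le_two fun x => (hA x).sub (one4 x)⟩

theorem pc_int (p : M) {β : M → ℝ} (hβ : Smooth β) (h01 : ∀ x, 0 ≤ β x ∧ β x ≤ 1)
    (hs : tsupport β ⊆ (ch p).symm '' ball (pt p) 1) : ∃ (P : Pc M) (K : ℝ), P.Ok K ∧ P.β = β := by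
  obtain ⟨L, G⟩ := exists_geo M
  have he := ch_mem p
  have op : ∀ r, IsOpen ((ch p).symm '' ball (pt p) r) := fun r =>
    (openEmb_symm he).isOpenMap _ isOpen_ball
  have cp : ∀ r, IsCompact ((ch p).symm '' closedBall (pt p) r) := fun r =>
    cpt_image he (isCompact_closedBall _ _)
  obtain ⟨θ, a1, a2, a3, -, a5⟩ := exists_cut (cp 3) (op 4)
    (image_mono (closedBall_subset_ball (by norm_num)))
  obtain ⟨γ, b1, b2, b3, b4, b5⟩ := exists_cut (cp 2) (op (5 / 2))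
    (image_mono (closedBall_subset_ball (by norm_num)))
  have ev : ∀ z ∈ closedBall (pt p) 3,
      (fun x => θ x • ch p x) =ᶠ[𝓝 ((ch p).symm z)] ch p := fun z hz =>
    (a5 _ ⟨z, hz, rfl⟩).mono fun x hx => by simp only [hx, one_smul]
  have e1 : ∀ z ∈ closedBall (pt p) 3, θ ((ch p).symm z) • ch p ((ch p).symm z) = z := fun z hz =>
    (ev z hz).eq_of_nhds.trans (right_inv he z)
  have z0 : ∀ x, x ∉ tsupport θ → θ x • ch p x = 0 := fun x hx => by
    rw [image_eq_zero_of_notMem_tsupport hx, zero_smul]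
  have sm : CD ∞ fun x => θ x • ch p x := cd_of_cAt le_rfl fun x => by
    by_cases hx : x ∈ tsupport θ
    · obtain ⟨z, -, rfl⟩ := a3 hx
      exact CAt.smul a1.contDiffAt (cAt_of_loc le_rfl he (by
        rw [show loc (ch p) (ch p) = fun z => z from tm_self he]; exact contDiffAt_id))
    · exact cAt_const.congr_of_eventuallyEq
        (Eventually.mono ((isClosed_tsupport θ).isOpen_compl.mem_nhds hx) z0)
  obtain ⟨A, hA⟩ := hm_cpt (sm.of_le one_le_oo) a2 z0
  obtain ⟨B, hB⟩ := hm_cpt b1.one b2 fun x hx => image_eq_zero_of_notMem_tsupport hx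
  have A0 := hA.nonneg
  have B0 := hB.nonneg
  have L4 := G.four
  refine ⟨⟨fun x => θ x • ch p x, (ch p).symm, ball (pt p) 3, β, γ⟩, L + A + B,
    ⟨by linarith, sm, fun k => tame_cpt (cd_euclidean.1 sm k) a2 fun x hx => by simp [z0 x hx],
      fun x y => ?_, isOpen_ball, fun y hy z hz => ?_, fun y hy => e1 y (ball_subset_closedBall hy),
      tame_cpt hβ (cp 1) fun x hx => image_eq_zero_of_notMem_tsupport fun k =>
        hx (image_mono ball_subset_closedBall (hs k)), h01, b4, fun x y => ?_, fun x hx => ?_,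
      fun x hx => ?_, fun ρ => ⟨‖pt p‖ + 3, fun y hy h => absurd (norm_le_of_ball hy) h.not_gt⟩⟩, rfl⟩
  · have := hA.2 x y
    rw [Real.rpow_one] at this
    exact this.trans (by gcongr; linarith)
  · exact (G.hi p y (ball_subset_ball (by norm_num) hy) z (ball_subset_ball (by norm_num) hz)).trans
      (by gcongr; linarith)
  · have := hB.2 x y
    rw [Real.rpow_one] at this
    exact this.trans (by gcongr; linarith)
  · obtain ⟨z, hz, rfl⟩ := b3 (subset_tsupport _ hx)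
    have hz' : z ∈ closedBall (pt p) 3 := ball_subset_closedBall (ball_subset_ball (by norm_num) hz)
    simp only [e1 z hz']
    refine ⟨trivial, ball_subset_ball' (by rw [mem_ball] at hz; linarith), fun ξ hξ => ?_⟩
    have hx' : (ch ((ch p).symm z)).symm (pt ((ch p).symm z)) ∈ (ch p).source := by
      rw [symm_pt]; exact symm_mem he z
    refine Matrix.eq_zero_of_vecMul_eq_zero (jac_unit (ch_mem _) he hx').ne_zero (funext fun i => ?_)
    rw [Pi.zero_apply, ← hξ i]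
    change ∑ k, ξ k * pd i (fun x => ch p x k) ((ch p).symm z) = _
    exact Finset.sum_congr rfl fun k _ => congrArg (ξ k * ·)
      (pd_congr ((ev z hz').mono fun x hx => congrArg (· k) hx) i).symm
  · obtain ⟨z, hz, rfl⟩ := hs (subset_tsupport _ hx)
    rw [mem_ball] at hz
    simp only [e1 z (mem_closedBall.2 (by linarith))]
    refine ⟨(b5 _ ⟨z, mem_closedBall.2 (by linarith), rfl⟩).eq_of_nhds, fun y hy =>
      (b5 _ ⟨y, mem_closedBall.2 ?_, rfl⟩).eq_of_nhds⟩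
    linarith [dist_triangle y z (pt p), mem_ball.1 hy]

theorem in_of {j : Nd M} {x z : M} (hx : R0 M - 6 ≤ ‖px x‖) (hz : R0 M - 6 ≤ ‖px z‖)
    (hd : dist x z < 1) (h : ye j (px x) = x) : ye j (px z) = z := by
  obtain ⟨k, hk⟩ := far_ex hz
  rwa [ye_inj (j := j) (j' := k) hx hz (by rwa [h, hk])]

theorem in_ev (j : Nd M) {x : M} (hx : R0 M - 6 < ‖px x‖) :
    ∀ᶠ z in 𝓝 x, (ye j (px z) = z ↔ ye j (px x) = x) := by
  filter_upwards [ev_lt_px hx, ball_mem_nhds x one_pos] with z h1 h2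
  exact ⟨in_of h1.le hx.le h2, in_of hx.le h1.le (mem_ball'.1 h2)⟩

open Classical in
theorem pc_end (j : Nd M) {ψ : M → ℝ} (hψ : Smooth ψ) (h01 : ∀ x, 0 ≤ ψ x ∧ ψ x ≤ 1)
    (h0 : ∀ x, ‖px x‖ ≤ R0 M + 3 → ψ =ᶠ[𝓝 x] fun _ => 0) {R : ℝ}
    (h1 : ∀ x, R ≤ ‖px x‖ → ψ =ᶠ[𝓝 x] fun _ => 1) :
    ∃ P : Pc M, P.Ok 1 ∧ P.β = fun x => if ye j (px x) = x then ψ x else 0 := by
  have R8 := R0_ge M
  let η : E n → ℝ := fun y => max 0 (min 1 (‖y‖ - (R0 M + 1)))
  have η01 : ∀ y, 0 ≤ η y ∧ η y ≤ 1 := fun y =>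
    ⟨le_max_left _ _, max_le zero_le_one (min_le_left _ _)⟩
  have η0 : ∀ y, η y ≠ 0 → R0 M + 1 < ‖y‖ := fun y hy => not_le.1 fun k =>
    hy (max_eq_left ((min_le_right _ _).trans (by linarith)))
  have η1 : ∀ y, R0 M + 2 ≤ ‖y‖ → η y = 1 := fun y hy => by
    simp only [η]; rw [min_eq_left (by linarith), max_eq_right zero_le_one]
  have ηl : ∀ y z, |η y - η z| ≤ ‖y - z‖ := fun y z => by
    have h : LipschitzWith (1 + 0) η :=
      ((lipschitzWith_one_norm.sub (LipschitzWith.const _)).const_min 1).const_max 0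
    simpa [dist_eq_norm] using h.dist_le_mul y z
  have ev : ∀ x, R0 M + 3 < ‖px x‖ → (fun z => if ye j (px z) = z then ψ z else 0) =ᶠ[𝓝 x]
      fun z => if ye j (px x) = x then ψ z else 0 := fun x hx =>
    (in_ev j (by linarith)).mono fun z hz => by simp only [hz]
  have ev0 : ∀ x, ‖px x‖ ≤ R0 M + 3 → (fun z => if ye j (px z) = z then ψ z else 0) =ᶠ[𝓝 x]
      fun _ => 0 := fun x hx => (h0 x hx).mono fun z hz => by simp only [hz, ite_self]
  have one : ∀ x y : M, ye j (px x) = x → ¬ye j (px y) = y → η (px x) ≤ dist x y :=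
    fun x y hx hy => by
      by_cases k : η (px x) = 0
      · rw [k]; exact dist_nonneg
      · refine (η01 _).2.trans (not_lt.1 fun k' => hy (in_of (by linarith [η0 _ k]) ?_ k' hx))
        linarith [η0 _ k, px_le x y, norm_sub_norm_le (px x) (px y)]
  refine ⟨⟨px, ye j, {y | R0 M < ‖y‖}, fun x => if ye j (px x) = x then ψ x else 0,
    fun x => if ye j (px x) = x then η (px x) else 0⟩,
    ⟨le_rfl, sm_px, tame_px, fun x y => by simpa using px_le x y,
      isOpen_lt continuous_const continuous_norm, fun y hy z hz => ?_, fun y hy => px_ye' (le_of_lt hy),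
      tame_of (cd_of_cAt le_rfl fun x => ?_) (R := max R (R0 M + 4)) fun x hx => ?_, fun x => ?_,
      fun x => ?_, fun x y => ?_, fun x hx => ?_, fun x hx => ?_, fun ρ => ⟨ρ, fun y hy h => ?_⟩⟩, rfl⟩
  · rw [one_mul, dist_ye (by linarith [show R0 M < ‖y‖ from hy]) (by linarith [show R0 M < ‖z‖ from hz])]
  · rcases le_or_gt ‖px x‖ (R0 M + 3) with h | h
    · exact cAt_const.congr_of_eventuallyEq (ev0 x h)
    · refine CAt.congr_of_eventuallyEq ?_ (ev x h)
      split_ifs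
      exacts [hψ.contDiffAt, cAt_const]
  · refine ⟨if ye j (px x) = x then 1 else 0,
      (ev x (by linarith [le_max_right R (R0 M + 4)])).trans ?_⟩
    split_ifs
    exacts [h1 x ((le_max_left _ _).trans hx), EventuallyEq.rfl]
  · dsimp only
    split_ifs
    exacts [h01 x, ⟨le_rfl, zero_le_one⟩]
  · dsimp only
    split_ifs
    exacts [η01 _, ⟨le_rfl, zero_le_one⟩]
  · dsimp only
    rw [one_mul]
    split_ifs with hx hy hy
    · exact (ηl _ _).trans (px_le x y)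
    · rw [sub_zero, abs_of_nonneg (η01 _).1]; exact one x y hx hy
    · rw [zero_sub, abs_neg, abs_of_nonneg (η01 _).1, dist_comm]; exact one y x hy hx
    · simp
  · dsimp only at hx ⊢
    split_ifs at hx with h
    · have k := η0 _ hx
      refine ⟨h, fun y hy => ?_, fun ξ hξ => funext fun i => ?_⟩
      · show R0 M < ‖y‖
        linarith [norm_ge_of_ball hy]
      · simpa [pd_coord (show R0 M ≤ ‖px x‖ by linarith)] using hξ i
    · exact absurd rfl hx
  · dsimp only at hx ⊢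
    have k : R0 M + 3 < ‖px x‖ := not_le.1 fun k => hx (ev0 x k).eq_of_nhds
    split_ifs at hx with h
    · refine ⟨by rw [if_pos h, η1 _ (by linarith)], fun y hy => ?_⟩
      have := norm_ge_of_ball hy
      rw [px_ye' (by linarith), if_pos rfl, η1 _ (by linarith)]
    · exact absurd rfl hx
  · have hy' : R0 M ≤ ‖y‖ := le_of_lt hy
    dsimp only
    exact ⟨by rwa [px_ye' hy'], fun k i => pd_coord (by rwa [px_ye' hy']) i k⟩

theorem exists_pcs (M : Type) [Mfs n M] : ∃ (ι : Type) (_ : Fintype ι) (P : ι → Pc M) (K : ℝ),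
    (∀ a, (P a).Ok K) ∧ ∀ x, ∑ a, (P a).β x = 1 := by
  classical
  obtain ⟨L, G⟩ := exists_geo M
  obtain ⟨t, χ, a1, a2, a3, a4, a5⟩ := exists_pou (isCompact_px M (R0 M + 3))
    (fun p => (ch p).symm '' ball (pt p) 1) fun p =>
      ((openEmb_symm (ch_mem p)).isOpenMap _ isOpen_ball).mem_nhds ⟨_, pt_mem p, symm_pt p⟩
  have := Fintype.ofFinite (Nd M)
  choose P K h1 h2 using fun p : t => pc_int p.1 (a1 p) (fun x => ⟨a3 p x,
    (Finset.single_le_sum (fun q _ => a3 q x) p.2).trans (a4 x)⟩) (a2 p)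
  obtain ⟨R, hR⟩ := (t.finite_toSet.image fun p => ‖px p‖).bddAbove
  choose Q k1 k2 using fun j : Nd M => pc_end j (ψ := fun x => 1 - ∑ p ∈ t, χ p x)
    (cd_const.sub (CD.sum fun p _ => a1 p)) (fun x => ⟨by linarith [a4 x], by
      linarith [Finset.sum_nonneg fun p (_ : p ∈ t) => a3 p x]⟩)
    (fun x hx => (a5 x hx).mono fun z hz => by simp only [hz, sub_self]) (R := R + 4 * L + 1)
    fun x hx => (ev_lt_px (show R + 4 * L < ‖px x‖ by linarith)).mono fun z hz => by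
      beta_reduce
      rw [Finset.sum_eq_zero, sub_zero]
      refine fun p hp => image_eq_zero_of_notMem_tsupport fun k => ?_
      obtain ⟨y, hy, rfl⟩ := a2 p k
      linarith [G.px_le (one4 p hy), hR ⟨p, hp, rfl⟩,
        norm_sub_norm_le (px ((ch p).symm y)) (px p)]
  have K0 : ∀ p, 0 ≤ K p := fun p => zero_le_one.trans (h1 p).K1
  have S0 : 0 ≤ ∑ p, K p := Finset.sum_nonneg fun p _ => K0 p
  refine ⟨t ⊕ Nd M, inferInstance, Sum.elim P Q, 1 + ∑ p, K p, ?_, fun x => ?_⟩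
  · rintro (p | j)
    · exact (h1 p).mono (by linarith [Finset.single_le_sum (fun q _ => K0 q) (Finset.mem_univ p)])
    · exact (k1 j).mono (by linarith)
  · simp only [Fintype.sum_sum_type, Sum.elim_inl, Sum.elim_inr, h2, k2]
    rw [Finset.sum_coe_sort t fun p => χ p x]
    rcases le_total ‖px x‖ (R0 M + 3) with h | h
    · simp [(a5 x h).self_of_nhds]
    · obtain ⟨j, hj⟩ := far_ex (x := x) (by linarith)
      rw [Finset.sum_eq_single j (fun k _ hk => if_neg fun e => hk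
        (ye_inj (y := px x) (z := px x) (by linarith) (by linarith) (by simp [e, hj])))
        (by simp), if_pos hj]
      ring

/-! ### Hölder functions with two constants -/

section V

variable {V : Type} [NormedAddCommGroup V] {α A B A' B' K : ℝ} {f h : M → V} {P : Pc M}

/-- bounded by `A`, with Hölder seminorm at most `B` -/
structure HN (α : ℝ) (f : M → V) (A B : ℝ) : Prop where
  sup : ∀ x, ‖f x‖ ≤ A
  hol : ∀ x y, ‖f x - f y‖ ≤ B * dist x y ^ α

theorem HN.nn (hf : HN α f A B) : 0 ≤ A := (norm_nonneg _).trans (hf.sup (Classical.arbitrary M))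

theorem HN.mono (hf : HN α f A B) (hA : A ≤ A') (hB : B ≤ B') : HN α f A' B' :=
  ⟨fun x => (hf.sup x).trans hA, fun x y => (hf.hol x y).trans (by gcongr)⟩

theorem _root_.Vale.Agent.P366M.HM.hn (hf : HM α A f) : HN α f A A := ⟨hf.1, hf.2⟩

theorem HN.hm (hf : HN α f A A) : HM α A f := ⟨hf.1, hf.2⟩

theorem HN.add (hf : HN α f A B) (hh : HN α h A' B') :
    HN α (fun x => f x + h x) (A + A') (B + B') :=
  ⟨fun x => norm_add_le_of_le (hf.1 x) (hh.1 x), fun x y => by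
    rw [add_sub_add_comm, add_mul]
    exact norm_add_le_of_le (hf.2 x y) (hh.2 x y)⟩

theorem HN.sumc {ι : Type} [Fintype ι] {F : ι → M → V} (hF : ∀ i, HN α (F i) A B) :
    HN α (fun x => ∑ i, F i x) (Fintype.card ι * A) (Fintype.card ι * B) :=
  ⟨fun x => (norm_sum_le_of_le _ fun i _ => (hF i).1 x).trans_eq (by simp), fun x y => by
    rw [← Finset.sum_sub_distrib]
    exact (norm_sum_le_of_le _ fun i _ => (hF i).2 x y).trans_eq (by simp [mul_assoc])⟩

theorem HN.mul {φ ψ : M → ℝ} {c : ℝ} (hφ : HM α c φ) (hψ : HN α ψ A B) (h : A ≤ B) :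
    HN α (fun x => φ x * ψ x) (2 * c * A) (2 * c * B) := by
  have c0 := hφ.nonneg
  have A0 := hψ.nn
  refine ⟨fun x => ?_, fun x y => ?_⟩
  · rw [norm_mul]
    nlinarith [mul_le_mul (hφ.1 x) (hψ.1 x) (norm_nonneg _) c0, mul_nonneg c0 A0]
  · have e : φ x * ψ x - φ y * ψ y = φ x * (ψ x - ψ y) + (φ x - φ y) * ψ y := by ring
    have p := Real.rpow_nonneg (dist_nonneg (x := x) (y := y)) α
    rw [e]
    refine (norm_add_le _ _).trans ?_
    rw [norm_mul, norm_mul]
    have h1 := mul_le_mul (hφ.1 x) (hψ.2 x y) (norm_nonneg _) c0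
    have h2 := mul_le_mul (hφ.2 x y) ((hψ.1 y).trans h) (norm_nonneg _) (mul_nonneg c0 p)
    linarith

theorem hm_of_lip (h0 : 0 ≤ α) (h1 : α ≤ 1) (hK : 0 ≤ K) (hA : ∀ x, ‖f x‖ ≤ A)
    (hl : ∀ x y, ‖f x - f y‖ ≤ K * dist x y) : HM α (2 * A + K) f := by
  have A0 : 0 ≤ A := (norm_nonneg _).trans (hA (Classical.arbitrary M))
  refine ⟨fun x => by linarith [hA x], fun x y => ?_⟩
  have p := Real.rpow_nonneg (dist_nonneg (x := x) (y := y)) α
  rcases le_total (dist x y) 1 with h | h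
  · nlinarith [hl x y, self_le_rpow dist_nonneg h h0 h1]
  · nlinarith [norm_sub_le_of_le (hA x) (hA y), Real.one_le_rpow h h0]

theorem Pc.Ok.hmγ (hP : P.Ok K) (h0 : 0 ≤ α) (h1 : α ≤ 1) : HM α (2 * 1 + K) P.γ :=
  hm_of_lip h0 h1 (zero_le_one.trans hP.K1) (fun x => by
    rw [Real.norm_of_nonneg (hP.γ01 x).1]; exact (hP.γ01 x).2) hP.lγ

theorem Pc.Ok.comp (hP : P.Ok K) (h0 : 0 ≤ α) (h1 : α ≤ 1) {F : E n → V} (hB : 0 ≤ B)
    (hF : HB α F A B) : HN α (fun x => F (P.τ x)) A (K * B) :=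
  ⟨fun x => hF.sup _, fun x y => (hF.hol _ _).trans (by
    have := (Real.rpow_le_rpow (norm_nonneg _) (hP.lτ x y) h0).trans
      (mul_rpow_le hP.K1 dist_nonneg h1)
    nlinarith)⟩

open Classical in
/-- a function in the coordinates of a patch, extended by zero -/
def Pc.pull (P : Pc M) (h : M → V) (y : E n) : V := if y ∈ P.O then h (P.σ y) else 0

theorem Pc.pull_in {y : E n} (hy : y ∈ P.O) (h : M → V) : P.pull h y = h (P.σ y) := if_pos hy

theorem Pc.pull_out {y : E n} (hy : y ∉ P.O) (h : M → V) : P.pull h y = 0 := if_neg hy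

theorem Pc.Ok.pull_τ (hP : P.Ok K) {x : M} (hx : P.γ x ≠ 0) (h : M → V) :
    P.pull h (P.τ x) = h x := by
  rw [P.pull_in ((hP.sγ x hx).2.1 (mem_ball_self (by norm_num))), (hP.sγ x hx).1]

theorem Pc.Ok.pull_zero (hP : P.Ok K) (hs : ∀ x, P.γ x = 0 → h x = 0) {y z : E n} (hz : z ∉ P.O)
    (hd : ‖y - z‖ < 1 / 2) : P.pull h y = 0 := by
  by_cases hy : y ∈ P.O
  · rw [P.pull_in hy]
    refine hs _ (by_contra fun k => hz ((hP.sγ _ k).2.1 ?_))
    rwa [hP.τσ y hy, mem_ball_iff_norm']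
  · exact P.pull_out hy h

theorem Pc.Ok.pull_hb (hP : P.Ok K) (h0 : 0 ≤ α) (h1 : α ≤ 1) (hB : 0 ≤ B) (hh : HN α h A B)
    (hs : ∀ x, P.γ x = 0 → h x = 0) : HB α (P.pull h) A (K * B + 2 * A) := by
  have A0 := hh.nn
  have K1 := hP.K1
  have s : ∀ y, ‖P.pull h y‖ ≤ A := fun y => by
    unfold Pc.pull
    split_ifs
    exacts [hh.sup _, by simpa using A0]
  have o : ∀ y z, z ∉ P.O → ‖P.pull h y‖ ≤ (K * B + 2 * A) * ‖y - z‖ ^ α := fun y z hz => by
    rcases lt_or_ge ‖y - z‖ (1 / 2) with k | k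
    · rw [hP.pull_zero hs hz k, norm_zero]; positivity
    · nlinarith [le_rpow_of_le one_half_pos (by norm_num) k h0 h1, s y,
        show 0 ≤ K * B * ‖y - z‖ ^ α by positivity]
  refine ⟨s, fun y z => ?_⟩
  by_cases hz : z ∈ P.O
  · by_cases hy : y ∈ P.O
    · rw [P.pull_in hy, P.pull_in hz]
      have := (Real.rpow_le_rpow dist_nonneg (hP.lσ y hy z hz) h0).trans
        (mul_rpow_le K1 (norm_nonneg _) h1)
      nlinarith [hh.hol (P.σ y) (P.σ z), show 0 ≤ A * ‖y - z‖ ^ α by positivity]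
    · rw [P.pull_out hy, zero_sub, norm_neg, norm_sub_rev]; exact o z y hy
  · rw [P.pull_out hz, sub_zero]; exact o y z hz

theorem Pc.Ok.pull_cont (hP : P.Ok K) (hh : Continuous h) (hs : ∀ x, P.γ x = 0 → h x = 0) :
    Continuous (P.pull h) := continuous_iff_continuousAt.2 fun z => by
  by_cases hz : z ∈ P.O
  · have c : ContinuousOn P.σ P.O := (LipschitzOnWith.of_dist_le' (K := K) fun y hy z hz => by
      rw [dist_eq_norm y z]; exact hP.lσ y hy z hz).continuousOn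
    exact (hh.continuousAt.comp (c.continuousAt (hP.op.mem_nhds hz))).congr
      (Eventually.mono (hP.op.mem_nhds hz) fun y hy => (P.pull_in hy h).symm)
  · exact (continuousAt_const (y := (0 : V))).congr (Eventually.mono (ball_mem_nhds z one_half_pos)
      fun y hy => (hP.pull_zero hs hz (mem_ball_iff_norm.1 hy)).symm)

end V

end Vale.Agent.P366M.Y
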