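import Vale.Agent.P366Q.T.Big
import Vale.Agent.P366Y.T.Sfp
import Mathlib.Analysis.Normed.Lp.lpSpace

/-!
# P366Q: the fixed point theorem for Hölder jets
-/

open MeasureTheory Metric Filter Topology Set
open scoped ContDiff ENNReal
open Vale.Agent.P366 Vale.Agent.P366.Stmt Vale.Agent.P366Z Vale.Agent.P366Y

noncomputable section

namespace Vale.Agent.P366M.Y

namespace Qe

/-- the fixed point theorem for an abstract class of Hölder type -/
theorem fp_abs {X W : Type} [NormedAddCommGroup W] [NormedSpace ℝ W] [ProperSpace W]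
    {H : ℝ → (X → W) → Prop} (nn : ∀ {A j}, H A j → 0 ≤ A) (bd : ∀ {A j}, H A j → ∀ x, ‖j x‖ ≤ A)
    (mono : ∀ {A B j}, H A j → A ≤ B → H B j) (zero : H 0 fun _ => 0)
    (add : ∀ {A B j j'}, H A j → H B j' → H (A + B) fun x => j x + j' x)
    (smul : ∀ (c : ℝ) {A j}, H A j → H (|c| * A) fun x => c • j x)
    (ca : ∀ j, IsClosed {A | H A j}) (cj : ∀ A, IsClosed {j | H A j})
    (ap : ∀ A, ∀ e > (0 : ℝ), ∃ F : Finset X, ∃ d > (0 : ℝ), ∀ j, H A j →
      (∀ x ∈ F, ‖j x‖ ≤ d) → ∀ x, ‖j x‖ ≤ e) {M : ℝ} (hM : 0 < M) (G : (X → W) → X → W)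
    (h0 : ∀ j, H M j → ∃ A, H A (G j))
    (hc : ∀ e > (0 : ℝ), ∃ d > (0 : ℝ), ∀ j j', H M j → H M j' →
      (∀ x, ‖j x - j' x‖ ≤ d) → H e fun x => G j x - G j' x) :
    ∃ j, ∃ s ∈ Icc (0 : ℝ) 1, H M j ∧ (∀ x, j x = s • G j x) ∧
      (s = 1 ∨ ∀ A, H A j → M ≤ A) := by
  classical
  have sub : ∀ {A B j j'}, H A j → H B j' → H (A + B) fun x => j x - j' x := fun h h' => by
    simpa [sub_eq_add_neg] using add h (smul (-1) h')
  let N : (X → W) → ℝ := fun j => sInf {A | H A j}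
  have N_le : ∀ {A j}, H A j → N j ≤ A := fun h => csInf_le ⟨0, fun _ h => nn h⟩ h
  have N_ho : ∀ {A j}, H A j → H (N j) j := fun h =>
    (ca _).csInf_mem ⟨_, h⟩ ⟨0, fun _ h => nn h⟩
  let ι : (X → W) → lp (fun _ : X => W) ⊤ := fun j => if h : Memℓp j ⊤ then ⟨j, h⟩ else 0
  have hι : ∀ {A j}, H A j → (ι j : X → W) = j := fun h => by
    simp only [ι]
    rw [dif_pos (memℓp_infty ⟨_, forall_mem_range.2 (bd h)⟩)]
  have dι : ∀ {A B j j' e}, H A j → H B j' → 0 ≤ e → (∀ x, ‖j x - j' x‖ ≤ e) →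
      dist (ι j) (ι j') ≤ e := fun h h' e0 he => by
    rw [dist_eq_norm]
    exact lp.norm_le_of_forall_le e0 fun x => by
      simpa only [lp.coeFn_sub, hι h, hι h', Pi.sub_apply] using he x
  have de : ∀ (j j' : lp (fun _ : X => W) ⊤) x, ‖j x - j' x‖ ≤ dist j j' := fun j j' x => by
    simpa [dist_eq_norm] using lp.norm_apply_le_norm (by simp) (j - j') x
  set K : Set (lp (fun _ : X => W) ⊤) := {j | H M j} with hK
  have cp : IsCompact K := by
    have c0 : IsCompact {j | H M j} := (isCompact_univ_pi fun _ : X =>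
      isCompact_closedBall (0 : W) M).of_isClosed_subset (cj M) fun j hj x _ =>
        mem_closedBall_zero_iff.2 (bd hj x)
    have c1 : ContinuousOn ι {j | H M j} := fun j hj => Metric.tendsto_nhds.2 fun e he => by
      obtain ⟨F, d, d0, hd⟩ := ap (M + M) (e / 2) (half_pos he)
      have h1 : ∀ᶠ j' in 𝓝 j, ∀ x ∈ F, ‖j' x - j x‖ ≤ d := (eventually_all_finset F).2 fun x _ =>
        (((continuous_apply x).sub continuous_const).norm.tendsto j).eventually_le_const
          (by simpa using d0)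
      filter_upwards [mem_nhdsWithin_of_mem_nhds h1, self_mem_nhdsWithin] with j' h2 h3
      exact (dι h3 hj (half_pos he).le (hd _ (sub h3 hj) h2)).trans_lt (half_lt_self he)
    convert c0.image_of_continuousOn c1 using 1
    exact Subset.antisymm (fun j hj => ⟨j, hj, Subtype.ext (hι hj)⟩)
      fun _ ⟨j, hj, e⟩ => e ▸ by rwa [hK, mem_ofPred_eq, hι hj]
  have cv : Convex ℝ K := fun j hj j' hj' s t s0 t0 st => by
    have := add (smul s hj) (smul t hj')
    rwa [abs_of_nonneg s0, abs_of_nonneg t0, ← add_mul, st, one_mul] at this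
  have gN : ∀ j ∈ K, H (N (G j)) (G j) := fun j hj => N_ho (h0 _ hj).choose_spec
  have c1 : ContinuousOn (fun j : lp (fun _ : X => W) ⊤ => ι (G j)) K := by
    refine Metric.continuousOn_iff.2 fun j hj e he => ?_
    obtain ⟨d, d0, hd⟩ := hc (e / 2) (half_pos he)
    exact ⟨d, d0, fun j' hj' h => (dι (gN _ hj') (gN _ hj) (half_pos he).le
      (bd (hd _ _ hj' hj fun x => (de _ _ x).trans h.le))).trans_lt (half_lt_self he)⟩
  have c2 : ContinuousOn (fun j : lp (fun _ : X => W) ⊤ => N (G j)) K := by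
    refine Metric.continuousOn_iff.2 fun j hj e he => ?_
    obtain ⟨d, d0, hd⟩ := hc (e / 2) (half_pos he)
    refine ⟨d, d0, fun j' hj' h => ?_⟩
    have h1 := hd _ _ hj' hj fun x => (de _ _ x).trans h.le
    have h2 := N_le (add (gN j hj) h1)
    have h3 := N_le (sub (gN j' hj') h1)
    simp only [add_sub_cancel, sub_sub_cancel] at h2 h3
    rw [Real.dist_eq, abs_lt]
    constructor <;> linarith
  have p : ∀ t : ℝ, 0 < max M t := fun t => lt_max_of_lt_left hM
  have er : ∀ j ∈ K, ∀ s : ℝ, (s • ι (G j) : lp (fun _ : X => W) ⊤) = fun x => s • G j x :=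
    fun j hj s => by rw [lp.coeFn_smul, hι (gN j hj)]; rfl
  obtain ⟨j, hj, e⟩ := sfp _ K (fun j => (M / max M (N (G j))) • ι (G j)) cp cv
    ⟨0, mono zero hM.le⟩
    ((continuousOn_const.div (continuousOn_const.sup c2) fun j _ => (p _).ne').smul c1)
    fun j hj => by
      rw [hK, mem_ofPred_eq, er j hj]
      refine mono (smul _ (gN j hj)) ?_
      rw [abs_of_pos (div_pos hM (p _)), div_mul_eq_mul_div, div_le_iff₀ (p _)]
      exact mul_le_mul_of_nonneg_left (le_max_right _ _) hM.le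
  have e2 := (congrArg (fun v : lp (fun _ : X => W) ⊤ => (v : X → W)) e).symm.trans (er j hj _)
  refine ⟨j, _, ⟨(div_pos hM (p _)).le, (div_le_one (p _)).2 (le_max_left _ _)⟩, hj,
    congrFun e2, ?_⟩
  rcases le_total (N (G j)) M with h | h
  · exact .inl (by rw [max_eq_left h, div_self hM.ne'])
  · refine .inr fun A hA => ?_
    rw [max_eq_right h] at e2
    have q := hM.trans_le h
    have h1 := smul (N (G j) / M) hA
    have e3 : (fun x => (N (G j) / M) • j x) = G j := by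
      funext x
      rw [congrFun e2 x, smul_smul, div_mul_div_cancel₀ hM.ne', div_self q.ne', one_smul]
    have h2 := N_le (e3 ▸ h1)
    rw [abs_of_pos (div_pos q hM), div_mul_eq_mul_div, le_div_iff₀ hM] at h2
    exact le_of_mul_le_mul_left h2 q

variable {n : ℕ} {M : Type} [Mfs n M] {α : ℝ}

theorem cl_hoB {X V : Type} [TopologicalSpace X] [NormedAddCommGroup V] {F : X → E n → V}
    {a : X → ℝ} (hF : ∀ y, Continuous fun t => F t y) (ha : Continuous a) (s : Set (E n)) :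
    IsClosed {t | HoB α (a t) (F t) s} := by
  simp only [HoB, ofPred_and, ofPred_forall]
  exact (isClosed_iInter fun y => isClosed_iInter fun _ => isClosed_le (hF y).norm ha).inter
    (isClosed_iInter fun y => isClosed_iInter fun _ => isClosed_iInter fun z =>
      isClosed_iInter fun _ => isClosed_le ((hF y).sub (hF z)).norm (ha.mul continuous_const))

theorem cl_hoJ {X : Type} [TopologicalSpace X] {F : X → M → ℝ × Vc n} {a : X → ℝ}
    (hF : ∀ x, Continuous fun t => F t x) (ha : Continuous a) :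
    IsClosed {t | HoJ α (a t) (F t)} := by
  simp only [HoJ, HoS, HoC, ofPred_and, ofPred_forall]
  refine (isClosed_iInter fun x => cl_hoB (fun y => (hF _).fst) ha _).inter
    (isClosed_iInter fun x => cl_hoB (fun y => ?_) ha _)
  simp only [rC_eq]
  exact (mC _).continuous.comp (hF _).snd

theorem hoJ_zero : HoJ α 0 fun _ : M => (0 : ℝ × Vc n) :=
  ⟨by simpa using hoS_const (M := M) (0 : ℝ), fun x => by
    have : rC (ch x) (fun _ : M => (0 : ℝ × Vc n).2) = fun _ => 0 := funext fun y => by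
      simp [rC_eq]
    rw [this]
    simpa using hoB_const (α := α) (0 : Vc n)⟩

/-- Hölder jets are controlled on compact sets by finitely many values -/
theorem apx (hα : 0 < α) {K : Set M} (hK : IsCompact K) (A : ℝ) {e : ℝ} (he : 0 < e) :
    ∃ F : Finset M, ∃ d > (0 : ℝ), ∀ j, HoJ α A j → (∀ x ∈ F, ‖j x‖ ≤ d) → ∀ x ∈ K, ‖j x‖ ≤ e := by
  obtain ⟨L, B⟩ := exists_big M
  have L4 := B.four
  have d0 : 0 < e / (2 * L) := by positivity
  have hc : ContinuousAt (fun t : ℝ => |A| * t ^ α) 0 :=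
    continuousAt_const.mul (Real.continuousAt_rpow_const _ _ (.inr hα.le))
  have h0 : |A| * (0 : ℝ) ^ α < e / (2 * L) := by rwa [Real.zero_rpow hα.ne', mul_zero]
  obtain ⟨t, t0, ht⟩ := Metric.eventually_nhds_iff.1 (hc.eventually (gt_mem_nhds h0))
  obtain ⟨F, -, hF⟩ := hK.elim_nhds_subcover
    (fun x => (ch x).source ∩ ch x ⁻¹' ball (pt x) (min t 1)) fun x _ =>
      inter_mem (chart_source_mem_nhds _ x) ((ch x).continuousAt (mem_chart_source _ x)
        (ball_mem_nhds _ (lt_min t0 one_pos)))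
  refine ⟨F, _, d0, fun j hj h p hp => ?_⟩
  obtain ⟨x, hx, h1, h2⟩ := mem_iUnion₂.1 (hF hp)
  have h3 : ch x p ∈ ball (pt x) 1 := ball_subset_ball (min_le_right _ _) h2
  have h4 : A * ‖ch x p - pt x‖ ^ α ≤ e / (2 * L) :=
    (mul_le_mul_of_nonneg_right (le_abs_self A) (rp0 _ _ _)).trans (ht (by
      simpa using (mem_ball_iff_norm.1 h2).trans_le (min_le_left _ _))).le
  have h5 := ((hj.1 x).2 _ h3 _ (pt_mem x)).trans h4
  have h6 := ((hj.2 x).2 _ h3 _ (pt_mem x)).trans h4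
  have h7 := B.le_rC (one4 x h3) fun x => (j x).2
  simp only [loc, (ch x).left_inv h1, symm_pt, rC_pt] at h5 h6 h7
  have h8 := norm_le_norm_add_norm_sub' (j p).1 (j x).1
  have h9 := norm_le_norm_add_norm_sub' (rC (ch x) (fun x => (j x).2) (ch x p)) (j x).2
  have k1 := (norm_fst_le (j x)).trans (h x hx)
  have k2 := (norm_snd_le (j x)).trans (h x hx)
  have k3 : L * (e / (2 * L) + e / (2 * L)) = e := by field_simp; ring
  refine max_le ?_ (h7.trans (k3 ▸ mul_le_mul_of_nonneg_left (by linarith) B.pos.le))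
  nlinarith

/-- the fixed point theorem for Hölder jets -/
theorem fp (hα : 0 < α) {R N : ℝ} (hN : 0 < N) (G : (M → ℝ × Vc n) → M → ℝ × Vc n)
    (h0 : ∀ j, HoJ α N j → ∃ A, HoJ α A (G j)) (hs : ∀ j x, R < ‖px x‖ → G j x = 0)
    (hc : ∀ e > (0 : ℝ), ∃ d > (0 : ℝ), ∀ j j', HoJ α N j → HoJ α N j' →
      (∀ x, ‖j x - j' x‖ ≤ d) → HoJ α e fun x => G j x - G j' x) :
    ∃ j, ∃ s ∈ Icc (0 : ℝ) 1, HoJ α N j ∧ (∀ x, j x = s • G j x) ∧
      (s = 1 ∨ ∀ A, HoJ α A j → N ≤ A) := by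
  obtain ⟨j, s, h1, h2, h3, h4⟩ := fp_abs
    (H := fun A j => HoJ α A j ∧ ∀ x, R < ‖px x‖ → j x = 0) (fun h => h.1.nn) (fun h => h.1.bd)
    (fun h h' => ⟨h.1.mono h', h.2⟩) ⟨hoJ_zero, fun _ _ => rfl⟩
    (fun h h' => ⟨h.1.add h'.1, fun x hx => by simp [h.2 x hx, h'.2 x hx]⟩)
    (fun c _ _ h => ⟨h.1.csmul c, fun x hx => by simp [h.2 x hx]⟩)
    (fun j => (cl_hoJ (F := fun _ => j) (fun _ => continuous_const) continuous_id).and
      isClosed_const)
    (fun A => (cl_hoJ continuous_apply continuous_const).and (by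
      simp only [ofPred_forall]
      exact isClosed_iInter fun x => isClosed_iInter fun _ =>
        isClosed_eq (continuous_apply x) continuous_const))
    (fun A e he => let ⟨F, d, d0, h⟩ := apx hα (Mfs.cpt R) A he
      ⟨F, d, d0, fun j hj hF x => (le_or_gt ‖px x‖ R).elim (h j hj.1 hF x) fun hx => by
        simpa [hj.2 x hx] using he.le⟩) hN G
    (fun j hj => let ⟨A, h⟩ := h0 j hj.1; ⟨A, h, hs j⟩)
    fun e he => let ⟨d, d0, h⟩ := hc e he
      ⟨d, d0, fun j j' hj hj' hd => ⟨h j j' hj.1 hj'.1 hd, fun x hx => by simp [hs _ x hx]⟩⟩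
  exact ⟨j, s, h1, h2.1, h3, h4.imp_right fun h A hA => h A ⟨hA, h2.2⟩⟩

end Qe

end Vale.Agent.P366M.Y
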