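import Vale.Agent.P366Q.T.Res
import Vale.Agent.P366Y.T.Regq
import Vale.Agent.P366M.Sk

/-!
# P366Q, block T: jets in the charts, local regularity, row RES
-/

set_option maxSynthPendingDepth 3

open MeasureTheory Metric Filter Topology Set
open scoped ContDiff ENNReal
open Vale.Agent.P366 Vale.Agent.P366.Stmt Vale.Agent.P366Z Vale.Agent.P366Y
open Vale.Agent.P366Z.LinbH (ee ent ent_apply)
open Vale.Agent.P272.K.R (HC Bil hc_id hc_const linear_reg allCCE)

noncomputable section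

namespace Vale.Agent.P366M.Y

variable {n : ℕ} {α A : ℝ}

section E

variable {U : Set (E n)} {u : E n → ℝ}

theorem hc_two (hα : 0 < α) (hα1 : α ≤ 1) (hU : IsOpen U) (hu : ∀ y ∈ U, ContDiffAt ℝ 2 u y)
    (h : HoB α A (P366Y.D2 u) U) : HC α U 2 u := by
  refine ⟨fun x hx => (hu x hx).differentiableAt (by norm_num), fun x hx =>
    ((hu x hx).fderiv_right (m := 1) (by norm_num)).differentiableAt (by norm_num), ?_⟩
  refine HC.of_apply hα hα1 hU (EuclideanSpace.basisFun (Fin n) ℝ).toBasis fun i =>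
    HC.of_apply hα hα1 hU (EuclideanSpace.basisFun (Fin n) ℝ).toBasis fun j x hx => ?_
  obtain ⟨r, hr, hs⟩ := Metric.isOpen_iff.1 hU x hx
  refine ⟨r, hr, hs, A, h.nn hx, fun y hy z hz => ?_⟩
  simp only [OrthonormalBasis.coe_toBasis, EuclideanSpace.basisFun_apply,
    ← P366Z.pd_pd_eq (hu y (hs hy)), ← P366Z.pd_pd_eq (hu z (hs hz))]
  exact ((h.app i).app j).2 y (hs hy) z (hs hz)

theorem hc_two' (hU : IsOpen U) (hu : ∀ y ∈ U, ContDiffAt ℝ 2 u y) (h : P366Z.H2 A u U) :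
    HC (1 / 2) U 2 u :=
  ⟨fun x hx => (hu x hx).differentiableAt (by norm_num), fun x hx =>
    ((hu x hx).fderiv_right (m := 1) (by norm_num)).differentiableAt (by norm_num), fun x hx =>
    let ⟨r, hr, hs⟩ := Metric.isOpen_iff.1 hU x hx
    ⟨r, hr, hs, A, (norm_nonneg _).trans (h.1 x hx), fun y hy z hz => h.2 y (hs hy) z (hs hz)⟩⟩

/-- **local regularity** for quasilinear equations -/
theorem lreg (hα : 0 < α) (hα1 : α < 1) (hU : IsOpen U) (h2 : HC α U 2 u)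
    {W : Set (E n × ℝ × Vc n)} (hW : IsOpen W) {a : E n × ℝ × Vc n → Mx n}
    {b : E n × ℝ × Vc n → ℝ} (ha : ∀ w ∈ W, ContDiffAt ℝ ∞ a w) (hb : ∀ w ∈ W, ContDiffAt ℝ ∞ b w)
    (hm : ∀ y ∈ U, (y, P366Y.J1 u y) ∈ W) (hE : ∀ y ∈ U, Pos (a (y, P366Y.J1 u y)))
    (heq : ∀ y ∈ U, pr2 (a (y, P366Y.J1 u y)) (P366Y.D2 u y) = b (y, P366Y.J1 u y)) :
    ∀ y ∈ U, ContDiffAt ℝ ∞ u y := by
  have c2 : ∀ y ∈ U, ContDiffAt ℝ 2 u y := fun y hy =>
    (h2.contDiffOn hα hU).contDiffAt (hU.mem_nhds hy)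
  let φ : E n × ℝ × (E n →L[ℝ] ℝ) → E n × ℝ × Vc n := fun q => (q.1, q.2.1, fun i => q.2.2 (ee i))
  have hφ : ContDiff ℝ ∞ φ := contDiff_fst.prodMk ((contDiff_fst.comp contDiff_snd).prodMk
    (contDiff_pi.2 fun i => (contDiff_snd.comp contDiff_snd).clm_apply contDiff_const))
  have e : ∀ x ∈ U, φ (x, u x, fderiv ℝ u x) = (x, P366Y.J1 u x) := fun x hx =>
    Prod.ext rfl (Prod.ext rfl (funext fun i => (P366Z.pd_eq (P366Z.diff2 (c2 x hx)) i).symm))
  have hW' : IsOpen (φ ⁻¹' W) := hW.preimage hφ.continuous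
  have hm' : ∀ x ∈ U, (x, u x, fderiv ℝ u x) ∈ φ ⁻¹' W := fun x hx => by
    rw [mem_preimage, e x hx]; exact hm x hx
  have hA : ∀ q ∈ φ ⁻¹' W, ContDiffAt ℝ ∞ (fun q => ∑ i, ∑ j, a (φ q) i j • ent i j) q :=
    fun q hq => ContDiffAt.sum fun i _ => ContDiffAt.sum fun j _ => (contDiffAt_pi.1
      (contDiffAt_pi.1 ((ha _ hq).comp q hφ.contDiffAt) i) j).smul contDiffAt_const
  have key : ∀ k, HC α U (k + 2) u := fun k => by
    induction k with
    | zero => exact h2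
    | succ k ih =>
      have hj : HC α U (k + 1) fun x => (x, u x, fderiv ℝ u x) :=
        (hc_id hα1.le hU).prodMk hα hα1.le hU ((ih.of_succ hα hα1.le hU).prodMk hα hα1.le hU ih.2)
      refine linear_reg hα hα1.le (allCCE (E n) hα hα1) hU (k + 1) (c := fun _ => 0)
        (HC.comp_smooth hα hα1.le hU hW'
          (fun y hy => (hA y hy).of_le (by exact_mod_cast le_top)) hj hm')
        (hc_const _ hU) (HC.comp_smooth hα hα1.le hU hW' (fun y hy =>
          ((hb _ hy).comp y hφ.contDiffAt).neg.of_le (by exact_mod_cast le_top)) hj hm')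
        (fun x hx l hl => ?_) h2 fun x hx => ?_
      · refine ((hE x hx).op l hl).trans_eq ?_
        simp only [e x hx, sum_apply, smul_apply, ent_apply, smul_eq_mul, Lh.op_apply]
      · simp only [e x hx, sum_apply, smul_apply, ent_apply, smul_eq_mul, Function.comp_apply,
          ← heq x hx, pr2, P366Y.D2, P366Z.pd_pd_eq (c2 x hx)]
        ring
  exact fun y hy => contDiffAt_infty.2 fun k => ((HC.mono hα hα1.le hU (Nat.le_add_right k 2)
    (key k)).contDiffOn hα hU).contDiffAt (hU.mem_nhds hy)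

theorem bil_le (B : E n →L[ℝ] E n →L[ℝ] ℝ) (hA : 0 ≤ A) (h : ∀ i j, |B (ee i) (ee j)| ≤ A) :
    ‖B‖ ≤ n * (n * A) := by
  have key : ∀ {V : Type} [NormedAddCommGroup V] [NormedSpace ℝ V] (L : E n →L[ℝ] V) (c : ℝ),
      0 ≤ c → (∀ i, ‖L (ee i)‖ ≤ c) → ‖L‖ ≤ n * c := fun L c hc h =>
    L.opNorm_le_bound (by positivity) fun ξ => by
      have e : ξ = ∑ i, ξ i • ee i := by ext j; simp [Pi.single_apply]
      conv_lhs => rw [e, map_sum]
      refine (norm_sum_le_of_le _ (n := fun _ => c * ‖ξ‖) fun i _ => ?_).trans_eq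
        (by simp [mul_assoc])
      rw [map_smul, norm_smul, mul_comm]
      exact mul_le_mul (h i) (PiLp.norm_apply_le ξ i) (norm_nonneg _) hc
  exact key B _ (by positivity) fun i => key _ _ hA (h i)

theorem h2_of (hu : ∀ y ∈ U, ContDiffAt ℝ 2 u y) (h : HoB (1 / 2) A (P366Y.D2 u) U) :
    P366Z.H2 (n * (n * A)) u U :=
  ⟨fun y hy => bil_le _ (h.nn hy) fun i j => by
    rw [← P366Z.pd_pd_eq (hu y hy)]; exact ((h.app i).app j).1 y hy, fun y hy z hz => by
      rw [mul_assoc, mul_assoc]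
      refine bil_le _ (mul_nonneg (h.nn hy) (rp0 y z _)) fun i j => ?_
      rw [sub_apply, sub_apply, ← P366Z.pd_pd_eq (hu y hy), ← P366Z.pd_pd_eq (hu z hz)]
      exact ((h.app i).app j).2 y hy z hz⟩

end E

variable {M : Type} [Mfs n M] {g : Fld n M} {ρ : ℝ} {v : M → ℝ}

theorem rC_D1' (hv : CD 2 v) (x : M) : rC (ch x) (D1 v) = P366Y.D1 (loc (ch x) v) :=
  funext fun _ => rC_D1 (ch_mem x) (diff2 hv.contDiffAt)

/-- the jets in the charts -/
theorem jet_loc (hg : Met g) (hf : Flat g ρ) : ∃ C, 1 ≤ C ∧ ∀ (α A : ℝ) (v : M → ℝ), 0 ≤ α →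
    α ≤ 1 → CD 2 v → HoC α A (D1 v) → HoT α A (hess g v) → ∀ x,
      HoB α (C * A) (P366Y.D1 (loc (ch x) v)) (ball (pt x) 4) ∧
      HoB α (C * A) (P366Y.D2 (loc (ch x) v)) (ball (pt x) 4) := by
  obtain ⟨L, B⟩ := exists_big M
  obtain ⟨G, G0, hG⟩ := gm_bd hg hf
  have L4 := B.four
  have p : 0 ≤ n * (2 * (8 * G) * L) := by positivity
  refine ⟨L + n * (2 * (8 * G) * L), by linarith, fun α A v h0 h1 hv k1 k2 x => ?_⟩
  have A0 := k1.nn
  have a := rC_D1' hv x ▸ B.hC α A _ h0 h1 k1 x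
  exact ⟨a.mono (by nlinarith), (((B.hT α A _ h0 h1 k2 x).add (hoB_gc (by positivity)
    (by positivity) ((hG x).of_one Subset.rfl h0 h1) a)).congr fun y _ =>
      d2_loc hg (ch_mem x) hv.contDiffAt).mono (le_of_eq (by ring))⟩

end Vale.Agent.P366M.Y

namespace Vale.Agent.P366M

open Y

theorem res : RES := by
  intro n M _ g ρ U _ hg hf hU
  obtain ⟨c, c0, C, hC⟩ := hU.bd
  obtain ⟨L, B⟩ := exists_big M
  have L0 := B.pos
  have a0 : (0 : ℝ) ≤ 1 / 2 := by norm_num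
  have a1 : (1 / 2 : ℝ) ≤ 1 := by norm_num
  have U0 : ∀ x, U x ≠ 0 := fun x => (c0.trans_le (hC x).1).ne'
  have sQ : Smooth fun x => lap g U x / U x := CD.div (hg.sm_lap hU.sm) hU.sm U0
  have bQ := (B.hoS1 sQ.diff (fun x => (hC x).2.2.2.1)
    fun x => (d1_le_fd (sQ.diff x)).trans (hC x).2.2.2.2).of_one a0 a1
  have bU := B.hoS1 hU.sm.diff (fun x => by
    rw [abs_of_nonneg (c0.le.trans (hC x).1)]; exact (hC x).2.1)
    fun x => (d1_le_fd (hU.sm.diff x)).trans (hC x).2.2.1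
  have sI : Smooth fun x => (U x)⁻¹ := CD.inv hU.sm U0
  have bI := B.hoS1 (A := C / c ^ 2) sI.diff (S := c⁻¹) (fun x => by
    rw [abs_of_nonneg (inv_nonneg.2 (c0.le.trans (hC x).1))]; exact inv_anti₀ c0 (hC x).1)
    fun x => by
      have C0 : 0 ≤ C := (norm_nonneg _).trans (hC x).2.2.1
      refine (pi_norm_le_iff_of_nonneg (by positivity)).2 fun i => ?_
      rw [Y.D1, pd_inv (hU.sm.diff x) (U0 x), norm_div, norm_neg,
        Real.norm_of_nonneg (sq_nonneg (U x))]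
      gcongr
      exacts [(abs_pd_le (hU.sm.diff x) i).trans (hC x).2.2.1, (hC x).1]
  obtain ⟨a, ha⟩ := hoU_sm hg.sm_up (R := ρ) (c := P366Z.eu n 0) fun x hx =>
    funext fun i => funext fun j => hf.up_eq hx i j
  obtain ⟨l₀, h0⟩ := eventually_atTop.1 (mres one_half_pos (by norm_num) hg hf
    (fun x ξ hξ => hg.up_pos x hξ) ((ha.of_one a0 a1).mono (le_max_left _ _))
    (fun x hx => funext fun i => funext fun j => hf.up_eq hx i j) (bQ.mono (le_max_right _ _)))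
  obtain ⟨J, J1, hJ⟩ := jet_loc hg hf
  have cut : ∀ R, ∃ (φ : M → ℝ) (b : ℝ), Smooth φ ∧ HoS (1 / 2) b φ ∧ HoC (1 / 2) b (D1 φ) ∧
      HoT (1 / 2) b (hess g φ) ∧ ∀ x, ‖px x‖ ≤ R → φ =ᶠ[𝓝 x] fun x => (U x)⁻¹ := fun R => by
    obtain ⟨θ, k1, k2, -, k4, k5⟩ := exists_cut (isCompact_px M R) isOpen_univ (subset_univ _)
    have t : Tame fun x => θ x * (U x)⁻¹ := tame_cpt (k1.mul sI) k2 fun x hx => by
      rw [image_eq_zero_of_notMem_tsupport hx, zero_mul]
    obtain ⟨b₀, p₀⟩ := t.hoS (S := 1 * _) fun x => by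
      rw [abs_mul]
      exact mul_le_mul (abs_le.2 ⟨by linarith [(k4 x).1], (k4 x).2⟩) (bI.bd x) (abs_nonneg _)
        zero_le_one
    obtain ⟨b₁, p₁⟩ := t.hoC
    obtain ⟨b₂, p₂⟩ := t.hoT hg hf
    exact ⟨_, 8 * (b₀ + b₁ + b₂), t.sm, (p₀.mono (by linarith [p₁.nn, p₂.nn])).of_one a0 a1,
      (p₁.mono (by linarith [p₀.nn, p₂.nn])).of_one a0 a1,
      (p₂.mono (by linarith [p₀.nn, p₁.nn])).of_one a0 a1,
      fun x hx => (k5 x hx).mono fun z hz => by simp only [hz, one_mul]⟩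
  choose φ b φ1 φ2 φ3 φ4 φ5 using cut
  refine ⟨l₀, fun l hl => ?_⟩
  obtain ⟨D, D0, hD⟩ := h0 l hl
  generalize C + n * (L * C) = cU at bU
  generalize c⁻¹ + n * (L * (C / c ^ 2)) = cI at bI
  obtain ⟨F, hF⟩ : ∃ F, F = D * (2 * (2 * L * (8 * (2 * cU * L)))) := ⟨_, rfl⟩
  refine ⟨2 * L * (2 * cI * (F + n * (L * F))), fun R => n * (n * (J * (8 * b (R + 4 * L) * F))),
    fun A f hA => ?_⟩
  have k := B.hm a0 a1 ((bU.mul (B.hoS zero_le_one le_rfl (bl_iff.1 hA))).of_one a0 a1)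
  obtain ⟨v, v1, v2, v3, v4, v5⟩ := hD _ _ _ k.nonneg k.hn
  rw [show D * (2 * L * (8 * (2 * cU * (L * A))) + 2 * L * (8 * (2 * cU * (L * A)))) = F * A by
    rw [hF]; ring] at v2 v3 v4
  have w1 : CD 2 fun x => (U x)⁻¹ * v x := sI.two.mul v1
  refine ⟨fun x => (U x)⁻¹ * v x, w1, bl_iff.2 ?_, fun R x hx => ?_, fun x => ?_⟩
  · have := B.hm zero_le_one le_rfl (bI.mul (B.hoS1 (fun x => diff2 v1.contDiffAt) v2.bd v3.bd))
    rwa [show 2 * L * (2 * cI * (F * A + n * (L * (F * A)))) =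
      2 * L * (2 * cI * (F + n * (L * F))) * A by ring] at this
  · set R' := R + 4 * L
    have c2 : CD 2 fun x => φ R' x * v x := (φ1 R').two.mul v1
    have p := mul_nonneg (φ2 R').nn v2.nn
    have e1 : D1 (fun x => φ R' x * v x) = fun x => φ R' x • D1 v x + v x • D1 (φ R') x := by
      funext x i
      simp only [Y.D1, pd_mul ((φ1 R').diff x) (diff2 v1.contDiffAt), Pi.add_apply, Pi.smul_apply,
        smul_eq_mul]
      ring
    have e2 : hess g (fun x => φ R' x * v x) = fun x => φ R' x • hess g v x +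
        v x • hess g (φ R') x + ((fun i j => D1 (φ R') x i * D1 v x j) +
          fun i j => D1 v x i * D1 (φ R') x j) :=
      funext fun x => funext fun i => funext fun j => hess_mul ((φ1 R').c2 x) v1.contDiffAt i j
    have k := (hJ (1 / 2) (8 * b R' * (F * A)) _ a0 a1 c2
      (e1 ▸ ((HoC.smul (φ2 R') v3).add (HoC.smul v2 (φ3 R'))).mono (by linarith))
      (e2 ▸ (((HoT.smul (φ2 R') v4).add (HoT.smul v2 (φ4 R'))).add
        (((φ3 R').tens v3).add (v3.tens (φ3 R')))).mono (by linarith)) x).2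
    have := h2_of (u := loc (ch x) fun x => (U x)⁻¹ * v x) (fun y _ => (w1 _ (ch_mem x)).contDiffAt)
      ((k.sub (one4 x)).congr fun y hy => funext fun i => funext fun j => P366Z.pd_congr
        (P366Z.pd_congr_ev (loc_congr' (ch_mem x) ((φ5 R' ((ch x).symm y) (by
          linarith [B.geo.px_le (one4 x hy), norm_sub_norm_le (px ((ch x).symm y)) (px x),
            show ‖px x‖ < R from hx])).mono fun z hz => by simp only [hz])) j) i)
    rwa [show n * (n * (J * (8 * b R' * (F * A)))) = n * (n * (J * (8 * b R' * F))) * A by ring]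
      at this
  · have e1 := hg.mul_lap_mul (hU.sm.c2 x) (w1.contDiffAt (x := x))
    have e2 : (fun y => U y * ((U y)⁻¹ * v y)) = v := funext fun y => mul_inv_cancel_left₀ (U0 y) _
    have e3 := v5 x
    rw [e2, hg.lap_eq_tr v1.contDiffAt] at e1
    change l * v x - tr g (hess g v) x + _ = _ at e3
    have := U0 x
    rw [hg.lap_eq_tr (hU.sm.c2 x)] at e1 e3
    field_simp at e1 e3 ⊢
    linear_combination e3 + e1

end Vale.Agent.P366M
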