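import Vale.Agent.P366Q.T.Pc
import Vale.Agent.P366Y.T.Linh

/-!
# P366Q, block T: the resolvent on a manifold
-/

open MeasureTheory Metric Filter Topology Set
open scoped ContDiff ENNReal
open Vale.Agent.P366 Vale.Agent.P366.Stmt Vale.Agent.P366Z Vale.Agent.P366Y
open Vale.Agent.P272.K Vale.Agent.P272.K.LIN
open Vale.Agent.P366Z.LinaH (Hb sys res_mono)
open Vale.Agent.P366Y.Lh (op op_apply)

set_option maxSynthPendingDepth 3

noncomputable section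

namespace Vale.Agent.P366M.Y

theorem ex_fin {ι : Type} [Finite ι] {p : ι → ℝ → Prop} (hm : ∀ i a b, a ≤ b → p i a → p i b)
    (h : ∀ i, ∃ a, p i a) : ∃ a, 0 ≤ a ∧ ∀ i, p i a := by
  choose a ha using h
  obtain ⟨b, hb⟩ := Finite.exists_le a
  exact ⟨max b 0, le_max_right _ _, fun i => hm i _ _ ((hb i).trans (le_max_left _ _)) (ha i)⟩

theorem iter_m {E X ι : Type} [NormedAddCommGroup E] [NormedSpace ℝ E] [Fintype ι] {α l C : ℝ}
    (H : (X → ℝ) → ℝ → Prop) (hH : ∀ f N, 0 ≤ N → H f N → ∀ x, ‖f x‖ ≤ N) (τ : ι → X → E)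
    (Φ : ι → X → Jet E →L[ℝ] ℝ)
    (step : ∀ f N, 0 ≤ N → H f N → ∃ (v : ι → E → ℝ) (f' : X → ℝ),
      (∀ i, ContDiff ℝ 2 (v i) ∧ ResBd α l C N (v i)) ∧ H f' (N / 2) ∧
        ∀ x, ∑ i, Φ i x (jet (v i) (τ i x)) = f x - f' x)
    (f : X → ℝ) (N : ℝ) (hN : 0 ≤ N) (hf : H f N) :
    ∃ v : ι → E → ℝ, (∀ i, ContDiff ℝ 2 (v i) ∧ ResBd α l (2 * C) N (v i)) ∧
      ∀ x, ∑ i, Φ i x (jet (v i) (τ i x)) = f x := by
  let S : Type := {p : (X → ℝ) × ℝ // 0 ≤ p.2 ∧ H p.1 p.2}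
  have step' : ∀ p : S, ∃ (v : ι → E → ℝ) (p' : S),
      (∀ i, ContDiff ℝ 2 (v i) ∧ ResBd α l C p.1.2 (v i)) ∧ p'.1.2 = p.1.2 / 2 ∧
        ∀ x, ∑ i, Φ i x (jet (v i) (τ i x)) = p.1.1 x - p'.1.1 x := by
    rintro ⟨⟨f, N⟩, hN, hf⟩
    obtain ⟨v, f', h1, h2, h3⟩ := step f N hN hf
    exact ⟨v, ⟨(f', N / 2), div_nonneg hN zero_le_two, h2⟩, h1, rfl, h3⟩
  choose v Q hv hQ hΦ using step'
  let s : ℕ → S := fun k => Q^[k] ⟨(f, N), hN, hf⟩
  have hs0 : s 0 = ⟨(f, N), hN, hf⟩ := rfl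
  have hs1 : ∀ k, s (k + 1) = Q (s k) := fun k => Function.iterate_succ_apply' _ _ _
  have hn : ∀ k, (s k).1.2 = N * (1 / 2) ^ k := fun k => by
    induction k with
    | zero => simp [hs0]
    | succ k ih => rw [hs1, hQ, ih, pow_succ]; ring
  have h := fun i => V.series_c2 (α := α) (l := l) (C := C) (N := N) (fun k => v (s k) i)
    (fun k => (hv (s k) i).1) fun k => hn k ▸ (hv (s k) i).2
  refine ⟨fun i x => ∑' k, v (s k) i x, fun i => ⟨(h i).1, (h i).2.1⟩, fun x => ?_⟩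
  have hF : Summable fun k => (s k).1.1 x :=
    Summable.of_norm_bounded ((hasSum_geometric_two.mul_left N).summable) fun k =>
      (hH _ _ (s k).2.1 (s k).2.2 x).trans_eq (hn k)
  have h4 := hasSum_sum (s := Finset.univ) fun i _ => (Φ i x).hasSum ((h i).2.2 (τ i x))
  have h5 : ∀ k, ∑ i, Φ i x (jet (v (s k) i) (τ i x)) = (s k).1.1 x - (s (k + 1)).1.1 x :=
    fun k => by
      rw [hs1]
      exact hΦ (s k) x
  rw [← h4.tsum_eq]
  simp only [h5]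
  rw [hF.tsum_sub ((summable_nat_add_iff 1).2 hF), hF.tsum_eq_zero_add]
  simp [hs0]

variable {n : ℕ} {α : ℝ}

/-- positive matrices -/
def Pos (a : Mx n) : Prop := ∀ ξ : Vc n, ξ ≠ 0 → 0 < ∑ i, ∑ j, a i j * ξ i * ξ j

theorem e2_pos {ξ : Vc n} (h : ξ ≠ 0) : 0 < e2 ξ :=
  (pow_pos (norm_pos_iff.2 h) 2).trans_le (le_e2 ξ)

theorem pos_of_el {Λ : ℝ} {a : Mx n} (h : El Λ a) : Pos a := fun ξ hξ =>
  (Mp.el_nonneg h ξ).lt_of_ne' fun k => by
    have := h.2.2 ξ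
    rw [k, mul_zero] at this
    exact this.not_gt (e2_pos hξ)

theorem quad_eu (y : E n) (ξ : Vc n) : ∑ i, ∑ j, P366Z.eu n y i j * ξ i * ξ j = e2 ξ := by
  simp [P366Z.eu, e2, pow_two]

theorem Pos.op {a : Mx n} (h : Pos a) (ξ : E n →L[ℝ] ℝ) (hξ : ξ ≠ 0) :
    0 < op a (ξ.smulRight ξ) := by
  refine (h (fun i => ξ (EuclideanSpace.single i 1)) fun h => hξ ?_).trans_eq ?_
  · refine ContinuousLinearMap.coe_injective
      ((EuclideanSpace.basisFun (Fin n) ℝ).toBasis.ext fun i => ?_)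
    simpa using congrFun h i
  · simp only [op_apply, ContinuousLinearMap.smulRight_apply, ContinuousLinearMap.smul_apply,
      smul_eq_mul, mul_assoc]

theorem op_D2 (a : Mx n) {v : E n → ℝ} {y : E n} (hv : ContDiffAt ℝ 2 v y) :
    op a (fderiv ℝ (fderiv ℝ v) y) = pr2 a (P366Y.D2 v y) := by
  simp only [op_apply, pr2, P366Y.D2, P366Z.pd_pd_eq hv]

/-- the resolvent on Euclidean space -/
theorem eres (h0 : 0 < α) (h1 : α < 1) {a : E n → Mx n} {A B R : ℝ} (he : ∀ y, Pos (a y))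
    (hB : 0 ≤ B) (ha : HB α a A B) (hi : ∀ y, R ≤ ‖y‖ → a y = P366Z.eu n y) :
    ∃ C, ∀ᶠ l in atTop, ∀ (f : E n → ℝ) (N : ℝ), 0 ≤ N → HB α f (N * l ^ (-(α / 2))) N →
      ∃ v, ContDiff ℝ 2 v ∧ ResBd α l C N v ∧ ∀ y, l * v y - pr2 (a y) (P366Y.D2 v y) = f y := by
  have hb : Hb α fun x => op (a x) := Hb.sum _ fun i => Hb.sum _ fun j => Hb.smul
    (Hb.of hB (LinaH.hb_proj (LinaH.hb_proj ha i) j)) (Hb.const _)
  obtain ⟨C, l₀, -, l1, hs⟩ := sys (ι := Unit) h0 (Lh.ap_univ h0 h1 hb (R := max R 1)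
    (a₀ := op (P366Z.eu n 0)) (lt_max_of_lt_right one_pos)
    (fun x k => congrArg op (hi x ((le_max_left _ _).trans k)))
    (Pos.op fun ξ hξ => (quad_eu 0 ξ).symm ▸ e2_pos hξ) fun x => (he x).op) (Hb.const 0)
  refine ⟨C, (eventually_ge_atTop l₀).mono fun l hl f N hN hf => ?_⟩
  obtain ⟨v, hv, heq⟩ := hs l hl (fun x _ => f x) N hN (LinaH.hb_pi hf.sup_nonneg hN fun _ => hf)
  exact ⟨v (), (hv ()).1, (hv ()).2, fun y => by
    simpa [op_D2 _ (hv ()).1.contDiffAt] using heq y ()⟩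

theorem pr2_add (a H H' : Mx n) : pr2 a (H + H') = pr2 a H + pr2 a H' := by
  simp only [pr2, Pi.add_apply, mul_add, Finset.sum_add_distrib]

theorem pr2_sum {ι : Type} (t : Finset ι) (a : Mx n) (H : ι → Mx n) :
    pr2 a (∑ k ∈ t, H k) = ∑ k ∈ t, pr2 a (H k) := by
  simp only [pr2, Finset.sum_apply, Finset.mul_sum]
  exact (Finset.sum_congr rfl fun _ _ => Finset.sum_comm).trans Finset.sum_comm

variable {M : Type} [Mfs n M] {P : Pc M} {K ρ : ℝ} {g a : Fld n M}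

theorem HoS.app {ι V : Type} [Fintype ι] [NormedAddCommGroup V] {A : ℝ} {F : M → ι → V}
    (h : HoS α A F) (i : ι) : HoS α A fun x => F x i := fun x => (h x).app i

/-- the differentials of the coordinates -/
def Pc.d (P : Pc M) (k : Fin n) : M → Vc n := D1 fun z => P.τ z k

/-- their products -/
def Pc.dd (P : Pc M) (k l : Fin n) : Fld n M := fun x i j => P.d k x i * P.d l x j

/-- the first order part of the Hessian of a piece -/
def Pc.T (P : Pc M) (g : Fld n M) (k : Fin n) : Fld n M := fun x =>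
  P.β x • hess g (fun z => P.τ z k) x + (fun i j => D1 P.β x i * P.d k x j) +
    fun i j => P.d k x i * D1 P.β x j

theorem Pc.Ok.cd (hP : P.Ok K) {V : E n → ℝ} (hV : ContDiff ℝ 2 V) :
    CD 2 fun z => P.β z * V (P.τ z) := hP.tβ.sm.two.mul (hV.compM (hP.smτ.of_le two_le_oo))

theorem Pc.Ok.d1 (hP : P.Ok K) {V : E n → ℝ} (hV : ContDiff ℝ 2 V) :
    D1 (fun z => P.β z * V (P.τ z)) = fun x => V (P.τ x) • D1 P.β x +
      ∑ k, (P.β x * P366Y.D1 V (P.τ x) k) • P.d k x := by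
  funext x i
  have t := hP.smτ.differentiable (by simp) x
  have v := hV.differentiable (by simp) (P.τ x)
  simp only [D1, pd_mul (hP.tβ.sm.diff x) (v.compM t), pd_comp_E v t, Pi.add_apply, Pi.smul_apply,
    Finset.sum_apply, smul_eq_mul, Pc.d, P366Y.D1, Finset.mul_sum]
  rw [mul_comm]
  exact congrArg _ (Finset.sum_congr rfl fun k _ => by ring)

theorem Pc.Ok.d2 (hP : P.Ok K) (g : Fld n M) {V : E n → ℝ} (hV : ContDiff ℝ 2 V) :
    hess g (fun z => P.β z * V (P.τ z)) = fun x =>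
      ∑ k, ∑ l, (P.β x * P366Y.D2 V (P.τ x) k l) • P.dd k l x +
        (V (P.τ x) • hess g P.β x + ∑ k, P366Y.D1 V (P.τ x) k • P.T g k x) := by
  funext x i j
  have t : CAt 2 P.τ x := (hP.smτ.of_le two_le_oo).contDiffAt
  have v := hV.differentiable (by simp) (P.τ x)
  rw [hess_mul (hP.tβ.sm.c2 x) (hV.contDiffAt.compM t), hess_comp_E hV.contDiffAt t,
    pd_comp_E v (t.differentiableAt (by simp)), pd_comp_E v (t.differentiableAt (by simp))]
  simp only [Pi.add_apply, Pi.smul_apply, Finset.sum_apply,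
    smul_eq_mul, Pc.dd, Pc.T, Pc.d, D1, P366Y.D1, P366Y.D2, Finset.mul_sum, Finset.sum_mul, mul_add,
    Finset.sum_add_distrib, mul_assoc, mul_comm, mul_left_comm]
  ring

/-- a common bound for the data of a patch -/
structure Pc.Bd (P : Pc M) (g : Fld n M) (α b : ℝ) : Prop where
  β0 : HoS α b P.β
  β1 : HoC α b (D1 P.β)
  β2 : HoT α b (hess g P.β)
  d : ∀ k, HoC α b (P.d k)
  dd : ∀ k l, HoT α b (P.dd k l)
  T : ∀ k, HoT α b (P.T g k)

theorem Pc.Bd.mono {b b' : ℝ} (h : P.Bd g α b) (hb : b ≤ b') : P.Bd g α b' :=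
  ⟨h.β0.mono hb, h.β1.mono hb, h.β2.mono hb, fun k => (h.d k).mono hb,
    fun k l => (h.dd k l).mono hb, fun k => (h.T k).mono hb⟩

theorem Pc.Ok.bd (hP : P.Ok K) (hg : Met g) (hf : Flat g ρ) (h0 : 0 ≤ α) (h1 : α ≤ 1) :
    ∃ b, P.Bd g α b := by
  obtain ⟨a₀, b₀⟩ := hP.tβ.hoS (S := 1) fun x => abs_le.2 ⟨by linarith [(hP.β01 x).1], (hP.β01 x).2⟩
  obtain ⟨a₁, b₁⟩ := hP.tβ.hoC
  obtain ⟨a₂, b₂⟩ := hP.tβ.hoT hg hf
  obtain ⟨a₃, p₃, b₃⟩ := ex_fin (p := fun k a => HoC 1 a (P.d k)) (fun _ _ _ h k => k.mono h)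
    fun k => (hP.tτ k).hoC
  obtain ⟨a₄, p₄, b₄⟩ := ex_fin (p := fun k a => HoT 1 a (hess g fun z => P.τ z k))
    (fun _ _ _ h k => k.mono h) fun k => (hP.tτ k).hoT hg hf
  have p₀ := b₀.nn
  have p₁ := b₁.nn
  have p₂ := b₂.nn
  have q₁ : 0 ≤ 2 * a₃ * a₃ := by positivity
  have q₂ : 0 ≤ 2 * a₀ * a₄ + 2 * a₁ * a₃ + 2 * a₃ * a₁ := by positivity
  exact ⟨8 * (a₀ + a₁ + a₂ + a₃ + 2 * a₃ * a₃ + (2 * a₀ * a₄ + 2 * a₁ * a₃ + 2 * a₃ * a₁)),
    (b₀.mono (by linarith)).of_one h0 h1, (b₁.mono (by linarith)).of_one h0 h1,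
    (b₂.mono (by linarith)).of_one h0 h1, fun k => ((b₃ k).mono (by linarith)).of_one h0 h1,
    fun k l => (((b₃ k).tens (b₃ l)).mono (by linarith)).of_one h0 h1,
    fun k => ((((HoT.smul b₀ (b₄ k)).add (b₁.tens (b₃ k))).add ((b₃ k).tens b₁)).mono
      (by linarith)).of_one h0 h1⟩

theorem Pc.Ok.c2 (hP : P.Ok K) {b C S : ℝ} (hb : P.Bd g α b) (B : Big M C) (h0 : 0 ≤ α)
    (h1 : α ≤ 1) {V : E n → ℝ} (hV : P366Y.C2H α S V) :
    HoS α ((n + 1) ^ 2 * (2 * b + 4 * b ^ 2) * (C * (K * S))) (fun z => P.β z * V (P.τ z)) ∧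
    HoC α ((n + 1) ^ 2 * (2 * b + 4 * b ^ 2) * (C * (K * S))) (D1 fun z => P.β z * V (P.τ z)) ∧
    HoT α ((n + 1) ^ 2 * (2 * b + 4 * b ^ 2) * (C * (K * S)))
      (hess g fun z => P.β z * V (P.τ z)) := by
  have S0 := Qe.nn hV.2.1
  have K1 := hP.K1
  have key : ∀ {W : Type} [NormedAddCommGroup W] {F : E n → W}, P366Y.Ho α S F →
      HoS α (C * (K * S)) fun x => F (P.τ x) := fun h =>
    B.hoS h0 h1 ((hP.comp h0 h1 S0 ⟨h.1, h.2⟩).mono (by nlinarith) le_rfl).hm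
  have v0 := key hV.2.1
  have v1 := key hV.2.2.1
  have v2 := key hV.2.2.2
  have b0 := hb.β0.nn
  have s0 := v0.nn
  generalize C * (K * S) = s at v0 v1 v2 s0
  have n0 : (0 : ℝ) ≤ n := n.cast_nonneg
  have e1 : 0 ≤ b * s := by positivity
  have e2 : 0 ≤ b ^ 2 * s := by positivity
  refine ⟨(hb.β0.mul v0).mono ?_, ?_, ?_⟩
  · nlinarith [mul_nonneg n0 e1, mul_nonneg n0 e2, mul_nonneg (sq_nonneg (n : ℝ)) e1,
      mul_nonneg (sq_nonneg (n : ℝ)) e2]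
  · rw [hP.d1 hV.1]
    refine ((HoC.smul v0 hb.β1).add (HoC.sum _ fun k _ =>
      HoC.smul (hb.β0.mul (v1.app k)) (hb.d k))).mono ?_
    simp only [Finset.sum_const, Finset.card_univ, Fintype.card_fin, nsmul_eq_mul]
    nlinarith [mul_nonneg n0 e1, mul_nonneg n0 e2, mul_nonneg (sq_nonneg (n : ℝ)) e1,
      mul_nonneg (sq_nonneg (n : ℝ)) e2]
  · rw [hP.d2 g hV.1]
    refine ((HoT.sum _ fun k _ => HoT.sum _ fun l _ =>
      HoT.smul (hb.β0.mul ((v2.app k).app l)) (hb.dd k l)).add ((HoT.smul v0 hb.β2).add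
        (HoT.sum _ fun k _ => HoT.smul (v1.app k) (hb.T k)))).mono ?_
    simp only [Finset.sum_const, Finset.card_univ, Fintype.card_fin, nsmul_eq_mul]
    nlinarith [mul_nonneg n0 e1, mul_nonneg n0 e2, mul_nonneg (sq_nonneg (n : ℝ)) e1,
      mul_nonneg (sq_nonneg (n : ℝ)) e2]

/-- the principal part in the coordinates of a patch -/
def Pc.A (P : Pc M) (a : Fld n M) (y : E n) : Mx n := P366Z.eu n y +
  P.pull (fun x => P.γ x • ((fun k l => pr2 (a x) (P.dd k l x)) - P366Z.eu n 0 : Mx n)) y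

theorem Pc.Ok.A_τ (hP : P.Ok K) (a : Fld n M) {x : M} (hx : P.β x ≠ 0) :
    P.A a (P.τ x) = fun k l => pr2 (a x) (P.dd k l x) := by
  have := (hP.sβ x hx).1
  rw [Pc.A, hP.pull_τ (by rw [this]; exact one_ne_zero), this, one_smul]
  exact add_sub_cancel _ _

theorem Pc.Ok.A_pos (hP : P.Ok K) (he : ∀ x, Pos (a x)) (y : E n) : Pos (P.A a y) := fun ξ hξ => by
  have p := e2_pos hξ
  rw [← quad_eu y] at p
  by_cases hy : y ∈ P.O
  · set x := P.σ y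
    have e : ∑ k, ∑ l, P.A a y k l * ξ k * ξ l = (1 - P.γ x) * e2 ξ +
        P.γ x * ∑ i, ∑ j, a x i j * (∑ k, ξ k * P.d k x i) * ∑ k, ξ k * P.d k x j := by
      have : ∑ i, ∑ j, a x i j * (∑ k, ξ k * P.d k x i) * ∑ k, ξ k * P.d k x j =
          ∑ k, ∑ l, pr2 (a x) (P.dd k l x) * ξ k * ξ l := by
        simp only [pr2, Pc.dd, Finset.mul_sum, Finset.sum_mul]
        rw [Finset.sum_congr rfl fun i _ => Finset.sum_comm, Finset.sum_comm,
          Finset.sum_congr rfl fun l _ => Finset.sum_congr rfl fun i _ => Finset.sum_comm,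
          Finset.sum_congr rfl fun l _ => Finset.sum_comm, Finset.sum_comm]
        exact Finset.sum_congr rfl fun _ _ => Finset.sum_congr rfl fun _ _ =>
          Finset.sum_congr rfl fun _ _ => Finset.sum_congr rfl fun _ _ => by ring
      rw [this, ← quad_eu y, Pc.A, P.pull_in hy]
      simp only [Pi.add_apply, Pi.smul_apply, Pi.sub_apply, smul_eq_mul, Finset.mul_sum,
        ← Finset.sum_add_distrib]
      exact Finset.sum_congr rfl fun _ _ => Finset.sum_congr rfl fun _ _ => by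
        simp only [P366Z.eu, x]; ring
    rw [e]
    rcases (hP.γ01 x).1.eq_or_lt with k | k
    · rw [← k]; simpa using e2_pos hξ
    · have := he x (fun i => ∑ k, ξ k * P.d k x i) fun h => hξ ((hP.sγ x k.ne').2.2 ξ (congrFun h))
      have := mul_nonneg (sub_nonneg.2 (hP.γ01 x).2) (e2_nonneg ξ)
      positivity
  · rwa [Pc.A, P.pull_out hy, add_zero]

theorem Pc.Ok.A_far (hP : P.Ok K) (hi : ∀ x, ρ ≤ ‖px x‖ → a x = eu n x) :
    ∃ R, ∀ y, R ≤ ‖y‖ → P.A a y = P366Z.eu n y := by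
  obtain ⟨R, hR⟩ := hP.far ρ
  refine ⟨R, fun y h => ?_⟩
  by_cases hy : y ∈ P.O
  · obtain ⟨h1, h2⟩ := hR y hy h
    rw [Pc.A, P.pull_in hy, hi _ h1, sub_eq_zero.2, smul_zero, add_zero]
    funext k l
    simp [pr2, Pc.dd, Pc.d, D1, h2, eu, P366Z.eu, eq_comm]
  · rw [Pc.A, P.pull_out hy, add_zero]

theorem Pc.Ok.A_hb (hP : P.Ok K) {A b C : ℝ} (hb : P.Bd g α b) (B : Big M C) (h0 : 0 ≤ α)
    (h1 : α ≤ 1) (ha : HoU α A a) : ∃ A' B', 0 ≤ B' ∧ HB α (P.A a) A' B' := by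
  have k1 : HoS α _ fun x k l => pr2 (a x) (P.dd k l x) := fun x =>
    hoB_pi (by have := ha.nn; have := hb.β0.nn; positivity) fun k =>
      hoB_pi (by have := ha.nn; have := hb.β0.nn; positivity) fun l => ha.pr2 (hb.dd k l) x
  have k2 := B.hm h0 h1 ((B.hoS h0 h1 (hP.hmγ h0 h1)).smul (k1.dif (hoS_const (P366Z.eu n 0))))
  have k3 := hP.pull_hb h0 h1 k2.nonneg k2.hn fun x hx => by rw [hx, zero_smul]
  have k4 : HB α (P366Z.eu n : E n → Mx n) ‖(P366Z.eu n 0 : Mx n)‖ 0 :=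
    ⟨fun _ => le_rfl, fun y z => by
      rw [show (P366Z.eu n y : Mx n) = P366Z.eu n z from rfl, sub_self, norm_zero, zero_mul]⟩
  have := k2.nonneg
  have := hP.K1
  exact ⟨_, _, by positivity, V.HB.add k4 k3⟩

theorem jet_hn {v : E n → ℝ} (hv : ContDiff ℝ 2 v) {τ : M → E n} {A B : ℝ}
    (h : HN α (fun x => (v (τ x), fderiv ℝ v (τ x))) A B) :
    HN α (fun x => v (τ x)) A B ∧ ∀ k, HN α (fun x => P366Y.D1 v (τ x) k) A B := by
  have o1 : ∀ (T : E n →L[ℝ] ℝ) k, ‖T (EuclideanSpace.single k 1)‖ ≤ ‖T‖ := fun T k => by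
    simpa using T.le_opNorm (EuclideanSpace.single k 1)
  have d1 : ∀ y k, P366Y.D1 v y k = fderiv ℝ v y (EuclideanSpace.single k 1) :=
    fun y k => P366Z.pd_eq (hv.differentiable (by simp) y) k
  refine ⟨⟨fun x => (le_max_left _ _).trans (h.sup x), fun x y => (le_max_left _ _).trans (h.hol x y)⟩,
    fun k => ⟨fun x => ?_, fun x y => ?_⟩⟩
  · rw [d1]; exact (o1 _ k).trans ((le_max_right _ _).trans (h.sup x))
  · rw [d1, d1, ← sub_apply]
    exact (o1 _ k).trans ((le_max_right _ _).trans (h.hol x y))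

/-- the operator on the jets of a piece -/
def Pc.Φ (P : Pc M) (g a : Fld n M) (c : M → ℝ) (l : ℝ) (x : M) : Jet (E n) →L[ℝ] ℝ :=
  P.β x • V.opJet l (op fun k l => pr2 (a x) (P.dd k l x)) 0 -
    ((pr2 (a x) (hess g P.β x) - c x * P.β x) • ContinuousLinearMap.fst ℝ ℝ _ +
      ∑ k, pr2 (a x) (P.T g k x) •
        (ContinuousLinearMap.apply ℝ ℝ (EuclideanSpace.single k 1 : E n)).comp
          ((ContinuousLinearMap.fst ℝ _ _).comp (ContinuousLinearMap.snd ℝ ℝ _)))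

theorem Pc.Φ_apply (P : Pc M) (g a : Fld n M) (c : M → ℝ) (l : ℝ) (x : M) {v : E n → ℝ}
    (hv : ContDiff ℝ 2 v) (y : E n) : P.Φ g a c l x (jet v y) =
      P.β x * (l * v y - pr2 (fun k l => pr2 (a x) (P.dd k l x)) (P366Y.D2 v y)) -
      ((pr2 (a x) (hess g P.β x) - c x * P.β x) * v y +
        ∑ k, pr2 (a x) (P.T g k x) * P366Y.D1 v y k) := by
  rw [← op_D2 _ hv.contDiffAt]
  simp [Pc.Φ, V.opJet, jet, P366Y.D1, P366Z.pd_eq (hv.differentiable (by simp) _)]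

theorem Pc.Ok.Φ_eq (hP : P.Ok K) (g a : Fld n M) (c : M → ℝ) (l : ℝ) (x : M) {v : E n → ℝ}
    (hv : ContDiff ℝ 2 v) : P.Φ g a c l x (jet v (P.τ x)) = l * (P.β x * v (P.τ x)) -
      pr2 (a x) (hess g (fun z => P.β z * v (P.τ z)) x) + c x * (P.β x * v (P.τ x)) := by
  rw [P.Φ_apply g a c l x hv, hP.d2 g hv]
  simp only [pr2_add, pr2_sum, Qe.pr2_smul]
  simp only [pr2, mul_sub, Finset.mul_sum, mul_comm, mul_left_comm]
  ring

theorem Pc.Ok.step (hP : P.Ok K) (h0 : 0 < α) (h1 : α < 1) {c : M → ℝ} {l C G : ℝ} (hl1 : 1 ≤ l)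
    (C0 : 0 ≤ C) (g0 : HM α G fun x => pr2 (a x) (hess g P.β x) - c x * P.β x)
    (g1 : ∀ k, HM α G fun x => pr2 (a x) (P.T g k x))
    (hl : ∀ (f : E n → ℝ) (N : ℝ), 0 ≤ N → HB α f (N * l ^ (-(α / 2))) N → ∃ v, ContDiff ℝ 2 v ∧
      ResBd α l C N v ∧ ∀ y, l * v y - pr2 (P.A a y) (P366Y.D2 v y) = f y)
    {f : M → ℝ} {N : ℝ} (hN : 0 ≤ N) (h : HN α f (N * l ^ (-(α / 2))) N) :
    ∃ (v : E n → ℝ) (f' : M → ℝ), (ContDiff ℝ 2 v ∧ ResBd α l (C * ((K + 2) * (4 + 2 * K))) N v) ∧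
      HN α f' ((1 + n) * (2 * G * (K * (C * ((K + 2) * (4 + 2 * K))))) * l ^ (-(1 / 2) : ℝ) *
        (N * l ^ (-(α / 2))))
        ((1 + n) * (2 * G * (K * (C * ((K + 2) * (4 + 2 * K))))) * l ^ (-(1 / 2) : ℝ) * N) ∧
      ∀ x, P.Φ g a c l x (jet v (P.τ x)) = P.β x * f x - f' x := by
  have K1 := hP.K1
  have hl0 : 0 < l := by linarith
  have q0 : 0 < l ^ (-(α / 2)) := Real.rpow_pos_of_pos hl0 _
  have hq : N * l ^ (-(α / 2)) ≤ N := mul_le_of_le_one_right hN (rpow_le_one' hl1 (by linarith))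
  obtain ⟨D, hD⟩ : ∃ D, D = (K + 2) * (4 + 2 * K) := ⟨_, rfl⟩
  have D0 : 0 ≤ D := by rw [hD]; positivity
  obtain ⟨v, v1, v2, v3⟩ := hl (P.pull fun x => P.γ x * f x) (D * N) (by positivity)
    ((hP.pull_hb h0.le h1.le (by positivity) (h.mul (hP.hmγ h0.le h1.le) hq)
      fun x hx => by rw [hx, zero_mul]).mono'
      (by rw [hD]; nlinarith [show 0 ≤ (K + 1) * (2 * 1 + K) * (N * l ^ (-(α / 2))) by positivity])
      (by rw [hD]; nlinarith [mul_le_mul_of_nonneg_left hq (show 0 ≤ 2 * 1 + K by positivity)]))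
  rw [← hD]
  have e : l ^ (-((1 + α) / 2)) = l ^ (-(1 / 2) : ℝ) * l ^ (-(α / 2)) := by
    rw [← Real.rpow_add hl0]
    congr 1
    ring
  obtain ⟨j0, j1⟩ := jet_hn v1 (A := K * (C * D) * l ^ (-(1 / 2) : ℝ) * (N * l ^ (-(α / 2))))
    (B := K * (C * D) * l ^ (-(1 / 2) : ℝ) * N)
    ((hP.comp h0.le h1.le (by positivity) (v2.jet1 h0 hl1 (by positivity))).mono (by
      rw [e]
      nlinarith [show 0 ≤ C * (D * N) * (l ^ (-(1 / 2) : ℝ) * l ^ (-(α / 2))) by positivity])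
      (le_of_eq (by ring)))
  have le : K * (C * D) * l ^ (-(1 / 2) : ℝ) * (N * l ^ (-(α / 2))) ≤
      K * (C * D) * l ^ (-(1 / 2) : ℝ) * N := by gcongr
  refine ⟨v, _, ⟨v1, res_mono hl0 v2 (le_of_eq (by ring))⟩,
    ((j0.mul g0 le).add (HN.sumc fun k => (j1 k).mul (g1 k) le)).mono (le_of_eq ?_) (le_of_eq ?_),
    fun x => ?_⟩
  · rw [Fintype.card_fin]; ring
  · rw [Fintype.card_fin]; ring
  · rw [P.Φ_apply g a c l x v1]
    congr 1
    by_cases hx : P.β x = 0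
    · simp [hx]
    · have := (hP.sβ x hx).1
      rw [← hP.A_τ a hx, v3, hP.pull_τ (by rw [this]; exact one_ne_zero), this, one_mul]

/-- **the resolvent** -/
theorem mres (h0 : 0 < α) (h1 : α < 1) (hg : Met g) (hf : Flat g ρ) {A : ℝ}
    (he : ∀ x, Pos (a x)) (ha : HoU α A a) (hi : ∀ x, ρ ≤ ‖px x‖ → a x = eu n x) {c : M → ℝ}
    (hc : HoS α A c) : ∀ᶠ l in atTop, ∃ D, 0 ≤ D ∧ ∀ (f : M → ℝ) (p q : ℝ), 0 ≤ q → HN α f p q →
      ∃ v, CD 2 v ∧ HoS α (D * (p + q)) v ∧ HoC α (D * (p + q)) (D1 v) ∧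
        HoT α (D * (p + q)) (hess g v) ∧
        ∀ x, l * v x - pr2 (a x) (hess g v x) + c x * v x = f x := by
  obtain ⟨ι, _, P, K, hP, hs⟩ := exists_pcs M
  obtain ⟨L, B⟩ := exists_big M
  obtain ⟨b, b0, hb⟩ := ex_fin (p := fun i b => (P i).Bd g α b) (fun _ _ _ h k => k.mono h)
    fun i => (hP i).bd hg hf h0.le h1.le
  obtain ⟨C, C0, hC⟩ := ex_fin (p := fun i C => ∀ᶠ l in atTop, ∀ (f : E n → ℝ) (N : ℝ), 0 ≤ N →
      HB α f (N * l ^ (-(α / 2))) N → ∃ v, ContDiff ℝ 2 v ∧ ResBd α l C N v ∧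
        ∀ y, l * v y - pr2 ((P i).A a y) (P366Y.D2 v y) = f y)
    (fun i C C' h k => (k.and (eventually_gt_atTop 0)).mono fun l ⟨k1, k2⟩ f N hN hf =>
      let ⟨v, v1, v2, v3⟩ := k1 f N hN hf
      ⟨v, v1, res_mono k2 v2 (mul_le_mul_of_nonneg_right h hN), v3⟩) fun i => by
    obtain ⟨R, hR⟩ := (hP i).A_far hi
    obtain ⟨A', B', k1, k2⟩ := (hP i).A_hb (hb i) B h0.le h1.le ha
    exact eres h0 h1 ((hP i).A_pos he) k1 k2 hR
  have A0 := ha.nn
  have L0 := B.pos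
  obtain ⟨K, K1, hP⟩ : ∃ K, 1 ≤ K ∧ ∀ i, (P i).Ok K :=
    ⟨max K 1, le_max_right _ _, fun i => (hP i).mono (le_max_left _ _)⟩
  obtain ⟨G, hG⟩ : ∃ G, G = 2 * L * (n * (n * (2 * A * b)) + 2 * A * b) := ⟨_, rfl⟩
  have g0 : ∀ i, HM α G fun x => pr2 (a x) (hess g (P i).β x) - c x * (P i).β x := fun i =>
    hG ▸ B.hm h0.le h1.le ((ha.pr2 (hb i).β2).dif (hc.mul (hb i).β0))
  have g1 : ∀ i k, HM α G fun x => pr2 (a x) ((P i).T g k x) := fun i k =>
    hG ▸ B.hm h0.le h1.le ((ha.pr2 ((hb i).T k)).mono (le_add_of_nonneg_right (by positivity)))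
  obtain ⟨D, hD⟩ : ∃ D, D = C * ((K + 2) * (4 + 2 * K)) := ⟨_, rfl⟩
  have D0 : 0 ≤ D := by rw [hD]; positivity
  have ht := (tendsto_rpow_neg_atTop (y := 1 / 2) (by norm_num)).const_mul
    (Fintype.card ι * ((1 + n) * (2 * G * (K * D))))
  rw [mul_zero] at ht
  filter_upwards [eventually_all.2 hC, eventually_ge_atTop 1,
    ht.eventually (Iic_mem_nhds one_half_pos)] with l hl hl1 hl2
  have hl0 : 0 < l := by linarith
  have q0 : 0 < l ^ (-(α / 2)) := Real.rpow_pos_of_pos hl0 _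
  have main := iter_m (α := α) (l := l) (C := D)
    (fun (f : M → ℝ) N => HN α f (N * l ^ (-(α / 2))) N)
    (fun f N hN h x => (h.sup x).trans (mul_le_of_le_one_right hN (rpow_le_one' hl1 (by linarith))))
    (fun i => (P i).τ) (fun i => (P i).Φ g a c l) fun f N hN h => by
      choose v f' v1 v2 v3 using fun i => (hP i).step h0 h1 hl1 C0 (g0 i) (g1 i) (hl i) hN h
      rw [← hD] at v1 v2
      refine ⟨v, _, v1, (HN.sumc v2).mono ?_ ?_, fun x => ?_⟩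
      · linarith [mul_le_mul_of_nonneg_right hl2 (show 0 ≤ N * l ^ (-(α / 2)) by positivity)]
      · linarith [mul_le_mul_of_nonneg_right hl2 hN]
      · simp only [v3, Finset.sum_sub_distrib, ← Finset.sum_mul, hs, one_mul]
  refine ⟨Fintype.card ι * ((n + 1) ^ 2 * (2 * b + 4 * b ^ 2) *
    (L * (K * (2 * D * l ^ (α / 2))))), by positivity, fun f p q hq h => ?_⟩
  have p0 := h.nn
  have hq' : 1 ≤ l ^ (α / 2) := Real.one_le_rpow hl1 (by linarith)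
  have e : l ^ (α / 2) * l ^ (-(α / 2)) = 1 := by
    rw [← Real.rpow_add hl0, add_neg_cancel, Real.rpow_zero]
  obtain ⟨v, hv, heq⟩ := main f (l ^ (α / 2) * (p + q)) (by positivity) (h.mono (by
    have : l ^ (α / 2) * (p + q) * l ^ (-(α / 2)) = p + q := by linear_combination (p + q) * e
    linarith) (by nlinarith))
  have k := fun i => (hP i).c2 (hb i) B h0.le h1.le
    (Lh.c2h (by positivity) (hv i).1 ((hv i).2.jet h0 hl1 (by positivity)))
  have c2 := fun i => (hP i).cd (hv i).1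
  have e1 : D1 (fun x => ∑ i, (P i).β x * v i ((P i).τ x)) =
      fun x => ∑ i, D1 (fun x => (P i).β x * v i ((P i).τ x)) x := by
    funext x j
    rw [Finset.sum_apply]
    exact pd_sum _ (fun i _ => diff2 (c2 i).contDiffAt) j
  have e2 : hess g (fun x => ∑ i, (P i).β x * v i ((P i).τ x)) =
      fun x => ∑ i, hess g (fun x => (P i).β x * v i ((P i).τ x)) x := by
    funext x j k
    rw [Finset.sum_apply, Finset.sum_apply]
    exact hess_sum _ (fun i _ => (c2 i).contDiffAt) j k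
  refine ⟨fun x => ∑ i, (P i).β x * v i ((P i).τ x), CD.sum fun i _ => c2 i,
    (HoS.sum _ fun i _ => (k i).1).mono (le_of_eq ?_),
    e1 ▸ (HoC.sum _ fun i _ => (k i).2.1).mono (le_of_eq ?_),
    e2 ▸ (HoT.sum _ fun i _ => (k i).2.2).mono (le_of_eq ?_), fun x => ?_⟩
  · rw [Finset.sum_const, Finset.card_univ, nsmul_eq_mul]; ring
  · rw [Finset.sum_const, Finset.card_univ, nsmul_eq_mul]; ring
  · rw [Finset.sum_const, Finset.card_univ, nsmul_eq_mul]; ring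
  · rw [← heq x, e2, pr2_sum, Finset.mul_sum, Finset.mul_sum, ← Finset.sum_sub_distrib,
      ← Finset.sum_add_distrib]
    exact Finset.sum_congr rfl fun i _ => ((hP i).Φ_eq g a c l x (hv i).1).symm

end Vale.Agent.P366M.Y
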